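import Vale.Agent.P146.H325.Cond
import Vale.Agent.P146.H325.Sk

/-!
Functions of the active row at a fixed bulk: the coordinates `w0` are kept, the active ones are
replaced by `y`. Directional derivatives in the calculus `KF`, integration by parts in a direction
`ν`, moments of `z = ∑ ν_e y_e`.
-/

open MeasureTheory ProbabilityTheory

namespace Vale.Agent.P146.H722

open Vale.Agent.P157.Lv Vale.Agent.P146.H425 Vale.Agent.P146.H332 Vale.Agent.P146.H325

set_option linter.unusedSectionVars false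

variable {ι : Type} [Fintype ι] [DecidableEq ι]

/-- the active coordinates of `w0` replaced by `y` -/
def mrg (A0 : Finset ι) (w0 : ι ⊕ ι → ℝ) (y : ι → ℝ) : ι ⊕ ι → ℝ :=
  Sum.elim (fun e => if e ∈ A0 then y e else w0 (Sum.inl e)) (fun e => w0 (Sum.inr e))

/-- the component in the direction `ν` -/
def zn (ν : ι → ℝ) (y : ι → ℝ) : ℝ := ∑ e, ν e * y e

section

variable {A0 : Finset ι} {w0 : ι ⊕ ι → ℝ} {ν : ι → ℝ}

lemma mrg_update {e : ι} (he : e ∈ A0) (w0 : ι ⊕ ι → ℝ) (y : ι → ℝ) (t : ℝ) :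
    mrg A0 w0 (Function.update y e t) = Function.update (mrg A0 w0 y) (Sum.inl e) t := by
  funext j
  rcases j with j | j
  · by_cases hj : j = e
    · subst hj
      simp [mrg, he]
    · have h1 : (Sum.inl j : ι ⊕ ι) ≠ Sum.inl e := fun h => hj (Sum.inl_injective h)
      rw [Function.update_of_ne h1]
      simp [mrg, Function.update_of_ne hj]
  · have h1 : (Sum.inr j : ι ⊕ ι) ≠ Sum.inl e := Sum.inr_ne_inl
    rw [Function.update_of_ne h1]
    simp [mrg]

lemma norm_mrg_le (w0 : ι ⊕ ι → ℝ) (y : ι → ℝ) : ‖mrg A0 w0 y‖ ≤ ‖w0‖ + ‖y‖ := by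
  rw [pi_norm_le_iff_of_nonneg (by positivity)]
  intro j
  rcases j with j | j
  · unfold mrg
    simp only [Sum.elim_inl]
    split_ifs
    · exact (norm_le_pi_norm y j).trans (by linarith [norm_nonneg w0])
    · exact (norm_le_pi_norm w0 _).trans (by linarith [norm_nonneg y])
  · unfold mrg
    simp only [Sum.elim_inr]
    exact (norm_le_pi_norm w0 _).trans (by linarith [norm_nonneg y])

lemma measurable_mrg (w0 : ι ⊕ ι → ℝ) : Measurable (mrg A0 w0) := by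
  refine measurable_pi_lambda _ fun j => ?_
  rcases j with j | j
  · unfold mrg
    simp only [Sum.elim_inl]
    split_ifs
    · exact measurable_pi_apply j
    · exact measurable_const
  · exact measurable_const

lemma eg_mrg {f : (ι ⊕ ι → ℝ) → ℝ} (hf : EG f) (w0 : ι ⊕ ι → ℝ) :
    EG fun y => f (mrg A0 w0 y) := by
  obtain ⟨C, a, hC, ha, hb⟩ := hf.bdd
  refine ⟨hf.meas.comp (measurable_mrg w0), C * Real.exp (a * ‖w0‖), a, by positivity, ha,
    fun y => (hb _).trans ?_⟩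
  rw [mul_assoc, ← Real.exp_add]
  gcongr
  have := norm_mrg_le (A0 := A0) w0 y
  nlinarith

lemma pd_mrg {f f' : (ι ⊕ ι → ℝ) → ℝ} {e : ι} (he : e ∈ A0) (h : PD (Sum.inl e) f f')
    (w0 : ι ⊕ ι → ℝ) : PD e (fun y => f (mrg A0 w0 y)) (fun y => f' (mrg A0 w0 y)) := by
  intro y t
  simp only [mrg_update he]
  exact h (mrg A0 w0 y) t

lemma eg_zn (ν : ι → ℝ) : EG (zn ν) :=
  EG.sum _ fun e _ => (EG.coord e).const_mul (ν e)

lemma pd_zn (ν : ι → ℝ) (e : ι) : PD e (zn ν) (fun _ => ν e) := by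
  have h := PD.sum (e := e) Finset.univ (H := fun j (y : ι → ℝ) => ν j * y j)
    (H' := fun j _ => ν j * (if j = e then 1 else 0)) fun j _ => (PD.coord j).const_mul (ν j)
  exact h.congr fun y => by simp

end

lemma ia {f g : (ι → ℝ) → ℝ} (hf : EG f) (hg : EG g) :
    ∫ y, (f y + g y) ∂(gI ι) = (∫ y, f y ∂(gI ι)) + ∫ y, g y ∂(gI ι) :=
  integral_add hf.integrable hg.integrable

lemma is' {f g : (ι → ℝ) → ℝ} (hf : EG f) (hg : EG g) :
    ∫ y, (f y - g y) ∂(gI ι) = (∫ y, f y ∂(gI ι)) - ∫ y, g y ∂(gI ι) :=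
  integral_sub hf.integrable hg.integrable

lemma isum {κ : Type*} (s : Finset κ) {f : κ → (ι → ℝ) → ℝ} (hf : ∀ i ∈ s, EG (f i)) :
    ∫ y, ∑ i ∈ s, f i y ∂(gI ι) = ∑ i ∈ s, ∫ y, f i y ∂(gI ι) :=
  integral_finsetSum _ fun i hi => (hf i hi).integrable

lemma ic (c : ℝ) (f : (ι → ℝ) → ℝ) :
    ∫ y, c * f y ∂(gI ι) = c * ∫ y, f y ∂(gI ι) := integral_const_mul c f

/-- functions of the row, directional derivatives -/
structure Dir (A0 : Finset ι) (ν : ι → ℝ) : Prop where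
  off : ∀ e ∉ A0, ν e = 0
  one : ∑ e ∈ A0, ν e ^ 2 = 1

section ibp

variable {A0 : Finset ι} {ν : ι → ℝ}

lemma Dir.one' (h : Dir A0 ν) : ∑ e, ν e ^ 2 = 1 := by
  rw [← h.one]
  refine (Finset.sum_subset (Finset.subset_univ A0) fun e _ he => ?_).symm
  rw [h.off e he]
  ring

lemma Dir.zn_eq (h : Dir A0 ν) (y : ι → ℝ) : zn ν y = ∑ e ∈ A0, ν e * y e := by
  unfold zn
  refine (Finset.sum_subset (Finset.subset_univ A0) fun e _ he => ?_).symm
  rw [h.off e he, zero_mul]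

/-- **Integration by parts in the direction `ν`.** -/
theorem ibp_dir (h : Dir A0 ν) {f : (ι → ℝ) → ℝ} {D : ι → (ι → ℝ) → ℝ} (hf : EG f)
    (hD : ∀ e ∈ A0, EG (D e)) (hpd : ∀ e ∈ A0, PD e f (D e)) {p p' : ℝ → ℝ}
    (hp : ∀ t, HasDerivAt p (p' t) t) (ep : EG fun y => p (zn ν y))
    (ep' : EG fun y => p' (zn ν y)) :
    ∫ y, f y * (zn ν y * p (zn ν y) - p' (zn ν y)) ∂(gI ι) =
      ∫ y, (∑ e ∈ A0, ν e * D e y) * p (zn ν y) ∂(gI ι) := by
  have key : ∀ e ∈ A0, ∫ y, y e * (f y * p (zn ν y)) ∂(gI ι) =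
      ∫ y, (D e y * p (zn ν y) + f y * (p' (zn ν y) * ν e)) ∂(gI ι) := by
    intro e he
    refine PD.stein (e := e) ?_ (hf.mul ep) (((hD e he).mul ep).add
      (hf.mul (ep'.mul (EG.const _))))
    refine ((hpd e he).mul (K' := fun y => p' (zn ν y) * ν e) ?_).congr fun y => by ring
    intro y t
    have h1 := pd_zn ν e y t
    exact (hp _).comp t h1
  have e1 : ∀ y, f y * (zn ν y * p (zn ν y) - p' (zn ν y)) =
      ∑ e ∈ A0, (ν e * (y e * (f y * p (zn ν y))) - ν e * (f y * (p' (zn ν y) * ν e))) := by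
    intro y
    have a1 : ∑ e ∈ A0, ν e * (y e * (f y * p (zn ν y))) = zn ν y * (f y * p (zn ν y)) := by
      rw [h.zn_eq, Finset.sum_mul]
      exact Finset.sum_congr rfl fun e _ => by ring
    have a2 : ∑ e ∈ A0, ν e * (f y * (p' (zn ν y) * ν e)) = f y * p' (zn ν y) := by
      calc ∑ e ∈ A0, ν e * (f y * (p' (zn ν y) * ν e)) =
          (∑ e ∈ A0, ν e ^ 2) * (f y * p' (zn ν y)) := by
            rw [Finset.sum_mul]
            exact Finset.sum_congr rfl fun e _ => by ring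
        _ = f y * p' (zn ν y) := by rw [h.one, one_mul]
    rw [Finset.sum_sub_distrib, a1, a2]
    ring
  have e2 : ∀ y, (∑ e ∈ A0, ν e * D e y) * p (zn ν y) =
      ∑ e ∈ A0, (ν e * (D e y * p (zn ν y) + f y * (p' (zn ν y) * ν e)) -
        ν e * (f y * (p' (zn ν y) * ν e))) := by
    intro y
    rw [Finset.sum_mul]
    exact Finset.sum_congr rfl fun e _ => by ring
  simp only [e1, e2]
  have i1 : ∀ e ∈ A0, EG (fun y => ν e * (y e * (f y * p (zn ν y)))) := fun e _ =>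
    (((EG.coord e).mul (hf.mul ep)).const_mul (ν e))
  have i2 : ∀ e ∈ A0, EG (fun y => ν e * (f y * (p' (zn ν y) * ν e))) := fun e _ =>
    ((hf.mul (ep'.mul (EG.const _))).const_mul (ν e))
  have i3 : ∀ e ∈ A0, EG (fun y => ν e * (D e y * p (zn ν y) +
      f y * (p' (zn ν y) * ν e))) := fun e he =>
    ((((hD e he).mul ep).add (hf.mul (ep'.mul (EG.const _)))).const_mul (ν e))
  rw [isum _ fun e he => (i1 e he).sub (i2 e he), isum _ fun e he => (i3 e he).sub (i2 e he)]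
  refine Finset.sum_congr rfl fun e he => ?_
  rw [is' (i1 e he) (i2 e he), is' (i3 e he) (i2 e he), ic (ν e) fun y => y e * (f y * p (zn ν y)),
    ic (ν e) fun y => D e y * p (zn ν y) + f y * (p' (zn ν y) * ν e), key e he]

/-- the case of a constant -/
lemma ibp_const (h : Dir A0 ν) {p p' : ℝ → ℝ} (hp : ∀ t, HasDerivAt p (p' t) t)
    (ep : EG fun y : ι → ℝ => p (zn ν y)) (ep' : EG fun y : ι → ℝ => p' (zn ν y)) :
    ∫ y, zn ν y * p (zn ν y) ∂(gI ι) = ∫ y, p' (zn ν y) ∂(gI ι) := by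
  have h1 := ibp_dir h (f := fun _ => 1) (D := fun _ _ => 0) (EG.const 1) (fun e _ => EG.const 0)
    (fun e _ => PD.const 1) hp ep ep'
  simp only [one_mul, mul_zero, Finset.sum_const_zero, zero_mul, integral_zero] at h1
  rw [integral_sub ((eg_zn ν).mul ep).integrable ep'.integrable] at h1
  linarith

lemma eg_znp (ν : ι → ℝ) (m : ℕ) : EG fun y : ι → ℝ => zn ν y ^ m := (eg_zn ν).pow m

lemma m1 (h : Dir A0 ν) : ∫ y, zn ν y ∂(gI ι) = 0 := by
  have := ibp_const h (p := fun _ => 1) (p' := fun _ => 0) (fun t => hasDerivAt_const t 1)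
    (EG.const 1) (EG.const 0)
  simpa using this

lemma m_rec (h : Dir A0 ν) (m : ℕ) : ∫ y, zn ν y ^ (m + 2) ∂(gI ι) =
    (m + 1) * ∫ y, zn ν y ^ m ∂(gI ι) := by
  have h1 := ibp_const h (p := fun t => t ^ (m + 1)) (p' := fun t => (m + 1 : ℝ) * t ^ m)
    (fun t => by simpa using hasDerivAt_pow (m + 1) t) (eg_znp ν (m + 1))
    ((eg_znp ν m).const_mul _)
  rw [integral_const_mul] at h1
  rw [← h1]
  congr 1
  funext y
  ring

lemma m0 : ∫ y, zn ν y ^ 0 ∂(gI ι) = 1 := by simp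

lemma m2 (h : Dir A0 ν) : ∫ y, zn ν y ^ 2 ∂(gI ι) = 1 := by
  have := m_rec h 0
  rw [m0] at this
  simpa using this

lemma m4 (h : Dir A0 ν) : ∫ y, zn ν y ^ 4 ∂(gI ι) = 3 := by
  have := m_rec h 2
  rw [m2 h] at this
  norm_num at this ⊢
  exact this

lemma m6 (h : Dir A0 ν) : ∫ y, zn ν y ^ 6 ∂(gI ι) = 15 := by
  have := m_rec h 4
  rw [m4 h] at this
  norm_num at this ⊢
  exact this

/-- **Bessel's inequality** for the first and the third chaos. -/
theorem bessel13 (h : Dir A0 ν) {f : (ι → ℝ) → ℝ} (hf : EG f) :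
    (∫ y, f y * zn ν y ∂(gI ι)) ^ 2 + (∫ y, f y * (zn ν y ^ 3 - 3 * zn ν y) ∂(gI ι)) ^ 2 / 6 ≤
      ∫ y, f y ^ 2 ∂(gI ι) := by
  set A := ∫ y, f y * zn ν y ∂(gI ι) with hA
  set B := ∫ y, f y * (zn ν y ^ 3 - 3 * zn ν y) ∂(gI ι) with hB
  have e1 := eg_zn ν
  have e3 : EG fun y => zn ν y ^ 3 - 3 * zn ν y := (e1.pow 3).sub (e1.const_mul 3)
  have h0 : 0 ≤ ∫ y, (f y - A * zn ν y - B / 6 * (zn ν y ^ 3 - 3 * zn ν y)) ^ 2 ∂(gI ι) :=
    integral_nonneg fun y => sq_nonneg _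
  have h1 : ∀ y, (f y - A * zn ν y - B / 6 * (zn ν y ^ 3 - 3 * zn ν y)) ^ 2 =
      f y ^ 2 + ((-2 * A) * (f y * zn ν y) + ((-(B / 3)) * (f y * (zn ν y ^ 3 - 3 * zn ν y)) +
        ((A ^ 2 - A * B + B ^ 2 / 4) * zn ν y ^ 2 + ((A * B / 3 - B ^ 2 / 6) * zn ν y ^ 4 +
          (B ^ 2 / 36) * zn ν y ^ 6)))) := by
    intro y
    ring
  simp only [h1] at h0
  have i1 := hf.pow 2
  have i2 := (hf.mul e1).const_mul (-2 * A)
  have i3 := (hf.mul e3).const_mul (-(B / 3))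
  have i4 := (e1.pow 2).const_mul (A ^ 2 - A * B + B ^ 2 / 4)
  have i5 := (e1.pow 4).const_mul (A * B / 3 - B ^ 2 / 6)
  have i6 := (e1.pow 6).const_mul (B ^ 2 / 36)
  rw [ia i1 (i2.add (i3.add (i4.add (i5.add i6)))),
    ia i2 (i3.add (i4.add (i5.add i6))), ia i3 (i4.add (i5.add i6)),
    ia i4 (i5.add i6), ia i5 i6, ic, ic, ic, ic, ic, ← hA, ← hB, m2 h, m4 h, m6 h] at h0
  nlinarith

end ibp

end Vale.Agent.P146.H722
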