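import Vale.Agent.P146.H722.Kap8

/-!
**KAPPA**, dictionary: `Vm` through the 4-tensor, `A1 = √s v·MM v`, the bound `|v·a| ≤ √n`,
the moments of a standard Gaussian.
-/

open MeasureTheory ProbabilityTheory

namespace Vale.Agent.P146.H722

open Vale.Agent.P157.Lv Vale.Agent.P146.H425 Vale.Agent.P146.H332 Vale.Agent.P146.H325
  Vale.Agent.P146.R1C Vale.Agent.P146.H712

set_option linter.unusedSectionVars false

variable {n : ℕ} {k x s : ℝ} {b b' : Fin n} {v : Fin n → ℝ}

lemma sp_sq' (σ : Fin n → ℤˣ) (i : Fin n) : sp σ i * sp σ i = 1 :=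
  congrFun (pr_self i) σ

lemma Xd_sq (hb : v b = 0) (σ : Fin n → ℤˣ) :
    Xd SkS (row b) (nuv b v) σ ^ 2 = ∑ i, ∑ j, v i * v j * pr i j σ := by
  rw [Xd_nuv hb]
  have h1 : ∑ j, v j * pr b j σ = sp σ b * ∑ j, v j * sp σ j := by
    rw [Finset.mul_sum]
    exact Finset.sum_congr rfl fun j _ => by unfold pr; ring
  have h2 : (∑ j, v j * sp σ j) ^ 2 = ∑ i, ∑ j, v i * v j * pr i j σ := by
    rw [sq, Finset.sum_mul]
    refine Finset.sum_congr rfl fun i _ => ?_
    rw [Finset.mul_sum]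
    exact Finset.sum_congr rfl fun j _ => by unfold pr; ring
  calc (∑ j, v j * pr b j σ) ^ 2 = (sp σ b * sp σ b) * (∑ j, v j * sp σ j) ^ 2 := by
        rw [h1]; ring
    _ = _ := by rw [sp_sq', one_mul, h2]

lemma Xd_four (hb : v b = 0) (σ : Fin n → ℤˣ) :
    Xd SkS (row b) (nuv b v) σ ^ 4 =
      ∑ i, ∑ j, ∑ p, ∑ q, v i * v j * v p * v q * (pr i j σ * pr p q σ) := by
  have h1 : Xd SkS (row b) (nuv b v) σ ^ 4 = (∑ i, ∑ j, v i * v j * pr i j σ) *
      (∑ p, ∑ q, v p * v q * pr p q σ) := by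
    rw [← Xd_sq hb]
    ring
  rw [h1, Finset.sum_mul]
  refine Finset.sum_congr rfl fun i _ => ?_
  rw [Finset.sum_mul]
  refine Finset.sum_congr rfl fun j _ => ?_
  rw [Finset.mul_sum]
  refine Finset.sum_congr rfl fun p _ => ?_
  rw [Finset.mul_sum]
  exact Finset.sum_congr rfl fun q _ => by ring

/-- `rl⟨T²⟩ = v·C v` -/
lemma RR_am2 (hb : v b = 0) (z : Pair n → ℝ) :
    RR k SkS x (cf s) (am k SkS (row b) (nuv b v) 2) z =
      ∑ i, ∑ j, v i * v j * AA k x s z i j := by
  have e1 : am k SkS (row b) (nuv b v) 2 =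
      fun u => ∑ i, ∑ j, v i * v j * av k SkS (pr i j) u := by
    funext u
    unfold am
    have e2 : (fun σ => Xd SkS (row b) (nuv b v) σ ^ 2) =
        fun σ => ∑ i, ∑ j, v i * v j * pr i j σ := funext fun σ => Xd_sq hb σ
    rw [e2, av_sum]
    refine Finset.sum_congr rfl fun i _ => ?_
    rw [av_sum]
    exact Finset.sum_congr rfl fun j _ => av_mul _ _ _ _ _
  rw [e1, RR_sum' Finset.univ (F := fun i u => ∑ j, v i * v j * av k SkS (pr i j) u)
    fun i _ => EG.sum _ fun j _ => (eg_av k SkS _).const_mul _]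
  refine Finset.sum_congr rfl fun i _ => ?_
  rw [RR_sum' Finset.univ (F := fun j u => v i * v j * av k SkS (pr i j) u)
    fun j _ => (eg_av k SkS _).const_mul _]
  exact Finset.sum_congr rfl fun j _ => RR_cm _ _ _

/-- `rl⟨T⁴⟩ = v⊗v⊗v⊗v · T4` -/
lemma RR_am4 (hb : v b = 0) (z : Pair n → ℝ) :
    RR k SkS x (cf s) (am k SkS (row b) (nuv b v) 4) z =
      ∑ i, ∑ j, ∑ p, ∑ q, v i * v j * v p * v q * T4 k x s z i j p q := by
  have e1 : am k SkS (row b) (nuv b v) 4 = fun u => ∑ i, ∑ j, ∑ p, ∑ q,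
      v i * v j * v p * v q * av k SkS (fun σ => pr i j σ * pr p q σ) u := by
    funext u
    unfold am
    have e2 : (fun σ => Xd SkS (row b) (nuv b v) σ ^ 4) = fun σ =>
        ∑ i, ∑ j, ∑ p, ∑ q, v i * v j * v p * v q * (pr i j σ * pr p q σ) :=
      funext fun σ => Xd_four hb σ
    rw [e2, av_sum]
    refine Finset.sum_congr rfl fun i _ => ?_
    rw [av_sum]
    refine Finset.sum_congr rfl fun j _ => ?_
    rw [av_sum]
    refine Finset.sum_congr rfl fun p _ => ?_
    rw [av_sum]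
    exact Finset.sum_congr rfl fun q _ => av_mul _ _ _ _ _
  have g4 : ∀ i j p q, EG fun u : Pair n → ℝ =>
      v i * v j * v p * v q * av k SkS (fun σ => pr i j σ * pr p q σ) u :=
    fun i j p q => (eg_av k SkS _).const_mul _
  rw [e1, RR_sum' Finset.univ (F := fun i u => ∑ j, ∑ p, ∑ q,
    v i * v j * v p * v q * av k SkS (fun σ => pr i j σ * pr p q σ) u)
    fun i _ => EG.sum _ fun j _ => EG.sum _ fun p _ => EG.sum _ fun q _ => g4 i j p q]
  refine Finset.sum_congr rfl fun i _ => ?_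
  rw [RR_sum' Finset.univ (F := fun j u => ∑ p, ∑ q,
    v i * v j * v p * v q * av k SkS (fun σ => pr i j σ * pr p q σ) u)
    fun j _ => EG.sum _ fun p _ => EG.sum _ fun q _ => g4 i j p q]
  refine Finset.sum_congr rfl fun j _ => ?_
  rw [RR_sum' Finset.univ (F := fun p u => ∑ q,
    v i * v j * v p * v q * av k SkS (fun σ => pr i j σ * pr p q σ) u)
    fun p _ => EG.sum _ fun q _ => g4 i j p q]
  refine Finset.sum_congr rfl fun p _ => ?_
  rw [RR_sum' Finset.univ (F := fun q u =>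
    v i * v j * v p * v q * av k SkS (fun σ => pr i j σ * pr p q σ) u)
    fun q _ => g4 i j p q]
  exact Finset.sum_congr rfl fun q _ => RR_cm _ _ _

/-- the fluctuation of `T²` through the tensors -/
lemma RR_Vo (hb : v b = 0) (lam : ℝ) (z : Pair n → ℝ) :
    RR k SkS x (cf s) (Vo k SkS (row b) (nuv b v) lam) z =
      (∑ i, ∑ j, ∑ p, ∑ q, v i * v j * v p * v q * T4 k x s z i j p q) -
        2 * lam * (∑ i, ∑ j, v i * v j * AA k x s z i j) + lam ^ 2 := by
  have e1 : Vo k SkS (row b) (nuv b v) lam = fun u =>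
      (am k SkS (row b) (nuv b v) 4 u + (-2 * lam) * am k SkS (row b) (nuv b v) 2 u) +
        lam ^ 2 := by
    funext u
    rw [Vo_eq]
    ring
  rw [e1, RR_add' ((eg_am 4).add ((eg_am 2).const_mul _)) (EG.const _),
    RR_add' (eg_am 4) ((eg_am 2).const_mul _), RR_cm, RR_const', RR_am4 hb, RR_am2 hb]
  ring

/-- four weights -/
lemma sum4_sq (hv : ∑ i, v i ^ 2 = 1) :
    ∑ i, ∑ j, ∑ p, ∑ q, (v i * v j * v p * v q) ^ 2 = 1 := by
  have e : ∀ i j p : Fin n, ∑ q, (v i * v j * v p * v q) ^ 2 = (v i * v j * v p) ^ 2 := by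
    intro i j p
    simp only [mul_pow (v i * v j * v p)]
    rw [← Finset.mul_sum, hv, mul_one]
  have e2 : ∀ i j : Fin n, ∑ p, (v i * v j * v p) ^ 2 = (v i * v j) ^ 2 := by
    intro i j
    simp only [mul_pow (v i * v j)]
    rw [← Finset.mul_sum, hv, mul_one]
  have e3 : ∀ i : Fin n, ∑ j, (v i * v j) ^ 2 = v i ^ 2 := by
    intro i
    simp only [mul_pow (v i)]
    rw [← Finset.mul_sum, hv, mul_one]
  simp only [e, e2, e3, hv]

/-- Cauchy-Schwarz for the 4-tensor -/
lemma tens_le (hv : ∑ i, v i ^ 2 = 1) (K : Fin n → Fin n → Fin n → Fin n → ℝ) :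
    ∑ i, ∑ j, ∑ p, ∑ q, v i * v j * v p * v q * K i j p q ≤
      √(∑ i, ∑ j, ∑ p, ∑ q, K i j p q ^ 2) := by
  have h := Finset.sum_mul_sq_le_sq_mul_sq (Finset.univ : Finset (Fin n × Fin n × Fin n × Fin n))
    (fun t => v t.1 * v t.2.1 * v t.2.2.1 * v t.2.2.2) (fun t => K t.1 t.2.1 t.2.2.1 t.2.2.2)
  simp only [Fintype.sum_prod_type] at h
  rw [sum4_sq hv, one_mul] at h
  exact Real.le_sqrt_of_sq_le h

/-- Cauchy-Schwarz for the matrix -/
lemma mat_sq_le (hv : ∑ i, v i ^ 2 = 1) (K : Fin n → Fin n → ℝ) :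
    (∑ i, ∑ j, v i * v j * K i j) ^ 2 ≤ ∑ i, ∑ j, K i j ^ 2 := by
  have h := Finset.sum_mul_sq_le_sq_mul_sq (Finset.univ : Finset (Fin n × Fin n))
    (fun t => v t.1 * v t.2) (fun t => K t.1 t.2)
  simp only [Fintype.sum_prod_type] at h
  have e : ∑ i, ∑ j, (v i * v j) ^ 2 = 1 := by
    have e3 : ∀ i : Fin n, ∑ j, (v i * v j) ^ 2 = v i ^ 2 := by
      intro i
      simp only [mul_pow (v i)]
      rw [← Finset.mul_sum, hv, mul_one]
    simp only [e3, hv]
  rwa [e, one_mul] at h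

lemma eg_T4 (hx : 0 ≤ x) (i j p q : Fin n) : EG fun z => T4 k x s z i j p q :=
  eg_RR (ob_av k SkS x _) hx s

/-- the covariance of the overlaps at a position -/
noncomputable def KVs (k x s : ℝ) (z : Pair n → ℝ) : ℝ := ∑ i, ∑ j, ∑ p, ∑ q,
  (T4 k x s z i j p q - AA k x s z i j * AA k x s z p q) ^ 2

lemma eg_KVs (hx : 0 ≤ x) : EG fun z : Pair n → ℝ => KVs k x s z := by
  unfold KVs
  exact EG.sum _ fun i _ => EG.sum _ fun j _ => EG.sum _ fun p _ => EG.sum _ fun q _ =>
    ((eg_T4 hx i j p q).sub ((eg_AA s i j).mul (eg_AA s p q))).pow 2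

lemma KVs_nonneg (z : Pair n → ℝ) : 0 ≤ KVs k x s z :=
  Finset.sum_nonneg fun _ _ => Finset.sum_nonneg fun _ _ => Finset.sum_nonneg fun _ _ =>
    Finset.sum_nonneg fun _ _ => sq_nonneg _

/-- the averaged matrix -/
noncomputable def CBm (k x s : ℝ) (b b' : Fin n) (z : Pair n → ℝ) (i j : Fin n) : ℝ :=
  AvP s (row b ∪ row b') (fun z => AA k x s z i j) z

/-- **`Vm ≤ √(AvP KV) + AvP |C - CB|²`** for `lam = v·CB v`, times any `mu > 0`. -/
theorem Vm_le (hx : 0 ≤ x) (hv : ∑ i, v i ^ 2 = 1) (hb : v b = 0) {mu : ℝ} (hmu : 0 < mu)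
    (z : Pair n → ℝ) :
    Vm k x s b b' v (∑ i, ∑ j, v i * v j * CBm k x s b b' z i j) z ≤
      (mu / 2 + AvP s (row b ∪ row b') (fun z => KVs k x s z) z / (2 * mu)) +
        AvP s (row b ∪ row b')
          (fun z' => ∑ i, ∑ j, (AA k x s z' i j - CBm k x s b b' z i j) ^ 2) z := by
  set lam := ∑ i, ∑ j, v i * v j * CBm k x s b b' z i j with hlam
  have g1 : EG fun z' : Pair n → ℝ =>
      ∑ i, ∑ j, (AA k x s z' i j - CBm k x s b b' z i j) ^ 2 :=
    EG.sum _ fun i _ => EG.sum _ fun j _ => ((eg_AA s i j).sub (EG.const _)).pow 2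
  have gK := eg_KVs (n := n) (k := k) (s := s) hx
  have hpt : ∀ z', RR k SkS x (cf s) (Vo k SkS (row b) (nuv b v) lam) z' ≤
      (mu / 2 + (1 / (2 * mu)) * KVs k x s z') +
        ∑ i, ∑ j, (AA k x s z' i j - CBm k x s b b' z i j) ^ 2 := by
    intro z'
    rw [RR_Vo hb]
    set M := ∑ i, ∑ j, v i * v j * AA k x s z' i j with hM
    have e1 : (∑ i, ∑ j, ∑ p, ∑ q, v i * v j * v p * v q * T4 k x s z' i j p q) =
        (∑ i, ∑ j, ∑ p, ∑ q, v i * v j * v p * v q *
          (T4 k x s z' i j p q - AA k x s z' i j * AA k x s z' p q)) + M ^ 2 := by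
      have e2 : M ^ 2 = ∑ i, ∑ j, ∑ p, ∑ q, v i * v j * v p * v q *
          (AA k x s z' i j * AA k x s z' p q) := by
        rw [sq, hM, Finset.sum_mul]
        refine Finset.sum_congr rfl fun i _ => ?_
        rw [Finset.sum_mul]
        refine Finset.sum_congr rfl fun j _ => ?_
        rw [Finset.mul_sum]
        refine Finset.sum_congr rfl fun p _ => ?_
        rw [Finset.mul_sum]
        exact Finset.sum_congr rfl fun q _ => by ring
      rw [e2]
      simp only [← Finset.sum_add_distrib]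
      refine Finset.sum_congr rfl fun i _ => Finset.sum_congr rfl fun j _ =>
        Finset.sum_congr rfl fun p _ => Finset.sum_congr rfl fun q _ => by ring
    have h1 : ∑ i, ∑ j, ∑ p, ∑ q, v i * v j * v p * v q *
        (T4 k x s z' i j p q - AA k x s z' i j * AA k x s z' p q) ≤ √(KVs k x s z') :=
      tens_le hv fun i j p q => T4 k x s z' i j p q - AA k x s z' i j * AA k x s z' p q
    have h2 : √(KVs k x s z') ≤ mu / 2 + (1 / (2 * mu)) * KVs k x s z' := by
      have h3 := Real.sq_sqrt (KVs_nonneg (k := k) (x := x) (s := s) z')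
      have h4 : 0 ≤ (mu - √(KVs k x s z')) ^ 2 * (1 / (2 * mu)) := by positivity
      have h5 : (mu - √(KVs k x s z')) ^ 2 * (1 / (2 * mu)) =
          mu / 2 + (1 / (2 * mu)) * KVs k x s z' - √(KVs k x s z') := by
        rw [sub_sq, h3]
        field_simp
        ring
      linarith
    have h6 : (M - lam) ^ 2 ≤ ∑ i, ∑ j, (AA k x s z' i j - CBm k x s b b' z i j) ^ 2 := by
      have e3 : M - lam = ∑ i, ∑ j, v i * v j * (AA k x s z' i j - CBm k x s b b' z i j) := by
        rw [hM, hlam, ← Finset.sum_sub_distrib]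
        refine Finset.sum_congr rfl fun i _ => ?_
        rw [← Finset.sum_sub_distrib]
        exact Finset.sum_congr rfl fun j _ => by ring
      rw [e3]
      exact mat_sq_le hv _
    rw [e1]
    have h7 : (M - lam) ^ 2 = M ^ 2 - 2 * lam * M + lam ^ 2 := by ring
    rw [h7] at h6
    linarith
  have h := AvP_mono (s := s) (R := row b ∪ row b') (egRV (k := k) hx lam)
    (((EG.const (mu / 2)).add (gK.const_mul (1 / (2 * mu)))).add g1) hpt z
  rw [AvP_add ((EG.const (mu / 2)).add (gK.const_mul (1 / (2 * mu)))) g1,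
    AvP_add (EG.const _) (gK.const_mul _), AvP_const, AvP_const_mul] at h
  refine h.trans (le_of_eq ?_)
  ring

/-- **`A1 = √s v·MM v`.** -/
theorem A1_MM (hx : 0 ≤ x) (hs : 0 < s) (hs1 : s ≤ 1)
    (hbb : b ≠ b') (hv : ∑ i, v i ^ 2 = 1) (hb : v b = 0) (hb' : v b' = 0) (z : Pair n → ℝ) :
    A1 k x s b b' v z = √s * ∑ i, ∑ j, v i * v j * R1C.MM k x s b b' z i j := by
  rw [A1_eq hx hs hs1 hbb hv hb hb']
  congr 1
  have eR1 := egRp (k := k) (s := s) (b := b) (v := v) hx 2
  have eR2 := egRm (k := k) (s := s) (b := b) (v := v) hx 2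
  have eR3 : EG fun z => RR k SkS x (cf s) (c1 k SkS (row b) (nuv b v)) z ^ 2 :=
    (eg_c1R hx).pow 2
  have hob : ∀ i j, EG (RR k (SkS (n := n)) x (cf s)
      (fun u => av k SkS (pr i b) u * av k SkS (pr j b) u)) := fun i j => by
    obtain ⟨F', h⟩ := ob_avav k (SkS (n := n)) x (pr i b) (pr j b)
    exact eg_RR h hx s
  have egH : ∀ i j, EG fun z => HH k x s b z i j := fun i j => by
    unfold HH
    exact ((eg_AA s i j).sub ((hob i j).const_mul _)).sub
      (((eg_AA s i b).mul (eg_AA s j b)).const_mul x)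
  have e1 : ∀ z, ∑ i, ∑ j, v i * v j * HH k x s b z i j =
      RR k SkS x (cf s) (am k SkS (row b) (nuv b v) 2) z +
        ((-(1 - x)) * RR k SkS x (cf s) (fun u => c1 k SkS (row b) (nuv b v) u ^ 2) z +
        (-x) * RR k SkS x (cf s) (c1 k SkS (row b) (nuv b v)) z ^ 2) := by
    intro z
    have e2 : RR k SkS x (cf s) (fun u => c1 k SkS (row b) (nuv b v) u ^ 2) z =
        ∑ i, ∑ j, v i * v j * RR k SkS x (cf s)
          (fun u => av k SkS (pr i b) u * av k SkS (pr j b) u) z := by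
      have e3 : (fun u => c1 k SkS (row b) (nuv b v) u ^ 2) = fun u => ∑ i, ∑ j,
          v i * v j * (av k SkS (pr i b) u * av k SkS (pr j b) u) := by
        funext u
        have e4 : c1 k SkS (row b) (nuv b v) u = ∑ i, v i * av k SkS (pr i b) u := by
          unfold c1 am
          have e2 : (fun σ => Xd SkS (row b) (nuv b v) σ ^ 1) =
              fun σ => ∑ i, v i * pr i b σ := by
            funext σ
            rw [pow_one, Xd_nuv hb]
            exact Finset.sum_congr rfl fun i _ => by rw [pr_comm]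
          rw [e2, av_sum]
          exact Finset.sum_congr rfl fun i _ => av_mul _ _ _ _ _
        rw [e4, sq, Finset.sum_mul]
        refine Finset.sum_congr rfl fun i _ => ?_
        rw [Finset.mul_sum]
        exact Finset.sum_congr rfl fun j _ => by ring
      rw [e3, RR_sum' Finset.univ (F := fun i u => ∑ j,
        v i * v j * (av k SkS (pr i b) u * av k SkS (pr j b) u)) fun i _ =>
        EG.sum _ fun j _ => ((eg_av k SkS _).mul (eg_av k SkS _)).const_mul _]
      refine Finset.sum_congr rfl fun i _ => ?_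
      rw [RR_sum' Finset.univ (F := fun j u =>
        v i * v j * (av k SkS (pr i b) u * av k SkS (pr j b) u)) fun j _ =>
        ((eg_av k SkS _).mul (eg_av k SkS _)).const_mul _]
      exact Finset.sum_congr rfl fun j _ => RR_cm _ _ _
    have e5 : RR k SkS x (cf s) (c1 k SkS (row b) (nuv b v)) z ^ 2 =
        ∑ i, ∑ j, v i * v j * (AA k x s z i b * AA k x s z j b) := by
      rw [RR_c1 hx hb, sq, Finset.sum_mul]
      refine Finset.sum_congr rfl fun i _ => ?_
      rw [Finset.mul_sum]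
      exact Finset.sum_congr rfl fun j _ => by ring
    rw [RR_am2 hb, e2, e5, Finset.mul_sum, Finset.mul_sum, ← Finset.sum_add_distrib,
      ← Finset.sum_add_distrib]
    refine Finset.sum_congr rfl fun i _ => ?_
    rw [Finset.mul_sum, Finset.mul_sum, ← Finset.sum_add_distrib, ← Finset.sum_add_distrib]
    refine Finset.sum_congr rfl fun j _ => ?_
    unfold HH
    ring
  have e6 : ∑ i, ∑ j, v i * v j * R1C.MM k x s b b' z i j =
      k * AvP s (row b ∪ row b') (fun z => ∑ i, ∑ j, v i * v j * HH k x s b z i j) z := by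
    rw [AvP_sum (f := fun i z => ∑ j, v i * v j * HH k x s b z i j) Finset.univ fun i _ =>
      EG.sum _ fun j _ => (egH i j).const_mul _, Finset.mul_sum]
    refine Finset.sum_congr rfl fun i _ => ?_
    rw [AvP_sum (f := fun j z => v i * v j * HH k x s b z i j) Finset.univ fun j _ =>
      (egH i j).const_mul _, Finset.mul_sum]
    refine Finset.sum_congr rfl fun j _ => ?_
    rw [AvP_const_mul]
    unfold R1C.MM
    ring
  rw [e6]
  congr 1
  simp only [e1]
  rw [AvP_add eR2 ((eR1.const_mul _).add (eR3.const_mul _)),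
    AvP_add (eR1.const_mul _) (eR3.const_mul _), AvP_const_mul, AvP_const_mul]
  unfold Qm Pm Em'
  ring

end Vale.Agent.P146.H722
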