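import Vale.Agent.P146.H722.Kap6
import Vale.Agent.P146.H332.CPos
import Vale.Agent.P146.H826.LawP

/-!
**KAPPA in the objects of block C**: the clean row function `∑ v_i cl0 (put b (√s • y) z) i`,
its first and third Stein coefficients in the direction `v`.
-/

open MeasureTheory ProbabilityTheory

namespace Vale.Agent.P146.H722

open Vale.Agent.P157.Lv Vale.Agent.P146.H425 Vale.Agent.P146.H332 Vale.Agent.P146.H325
  Vale.Agent.P146.R1C Vale.Agent.P146.H712

set_option linter.unusedSectionVars false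

variable {n : ℕ}

/-- the direction `v` in the row of `b` -/
noncomputable def nuv (b : Fin n) (v : Fin n → ℝ) (e : Pair n) : ℝ :=
  if e ∈ row b then v (oth b e) else 0

lemma nuv_row {b : Fin n} {v : Fin n → ℝ} {e : Pair n} (he : e ∈ row b) :
    nuv b v e = v (oth b e) := if_pos he

lemma dir_nuv {b : Fin n} {v : Fin n → ℝ} (hv : ∑ i, v i ^ 2 = 1) (hb : v b = 0) :
    Dir (row b) (nuv b v) := by
  refine ⟨fun e he => if_neg he, ?_⟩
  rw [Finset.sum_congr rfl fun e he => by rw [nuv_row he],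
    sum_row_all b (G := fun j => v j ^ 2) (by simp [hb])]
  exact hv

/-- the sum over the row -/
lemma sum_nuv {b : Fin n} {v : Fin n → ℝ} (hb : v b = 0) (G : Fin n → ℝ) :
    ∑ e ∈ row b, nuv b v e * G (oth b e) = ∑ j, v j * G j := by
  rw [Finset.sum_congr rfl fun e he => by rw [nuv_row he],
    sum_row_all b (G := fun j => v j * G j) (by simp [hb])]

lemma Xd_nuv {b : Fin n} {v : Fin n → ℝ} (hb : v b = 0) (σ : Fin n → ℤˣ) :
    Xd SkS (row b) (nuv b v) σ = ∑ j, v j * pr b j σ := by
  unfold Xd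
  rw [← sum_nuv hb]
  exact Finset.sum_congr rfl fun e he => by rw [SkS_oth he]

variable {k x s : ℝ} {b b' : Fin n} {v : Fin n → ℝ}

/-! ### the bridge -/

lemma rl_mrg (z y : Pair n → ℝ) (F : (Pair n → ℝ) → ℝ) :
    rl k SkS x (row b) (Lid (Pair n) s) F s (mrg (row b) (Sum.elim z 0) y) =
      RR k SkS x (cf s) F (sw (row b) z (√s • y)) := by
  rw [rl_eq, nz_Lid]
  congr 1
  funext e
  by_cases he : e ∈ row b <;> simp [u, mrg, sw, he, Lid]

lemma Rb_pos (z : Pair n → ℝ) (F : (Pair n → ℝ) → ℝ) :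
    Rb k SkS x (row b) (Lid (Pair n) s) s (Sum.elim z 0) F =
      AvP s (row b) (RR k SkS x (cf s) F) z := by
  unfold Rb AvP
  simp only [rl_mrg]

/-- the component of the position in the direction `v` -/
noncomputable def za (b : Fin n) (v : Fin n → ℝ) (s : ℝ) (z : Pair n → ℝ) : ℝ :=
  (√s)⁻¹ * zn (nuv b v) z

lemma eg_za (b : Fin n) (v : Fin n → ℝ) (s : ℝ) : EG (za b v s) := (eg_zn _).const_mul _

lemma za_sw (hs : 0 < s) (z y : Pair n → ℝ) :
    za b v s (sw (row b) z (√s • y)) = zn (nuv b v) y := by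
  have h1 : √s ≠ 0 := (Real.sqrt_pos.2 hs).ne'
  unfold za zn
  rw [Finset.mul_sum]
  refine Finset.sum_congr rfl fun e _ => ?_
  by_cases he : e ∈ row b
  · simp only [sw, he, if_true, Pi.smul_apply, smul_eq_mul]
    field_simp
  · simp [nuv, he]

lemma za_put (hs : 0 < s) (hb : v b = 0) (z : Pair n → ℝ) (y : Fin n → ℝ) :
    za b v s (put b (√s • y) z) = ∑ i, v i * y i := by
  have h1 : √s ≠ 0 := (Real.sqrt_pos.2 hs).ne'
  unfold za zn
  have e1 : ∑ e, nuv b v e * put b (√s • y) z e = ∑ e ∈ row b, nuv b v e * (√s * y (oth b e)) := by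
    rw [← Finset.sum_subset (Finset.subset_univ (row b)) fun e _ he => by
      rw [nuv, if_neg he, zero_mul]]
    exact Finset.sum_congr rfl fun e he => by simp [put, he]
  rw [e1, sum_nuv hb fun j => √s * y j, Finset.mul_sum]
  exact Finset.sum_congr rfl fun i _ => by field_simp

/-- the component does not depend on the row of `b'` -/
lemma ind_za (hbb : b ≠ b') (hb' : v b' = 0) : Ind (row b') (za b v s) := by
  intro z w
  unfold za zn
  congr 1
  refine Finset.sum_congr rfl fun e _ => ?_
  by_cases he' : e ∈ row b'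
  · by_cases he : e ∈ row b
    · have h1 : oth b e = b' := by
        rw [mem_row] at he he'
        unfold oth
        rcases he with h | h
        · rw [if_pos h]
          rcases he' with h' | h'
          · exact absurd (h.symm.trans h') hbb
          · exact h'
        · have h2 : e.1.1 ≠ b := fun h3 => e.2.ne (h3.trans h.symm)
          rw [if_neg h2]
          rcases he' with h' | h'
          · exact h'
          · exact absurd (h.symm.trans h') hbb
      rw [nuv_row he, h1, hb']
      ring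
    · rw [nuv, if_neg he]
      ring
  · simp [sw, he']

/-! ### the clean row function -/

/-- `v · a` -/
noncomputable def va (k x s : ℝ) (b b' : Fin n) (v : Fin n → ℝ) (z : Pair n → ℝ) : ℝ :=
  ∑ i, v i * cl0 k x s b b' z i

lemma eg_RRc (hx : 0 ≤ x) {F : (Pair n → ℝ) → ℝ} {ν : Pair n → ℝ}
    (h : ∃ G, CD (row b) ν F G) : EG (RR k SkS x (cf s) F) := by
  obtain ⟨G, F1, F2, h1, h2⟩ := h
  have hob : Ob k SkS x F (fun e u => F1 e u + k * x * (av k SkS (SkS e) u * F u)) :=
    ⟨_, ((c2_Zx k SkS x).mul h1).congr (fun u => rfl) (fun e u => by ring) fun e u => rfl⟩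
  exact eg_RR hob hx s

/-- the unclean function is `RR c1` -/
lemma RR_c1 (hx : 0 ≤ x) (hb : v b = 0) (z : Pair n → ℝ) :
    RR k SkS x (cf s) (c1 k SkS (row b) (nuv b v)) z = ∑ i, v i * AA k x s z i b := by
  have e1 : c1 k SkS (row b) (nuv b v) = fun u => ∑ i, v i * av k SkS (pr i b) u := by
    funext u
    unfold c1 am
    have e2 : (fun σ => Xd SkS (row b) (nuv b v) σ ^ 1) = fun σ => ∑ i, v i * pr i b σ := by
      funext σ
      rw [pow_one, Xd_nuv hb]
      exact Finset.sum_congr rfl fun i _ => by rw [pr_comm]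
    rw [e2, av_sum]
    exact Finset.sum_congr rfl fun i _ => av_mul _ _ _ _ _
  have h := rl_sum (k := k) (S := SkS (n := n)) (x := x) (A0 := row b) (l := Lid (Pair n) s)
    (s := s) (w := mrg (row b) (Sum.elim z 0) 0) Finset.univ
    (F := fun i u => v i * av k SkS (pr i b) u) fun i _ => ebd ((eg_av k SkS _).const_mul _)
  rw [← e1] at h
  -- go back to positions through the level with everything passive
  have h2 : ∀ F : (Pair n → ℝ) → ℝ, rl k SkS x ∅ (Lid (Pair n) s) F s (Sum.elim z 0) =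
      RR k SkS x (cf s) F z := by
    intro F
    rw [rl_eq, u_Lid]
    congr 1
  have h3 := rl_sum (k := k) (S := SkS (n := n)) (x := x) (A0 := ∅) (l := Lid (Pair n) s)
    (s := s) (w := Sum.elim z 0) Finset.univ
    (F := fun i u => v i * av k SkS (pr i b) u) fun i _ => ebd ((eg_av k SkS _).const_mul _)
  rw [← e1] at h3
  simp only [h2] at h3
  rw [h3]
  refine Finset.sum_congr rfl fun i _ => ?_
  rw [← h2, rl_const_mul, h2]
  rfl

/-- the clean function is the average of the unclean one over the row of `b'` -/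
lemma va_eq (hx : 0 ≤ x) (hb : v b = 0) (hb' : v b' = 0) (z : Pair n → ℝ) :
    va k x s b b' v z =
      AvP s (row b') (RR k SkS x (cf s) (c1 k SkS (row b) (nuv b v))) z := by
  have e1 : RR k SkS x (cf s) (c1 k SkS (row b) (nuv b v)) =
      fun z => ∑ i, v i * AA k x s z i b := funext fun z => RR_c1 hx hb z
  rw [e1, AvP_sum (f := fun i z => v i * AA k x s z i b) Finset.univ
    fun i _ => (eg_AA s i b).const_mul _]
  unfold va
  refine Finset.sum_congr rfl fun i _ => ?_
  rw [AvP_const_mul]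
  unfold cl0 cl
  split_ifs with h
  · rcases h with h | h
    · rw [h, hb]; ring
    · rw [h, hb']; ring
  · rfl

/-- a coefficient of the clean function -/
noncomputable def Aφ (k x s : ℝ) (b b' : Fin n) (v : Fin n → ℝ) (φ : ℝ → ℝ)
    (z : Pair n → ℝ) : ℝ :=
  ∫ y : Fin n → ℝ, (∑ i, v i * cl0 k x s b b' (put b (√s • y) z) i) * φ (∑ i, v i * y i)
    ∂(gI (Fin n))

/-- the same with the row of `b'` frozen -/
noncomputable def Tφ (k x s : ℝ) (b : Fin n) (v : Fin n → ℝ) (φ : ℝ → ℝ)
    (z : Pair n → ℝ) : ℝ :=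
  ∫ y, rl k SkS x (row b) (Lid (Pair n) s) (c1 k SkS (row b) (nuv b v)) s
    (mrg (row b) (Sum.elim z 0) y) * φ (zn (nuv b v) y) ∂(gI (Pair n))

lemma Tφ_eq (hs : 0 < s) (φ : ℝ → ℝ) (z : Pair n → ℝ) : Tφ k x s b v φ z =
    AvP s (row b) (fun z => RR k SkS x (cf s) (c1 k SkS (row b) (nuv b v)) z *
      φ (za b v s z)) z := by
  unfold Tφ AvP
  simp only [rl_mrg, za_sw hs]

lemma eg_c1R (hx : 0 ≤ x) : EG (RR k SkS x (cf s) (c1 k SkS (row b) (nuv b v))) :=
  eg_RRc (ν := nuv b v) hx ⟨_, cd_c1 k SkS (row b) (nuv b v)⟩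

/-- **The average over the row of `b'`.** -/
theorem Aφ_eq (hx : 0 ≤ x) (hs : 0 < s) (hbb : b ≠ b') (hb : v b = 0) (hb' : v b' = 0)
    {φ : ℝ → ℝ} (hφ : EG fun z => φ (za b v s z)) (z : Pair n → ℝ) :
    Aφ k x s b b' v φ z = AvP s (row b') (Tφ k x s b v φ) z := by
  have hc := eg_c1R (k := k) (s := s) (b := b) (v := v) hx
  have hva : va k x s b b' v = AvP s (row b')
      (RR k SkS x (cf s) (c1 k SkS (row b) (nuv b v))) := funext fun z => va_eq hx hb hb' z
  have hev : EG (va k x s b b' v) := by rw [hva]; exact eg_AvP hc s _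
  have h1 := AvP_row (f := fun z => va k x s b b' v z * φ (za b v s z)) (hev.mul hφ) s b z
  simp only [za_put hs hb] at h1
  have h2 : Aφ k x s b b' v φ z =
      AvP s (row b) (fun z => va k x s b b' v z * φ (za b v s z)) z := h1.symm
  have h3 : (fun z => va k x s b b' v z * φ (za b v s z)) = AvP s (row b')
      (fun z => RR k SkS x (cf s) (c1 k SkS (row b) (nuv b v)) z * φ (za b v s z)) := by
    funext z
    have hi : Ind (row b') fun z => φ (za b v s z) := fun z w => by
      show φ (za b v s (sw (row b') z w)) = φ (za b v s z)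
      rw [ind_za hbb hb' z w]
    have h4 := AvP_mul (s := s) hi (RR k SkS x (cf s) (c1 k SkS (row b) (nuv b v))) z
    rw [hva, mul_comm, ← h4]
    congr 1
    funext z
    ring
  rw [h2, h3, AvP_comm (hc.mul hφ)]
  congr 1
  funext z
  exact (Tφ_eq hs φ z).symm

end Vale.Agent.P146.H722
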