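import Vale.Agent.P146.H722.Jet1
import Vale.Agent.P146.H722.Kap7
import Vale.Agent.P146.H941.CDefS

/-!
**The joint of the row (K) with the derivatives of the value function.** For a position system with
all derivatives (`Fn`), the first and the third Stein coefficient of the clean column in the
direction `v` are averages of the second and the fourth derivative of the value function along the
line of direction `v` in the row of `b`.
-/

open MeasureTheory ProbabilityTheory

namespace Vale.Agent.P146.H722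

open Vale.Agent.P157.Lv Vale.Agent.P146.H425 Vale.Agent.P146.H332 Vale.Agent.P146.H325
  Vale.Agent.P146.R1C Vale.Agent.P146.H712 Vale.Agent.P146.Cum
open Vale.Agent.P146.R1 (uu)

set_option linter.unusedSectionVars false

variable {n : ℕ} {b b' : Fin n} {v : Fin n → ℝ} {s : ℝ}

/-! ### lines in the row -/

lemma put_add (b : Fin n) (y v : Fin n → ℝ) (h : ℝ) (z : Pair n → ℝ) :
    put b (y + h • v) z = put b y z + h • nuv b v := by
  funext e
  by_cases he : e ∈ row b <;> simp [put, nuv, he]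

lemma sw_upd {ι : Type} [Fintype ι] [DecidableEq ι] {R : Finset ι} {e : ι} (he : e ∈ R)
    (z y : ι → ℝ) (c t : ℝ) : sw R z (c • Function.update y e t) =
      Function.update (sw R z (c • y)) e (c * t) := by
  funext j
  by_cases hj : j = e
  · subst hj
    simp [sw, he]
  · rw [Function.update_of_ne hj]
    by_cases h : j ∈ R <;> simp [sw, h, Function.update_of_ne hj]

lemma pd_sw {ι : Type} [Fintype ι] [DecidableEq ι] {R : Finset ι} {e : ι} (he : e ∈ R)
    {f f' : (ι → ℝ) → ℝ} (h : PD e f f') (z : ι → ℝ) (c : ℝ) :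
    PD e (fun y => f (sw R z (c • y))) (fun y => c * f' (sw R z (c • y))) := by
  intro y t
  simp only [sw_upd he]
  have h1 := h (sw R z (c • y)) (c * t)
  have h2 := h1.comp t ((hasDerivAt_id t).const_mul c)
  simp only [mul_one] at h2
  rw [mul_comm c]
  exact h2

/-- **Integration by parts in the row of `b`.** -/
theorem AvP_ibp (hd : Dir (row b) (nuv b v)) (hs : 0 < s) {f : (Pair n → ℝ) → ℝ}
    {D : Pair n → (Pair n → ℝ) → ℝ} (hf : EG f) (hD : ∀ e, EG (D e)) (hpd : ∀ e, PD e f (D e))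
    {p p' : ℝ → ℝ} (hp : ∀ t, HasDerivAt p (p' t) t)
    (ep : EG fun y : Pair n → ℝ => p (zn (nuv b v) y))
    (ep' : EG fun y : Pair n → ℝ => p' (zn (nuv b v) y)) (z : Pair n → ℝ) :
    AvP s (row b) (fun z => f z * (za b v s z * p (za b v s z) - p' (za b v s z))) z =
      √s * AvP s (row b) (fun z => (∑ e, nuv b v e * D e z) * p (za b v s z)) z := by
  unfold AvP
  simp only [za_sw hs]
  rw [ibp_dir hd (f := fun y => f (sw (row b) z (√s • y)))
    (D := fun e y => √s * D e (sw (row b) z (√s • y))) (eg_AvP_in hf s (row b) z)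
    (fun e _ => (eg_AvP_in (hD e) s (row b) z).const_mul _)
    (fun e he => pd_sw he (hpd e) z (√s)) hp ep ep', ← integral_const_mul]
  congr 1
  funext y
  rw [← mul_assoc, Finset.mul_sum, Finset.sum_subset (Finset.subset_univ (row b))
    fun e _ he => by rw [nuv, if_neg he, zero_mul]]
  congr 1
  exact Finset.sum_congr rfl fun e _ => by ring

/-- derivatives of the average over the row along the line -/
lemma hd_AvP {ν : Pair n → ℝ} {R : Finset (Pair n)} {f g : (Pair n → ℝ) → ℝ} (hl : LnD ν f g)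
    (hf : EG f) (hg : EG g) (hb : ∃ C, ∀ z, |g z| ≤ C) (z : Pair n → ℝ) (t : ℝ) :
    HasDerivAt (fun h : ℝ => AvP s R (fun z => f (z + h • ν)) z)
      (AvP s R (fun z => g (z + t • ν)) z) t := by
  obtain ⟨C, hC⟩ := hb
  have sh : ∀ {f : (Pair n → ℝ) → ℝ}, EG f → ∀ h : ℝ, EG fun z => f (z + h • ν) := by
    intro f hf h
    have := EG.add_smul hf (h • ν) 1
    simpa only [one_smul, add_comm] using this
  have key := hasDerivAt_integral_of_dominated_loc_of_deriv_le (𝕜 := ℝ) (μ := gI (Pair n))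
    (F := fun h y => f (sw R z (√s • y) + h • ν)) (F' := fun h y => g (sw R z (√s • y) + h • ν))
    (x₀ := t) (s := Set.univ) (bound := fun _ => C) Filter.univ_mem
    (Filter.Eventually.of_forall fun h =>
      (eg_AvP_in (sh hf h) s R z).meas.aestronglyMeasurable)
    (eg_AvP_in (sh hf t) s R z).integrable
    (eg_AvP_in (sh hg t) s R z).meas.aestronglyMeasurable
    (Filter.Eventually.of_forall fun y h _ => by rw [Real.norm_eq_abs]; exact hC _)
    (integrable_const C)
    (Filter.Eventually.of_forall fun y h _ => hl (sw R z (√s • y)) h)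
  exact key.2

lemma EG.shift {f : (Pair n → ℝ) → ℝ} (hf : EG f) (w : Pair n → ℝ) : EG fun z => f (z + w) := by
  have := EG.add_smul hf w 1
  simpa only [one_smul, add_comm] using this

/-! ### the clean column -/

variable {k x : ℝ} (S : R1S.CS n k x)

/-- A Stein coefficient of the clean column in the direction `v`. -/
noncomputable def AS (s : ℝ) (b b' : Fin n) (v : Fin n → ℝ) (φ : ℝ → ℝ) (z : Pair n → ℝ) : ℝ :=
  ∫ y : Fin n → ℝ, (∑ i, v i * R1S.cl0 S s b b' (put b (√s • y) z) i) * φ (∑ i, v i * y i)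
    ∂(gI (Fin n))

/-- the first Stein coefficient -/
noncomputable def A1S (s : ℝ) (b b' : Fin n) (v : Fin n → ℝ) (z : Pair n → ℝ) : ℝ :=
  AS S s b b' v (fun t => t) z

/-- the third Stein coefficient -/
noncomputable def A3S (s : ℝ) (b b' : Fin n) (v : Fin n → ℝ) (z : Pair n → ℝ) : ℝ :=
  AS S s b b' v (fun t => t ^ 3 - 3 * t) z

/-- the value function -/
noncomputable def uS (s : ℝ) : (Pair n → ℝ) → ℝ := uu x s S.F

variable {S}

lemma eg_AS (s : ℝ) (i j : Fin n) : EG fun z => S.A s z i j := by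
  have e : (fun z => S.A s z i j) = fun z => ∑ σ, pr i j σ * S.mu s z σ := by
    funext z
    rw [S.A_mu]
    exact Finset.sum_congr rfl fun σ _ => mul_comm _ _
  rw [e]
  exact EG.sum _ fun σ _ => (S.eg_mu s σ).const_mul (pr i j σ)

/-- the unclean column in the direction `v` -/
noncomputable def cvS (S : R1S.CS n k x) (s : ℝ) (b : Fin n) (v : Fin n → ℝ)
    (z : Pair n → ℝ) : ℝ := ∑ i, v i * S.A s z i b

lemma eg_cvS (s : ℝ) (b : Fin n) (v : Fin n → ℝ) : EG (cvS S s b v) :=
  EG.sum _ fun i _ => (eg_AS s i b).const_mul _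

lemma va_S (hb : v b = 0) (hb' : v b' = 0) (z : Pair n → ℝ) :
    ∑ i, v i * R1S.cl0 S s b b' z i = AvP s (row b') (cvS S s b v) z := by
  have e1 := AvP_sum (s := s) (R := row b') (f := fun i z => v i * S.A s z i b) Finset.univ
    (fun i _ => (eg_AS s i b).const_mul _) z
  have e2 : AvP s (row b') (cvS S s b v) z =
      AvP s (row b') (fun z => ∑ i, v i * S.A s z i b) z := rfl
  rw [e2, e1]
  refine Finset.sum_congr rfl fun i _ => ?_
  rw [AvP_const_mul]
  unfold R1S.cl0 R1S.cl
  split_ifs with h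
  · rcases h with h | h
    · rw [h, hb]; ring
    · rw [h, hb']; ring
  · rfl

/-- **The average over the row of `b'`.** -/
theorem AS_eq (hs : 0 < s) (hbb : b ≠ b') (hb : v b = 0) (hb' : v b' = 0)
    {φ : ℝ → ℝ} (hφ : EG fun z => φ (za b v s z)) (z : Pair n → ℝ) :
    AS S s b b' v φ z = AvP s (row b')
      (AvP s (row b) fun z => cvS S s b v z * φ (za b v s z)) z := by
  have hc := eg_cvS (S := S) s b v
  have h1 := AvP_row (f := fun z => AvP s (row b') (cvS S s b v) z * φ (za b v s z))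
    ((eg_AvP hc s _).mul hφ) s b z
  simp only [za_put hs hb] at h1
  have h2 : AS S s b b' v φ z =
      AvP s (row b) (fun z => AvP s (row b') (cvS S s b v) z * φ (za b v s z)) z := by
    rw [h1]
    unfold AS
    congr 1
    funext y
    rw [va_S hb hb']
  have h3 : (fun z => AvP s (row b') (cvS S s b v) z * φ (za b v s z)) = AvP s (row b')
      (fun z => cvS S s b v z * φ (za b v s z)) := by
    funext z
    have hi : Ind (row b') fun z => φ (za b v s z) := fun z w => by
      show φ (za b v s (sw (row b') z w)) = φ (za b v s z)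
      rw [ind_za hbb hb' z w]
    have h4 := AvP_mul (s := s) hi (cvS S s b v) z
    rw [mul_comm, ← h4]
    congr 1
    funext z
    ring
  rw [h2, h3, AvP_comm (hc.mul hφ)]

lemma tf_nuv (hb : v b = 0) (σ : Fin n → ℤˣ) :
    tf SkS (nuv b v) σ = ∑ i, v i * pr i b σ := by
  have h1 := Xd_nuv (b := b) (v := v) hb σ
  have h2 : tf SkS (nuv b v) σ = Xd SkS (row b) (nuv b v) σ := by
    unfold tf Xd
    exact (Finset.sum_subset (Finset.subset_univ (row b)) fun e _ he => by
      rw [nuv, if_neg he, zero_mul]).symm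
  rw [h2, h1]
  exact Finset.sum_congr rfl fun i _ => by rw [pr_comm]

/-- the jet starts with the unclean column -/
lemma cvS_eq (hb : v b = 0) (z : Pair n → ℝ) :
    cvS S s b v z = ∑ σ, S.mu s z σ * tf SkS (nuv b v) σ := by
  unfold cvS
  simp only [S.A_mu, tf_nuv hb, Finset.mul_sum]
  rw [Finset.sum_comm]
  exact Finset.sum_congr rfl fun σ _ => Finset.sum_congr rfl fun i _ => by ring

lemma EG.za (b : Fin n) (v : Fin n → ℝ) (s : ℝ) : EG (za b v s) := eg_za b v s

/-- the first and the third coefficient and the jet -/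
theorem AS_jet (hv : ∑ i, v i ^ 2 = 1) (hb : v b = 0) (hb' : v b' = 0) (hbb : b ≠ b')
    (hs : 0 < s) {f1 f2 f3 f4 : (Pair n → ℝ) → ℝ} {D1 D2 D3 : Pair n → (Pair n → ℝ) → ℝ}
    (hj : Jet k (nuv b v) (uu x s S.F) f1 f2 f3 f4 D1 D2 D3)
    (h1 : ∀ z, f1 z = ∑ σ, S.mu s z σ * tf SkS (nuv b v) σ) (z : Pair n → ℝ) :
    A1S S s b b' v z = √s * k * AvP s (row b ∪ row b') f2 z ∧
      A3S S s b b' v z = (√s * k) ^ 3 * AvP s (row b ∪ row b') f4 z := by
  have hd := dir_nuv hv hb
  have hc : cvS S s b v = f1 := by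
    funext z
    rw [cvS_eq hb, h1]
  have e0 : EG fun y : Pair n → ℝ => (1 : ℝ) := EG.const 1
  have e1 := eg_zn (nuv b v)
  have z1 := eg_za b v s
  constructor
  · unfold A1S
    rw [AS_eq hs hbb hb hb' z1, hc]
    have i1 : ∀ z, AvP s (row b) (fun z => f1 z * za b v s z) z =
        √s * k * AvP s (row b) f2 z := by
      intro z
      have := AvP_ibp hd hs hj.g1 hj.e1 hj.p1 (p := fun _ => 1) (p' := fun _ => 0)
        (fun t => hasDerivAt_const t 1) (EG.const 1) (EG.const 0) z
      simp only [mul_one, sub_zero, hj.s1] at this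
      rw [this, AvP_const_mul, mul_assoc]
    have i2 : AvP s (row b) (fun z => f1 z * za b v s z) =
        fun z => √s * k * AvP s (row b) f2 z := funext i1
    rw [i2, AvP_const_mul, AvP_AvP hj.g2, Finset.union_comm]
  · unfold A3S
    rw [AS_eq hs hbb hb hb' ((z1.pow 3).sub (z1.const_mul 3)), hc]
    have i1 : ∀ z, AvP s (row b) (fun z => f1 z * (za b v s z ^ 3 - 3 * za b v s z)) z =
        (√s * k) ^ 3 * AvP s (row b) f4 z := by
      intro z
      have j1 := AvP_ibp hd hs hj.g1 hj.e1 hj.p1 (p := fun t => t ^ 2 - 1) (p' := fun t => 2 * t)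
        (fun t => by
          have := (hasDerivAt_pow 2 t).sub_const 1
          simpa using this) ((e1.pow 2).sub (EG.const 1)) (e1.const_mul 2) z
      have j2 := AvP_ibp hd hs hj.g2 hj.e2 hj.p2 (p := fun t => t) (p' := fun _ => 1)
        (fun t => hasDerivAt_id t) e1 (EG.const 1) z
      have j3 := AvP_ibp hd hs hj.g3 hj.e3 hj.p3 (p := fun _ => 1) (p' := fun _ => 0)
        (fun t => hasDerivAt_const t 1) (EG.const 1) (EG.const 0) z
      simp only [hj.s1] at j1
      simp only [hj.s2] at j2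
      simp only [mul_one, sub_zero, hj.s3] at j3
      have q1 : (fun z => f1 z * (za b v s z ^ 3 - 3 * za b v s z)) =
          fun z => f1 z * (za b v s z * (za b v s z ^ 2 - 1) - 2 * za b v s z) := by
        funext z
        ring
      have q2 : (fun z => k * f2 z * (za b v s z ^ 2 - 1)) =
          fun z => k * (f2 z * (za b v s z * za b v s z - 1)) := by
        funext z
        ring
      have q3 : (fun z => k * f3 z * za b v s z) = fun z => k * (f3 z * za b v s z) := by
        funext z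
        ring
      rw [q1, j1, q2, AvP_const_mul, j2, q3, AvP_const_mul, j3, AvP_const_mul]
      ring
    have i2 : AvP s (row b) (fun z => f1 z * (za b v s z ^ 3 - 3 * za b v s z)) =
        fun z => (√s * k) ^ 3 * AvP s (row b) f4 z := funext i1
    rw [i2, AvP_const_mul, AvP_AvP hj.g4, Finset.union_comm]

/-- **(J1)**: the first Stein coefficient of the clean column is the average of the second
derivative of the value function, the third one of the fourth derivative. -/
theorem J1 {Γ : ℝ} (hF : Fn k SkS (uu x s S.F) (S.mu s) Γ) (hv : ∑ i, v i ^ 2 = 1)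
    (hb : v b = 0) (hb' : v b' = 0) (hbb : b ≠ b') (hs : 0 < s) (z : Pair n → ℝ) :
    A1S S s b b' v z = √s / k * AvP s (row b ∪ row b')
        (fun z => iteratedDeriv 2 (fun h : ℝ => uu x s S.F (z + h • nuv b v)) 0) z ∧
      A3S S s b b' v z = √s ^ 3 / k * AvP s (row b ∪ row b')
        (fun z => iteratedDeriv 4 (fun h : ℝ => uu x s S.F (z + h • nuv b v)) 0) z := by
  obtain ⟨f1, f2, f3, f4, D1, D2, D3, hj, h1⟩ := fn_jet hF (nuv b v)
  have hk := S.k0.ne'
  obtain ⟨h2, h3⟩ := AS_jet hv hb hb' hbb hs hj h1 z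
  have l1 : LnD (nuv b v) (fun z => k * f1 z) fun z => k ^ 2 * f2 z :=
    (hj.l1.const_mul k).congr fun z => by ring
  have l2 : LnD (nuv b v) (fun z => k ^ 2 * f2 z) fun z => k ^ 3 * f3 z :=
    (hj.l2.const_mul (k ^ 2)).congr fun z => by ring
  have l3 : LnD (nuv b v) (fun z => k ^ 3 * f3 z) fun z => k ^ 4 * f4 z :=
    (hj.l3.const_mul (k ^ 3)).congr fun z => by ring
  have a2 : ∀ z, iteratedDeriv 2 (fun h : ℝ => uu x s S.F (z + h • nuv b v)) 0 =
      k ^ 2 * f2 z := by
    intro z
    rw [hj.l0.it2 l1]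
    simp
  have a4 : ∀ z, iteratedDeriv 4 (fun h : ℝ => uu x s S.F (z + h • nuv b v)) 0 =
      k ^ 4 * f4 z := by
    intro z
    rw [hj.l0.it4 l1 l2 l3]
    simp
  simp only [a2, a4, AvP_const_mul]
  rw [h2, h3]
  constructor
  · field_simp
  · field_simp

/-- **(J1)** with the row of `b` averaged inside. -/
theorem J1' {Γ : ℝ} (hF : Fn k SkS (uu x s S.F) (S.mu s) Γ) (hv : ∑ i, v i ^ 2 = 1)
    (hb : v b = 0) (hb' : v b' = 0) (hbb : b ≠ b') (hs : 0 < s) (z : Pair n → ℝ) :
    A1S S s b b' v z = √s / k * AvP s (row b') (fun z => iteratedDeriv 2 (fun h : ℝ =>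
        ∫ y : Fin n → ℝ, uu x s S.F (put b (√s • y + h • v) z) ∂(gI (Fin n))) 0) z ∧
      A3S S s b b' v z = √s ^ 3 / k * AvP s (row b') (fun z => iteratedDeriv 4 (fun h : ℝ =>
        ∫ y : Fin n → ℝ, uu x s S.F (put b (√s • y + h • v) z) ∂(gI (Fin n))) 0) z := by
  obtain ⟨f1, f2, f3, f4, D1, D2, D3, hj, h1⟩ := fn_jet hF (nuv b v)
  have hk := S.k0.ne'
  obtain ⟨h2, h3⟩ := AS_jet hv hb hb' hbb hs hj h1 z
  have l1 : LnD (nuv b v) (fun z => k * f1 z) fun z => k ^ 2 * f2 z :=
    (hj.l1.const_mul k).congr fun z => by ring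
  have l2 : LnD (nuv b v) (fun z => k ^ 2 * f2 z) fun z => k ^ 3 * f3 z :=
    (hj.l2.const_mul (k ^ 2)).congr fun z => by ring
  have l3 : LnD (nuv b v) (fun z => k ^ 3 * f3 z) fun z => k ^ 4 * f4 z :=
    (hj.l3.const_mul (k ^ 3)).congr fun z => by ring
  have bd : ∀ (c : ℝ) {f : (Pair n → ℝ) → ℝ}, (∃ C, ∀ z, |f z| ≤ C) →
      ∃ C, ∀ z, |c * f z| ≤ C := by
    rintro c f ⟨C, hC⟩
    exact ⟨|c| * C, fun z => by
      rw [abs_mul]
      exact mul_le_mul_of_nonneg_left (hC z) (abs_nonneg _)⟩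
  have e0 : ∀ z, (fun h : ℝ => ∫ y : Fin n → ℝ, uu x s S.F (put b (√s • y + h • v) z)
      ∂(gI (Fin n))) = fun h => AvP s (row b) (fun z => uu x s S.F (z + h • nuv b v)) z := by
    intro z
    funext h
    rw [AvP_row (EG.shift hj.g0 (h • nuv b v))]
    simp only [put_add]
  have d1 : ∀ z, deriv (fun h : ℝ => AvP s (row b) (fun z => uu x s S.F (z + h • nuv b v)) z) =
      fun h => AvP s (row b) (fun z => k * f1 (z + h • nuv b v)) z := fun z => funext fun t =>
    (hd_AvP hj.l0 hj.g0 (hj.g1.const_mul k) (bd k hj.b1) z t).deriv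
  have d2 : ∀ z, deriv (fun h : ℝ => AvP s (row b) (fun z => k * f1 (z + h • nuv b v)) z) =
      fun h => AvP s (row b) (fun z => k ^ 2 * f2 (z + h • nuv b v)) z := fun z =>
    funext fun t => (hd_AvP l1 (hj.g1.const_mul k) (hj.g2.const_mul _) (bd _ hj.b2) z t).deriv
  have d3 : ∀ z, deriv (fun h : ℝ => AvP s (row b) (fun z => k ^ 2 * f2 (z + h • nuv b v)) z) =
      fun h => AvP s (row b) (fun z => k ^ 3 * f3 (z + h • nuv b v)) z := fun z =>
    funext fun t => (hd_AvP l2 (hj.g2.const_mul _) (hj.g3.const_mul _) (bd _ hj.b3) z t).deriv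
  have d4 : ∀ z, deriv (fun h : ℝ => AvP s (row b) (fun z => k ^ 3 * f3 (z + h • nuv b v)) z) =
      fun h => AvP s (row b) (fun z => k ^ 4 * f4 (z + h • nuv b v)) z := fun z =>
    funext fun t => (hd_AvP l3 (hj.g3.const_mul _) (hj.g4.const_mul _) (bd _ hj.b4) z t).deriv
  have a2 : ∀ z, iteratedDeriv 2 (fun h : ℝ => ∫ y : Fin n → ℝ,
      uu x s S.F (put b (√s • y + h • v) z) ∂(gI (Fin n))) 0 =
        k ^ 2 * AvP s (row b) f2 z := by
    intro z
    rw [e0, iteratedDeriv_succ', iteratedDeriv_one, d1, d2, ← AvP_const_mul]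
    simp
  have a4 : ∀ z, iteratedDeriv 4 (fun h : ℝ => ∫ y : Fin n → ℝ,
      uu x s S.F (put b (√s • y + h • v) z) ∂(gI (Fin n))) 0 =
        k ^ 4 * AvP s (row b) f4 z := by
    intro z
    rw [e0, iteratedDeriv_succ', iteratedDeriv_succ', iteratedDeriv_succ', iteratedDeriv_one,
      d1, d2, d3, d4, ← AvP_const_mul]
    simp
  simp only [a2, a4, AvP_const_mul]
  rw [h2, h3, AvP_AvP hj.g2, AvP_AvP hj.g4, Finset.union_comm]
  constructor
  · field_simp
  · field_simp

end Vale.Agent.P146.H722
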