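import Mathlib

/-!
# FIN: the final real-analysis step (helper325, board P146 #6319)

`R` nondecreasing with values in `[0,1]`, `R ^ 2 ≤ M ≤ 1`, and the two point inequality `KEY`;
then `∫ R ≤ D n ^ (-1/4 + d)`.
-/

open Set

namespace Vale.Agent.P146.H722

/-- The quadratic inequality. -/
theorem quad {m y A B : ℝ} (hy : 0 ≤ y) (hA : 1 ≤ A) (hB : 0 ≤ B)
    (h : m ^ 2 ≤ A * y ^ 2 + B * m * y) : m ≤ (A + B) * y := by
  by_contra hc
  push Not at hc
  have h1 : y ≤ m := by nlinarith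
  have h0 : 0 < m := lt_of_le_of_lt (by positivity) hc
  have h2 : m * m ≤ ((A + B) * y) * m := by nlinarith [mul_nonneg (by linarith : (0:ℝ) ≤ A) hy]
  have h3 : m ≤ (A + B) * y := le_of_mul_le_mul_right h2 h0
  linarith

/-- The algebra of the core step, I: all terms in `x` and `T`. -/
theorem alg1 {C0 K c N x T m S M2 : ℝ} (hC0 : 1 ≤ C0) (hK : 1 ≤ K)
    (hc : c = 1 / (32 * C0 * K ^ 2)) (hc0 : 0 < c) (hx : 0 < x)
    (hxN : x ^ 4 * N = 1) (hT0 : 0 < T) (hT : x ≤ c * T)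
    (hD : S ≤ 16 * (K * m) / T) (hM0 : 0 ≤ M2) (hM2 : M2 ≤ K ^ 2 * m ^ 2)
    (h : T / 8 * m ^ 2 ≤ C0 * ((N ^ 3)⁻¹ + (x + c * T) * M2 + x ^ 8 / (c * T) ^ 7 +
        S / (c * T * N) + S / (x ^ 2 * N))) :
    T / 16 * m ^ 2 ≤ C0 * (x ^ 12 + x ^ 8 / (c * T) ^ 7 +
      16 * (K * m) * x ^ 4 / (c * T ^ 2) + 16 * (K * m) * x ^ 2 / T) := by
  have hNi : N = 1 / x ^ 4 := by
    rw [eq_div_iff (by positivity)]
    linarith
  have hcK : C0 * (2 * (c * T) * (K ^ 2 * m ^ 2)) = T / 16 * m ^ 2 := by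
    have h0 : C0 * (K ^ 2 * c) = 1 / 32 := by
      rw [hc]
      field_simp
    calc C0 * (2 * (c * T) * (K ^ 2 * m ^ 2)) = (C0 * (K ^ 2 * c)) * (2 * T * m ^ 2) := by ring
      _ = T / 16 * m ^ 2 := by rw [h0]; ring
  have e1 : (N ^ 3)⁻¹ = x ^ 12 := by
    rw [hNi, div_pow, one_pow, one_div, inv_inv, ← pow_mul]
  have e2 : (x + c * T) * M2 ≤ 2 * (c * T) * (K ^ 2 * m ^ 2) :=
    mul_le_mul (by linarith) hM2 hM0 (by positivity)
  have e3 : S / (c * T * N) ≤ 16 * (K * m) * x ^ 4 / (c * T ^ 2) := by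
    have h6 : S / (c * T * N) = S * (x ^ 4 / (c * T)) := by
      rw [hNi]
      field_simp
    rw [h6]
    refine (mul_le_mul_of_nonneg_right hD (by positivity)).trans (le_of_eq ?_)
    field_simp
  have e4 : S / (x ^ 2 * N) ≤ 16 * (K * m) * x ^ 2 / T := by
    have h6 : S / (x ^ 2 * N) = S * x ^ 2 := by
      rw [hNi]
      field_simp
    rw [h6]
    refine (mul_le_mul_of_nonneg_right hD (by positivity)).trans (le_of_eq ?_)
    ring
  rw [e1] at h
  have h8 : C0 * (x ^ 12 + (x + c * T) * M2 + x ^ 8 / (c * T) ^ 7 +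
      S / (c * T * N) + S / (x ^ 2 * N)) ≤
      C0 * (2 * (c * T) * (K ^ 2 * m ^ 2)) + C0 * (x ^ 12 + x ^ 8 / (c * T) ^ 7 +
    16 * (K * m) * x ^ 4 / (c * T ^ 2) + 16 * (K * m) * x ^ 2 / T) := by
    rw [← mul_add]
    exact mul_le_mul_of_nonneg_left (by linarith) (by linarith)
  rw [hcK] at h8
  linarith

/-- The algebra of the core step, II: the bound for `m`. -/
theorem alg2 {C0 K c x T m : ℝ} (hC0 : 1 ≤ C0) (hK : 1 ≤ K) (hc0 : 0 < c) (hx : 0 < x)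
    (hx1 : x ≤ 1) (hT0 : 0 < T) (hT1 : T ≤ 1) (hxT : x ≤ T) (hm0 : 0 ≤ m)
    (hmain : T / 16 * m ^ 2 ≤ C0 * (x ^ 12 + x ^ 8 / (c * T) ^ 7 +
      16 * (K * m) * x ^ 4 / (c * T ^ 2) + 16 * (K * m) * x ^ 2 / T)) :
    m ≤ (16 * C0 * (1 + 1 / c ^ 7) + 16 * C0 * (16 * K * (1 / c + 1))) * (x ^ 2 / T ^ 2) := by
  obtain ⟨y, hy⟩ : ∃ y, y = x ^ 2 / T ^ 2 := ⟨_, rfl⟩
  rw [← hy]
  have hy0 : 0 ≤ y := by rw [hy]; positivity
  have hy1 : y ≤ 1 := by
    rw [hy, ← div_pow]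
    exact pow_le_one₀ (by positivity) ((div_le_one hT0).2 hxT)
  have hxy : x ^ 2 = y * T ^ 2 := by
    rw [hy]
    field_simp
  have f1 : x ^ 12 ≤ T * y ^ 2 := by
    have h8 : x ^ 12 = y ^ 2 * (x ^ 8 * T ^ 4) := by
      calc x ^ 12 = (x ^ 2) ^ 2 * x ^ 8 := by ring
        _ = (y * T ^ 2) ^ 2 * x ^ 8 := by rw [hxy]
        _ = y ^ 2 * (x ^ 8 * T ^ 4) := by ring
    rw [h8]
    have h9 : x ^ 8 * T ^ 4 ≤ T := by
      calc x ^ 8 * T ^ 4 ≤ 1 * T ^ 4 :=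
            mul_le_mul_of_nonneg_right (pow_le_one₀ hx.le hx1) (by positivity)
        _ = T ^ 3 * T := by ring
        _ ≤ 1 * T := mul_le_mul_of_nonneg_right (pow_le_one₀ hT0.le hT1) hT0.le
        _ = T := one_mul T
    calc y ^ 2 * (x ^ 8 * T ^ 4) ≤ y ^ 2 * T := mul_le_mul_of_nonneg_left h9 (sq_nonneg y)
      _ = T * y ^ 2 := mul_comm _ _
  have f2 : x ^ 8 / (c * T) ^ 7 ≤ T * (1 / c ^ 7 * y ^ 2) := by
    have h8 : x ^ 8 / (c * T) ^ 7 = T * (1 / c ^ 7 * (y ^ 2 * y ^ 2)) := by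
      calc x ^ 8 / (c * T) ^ 7 = (x ^ 2) ^ 4 / (c * T) ^ 7 := by ring
        _ = (y * T ^ 2) ^ 4 / (c * T) ^ 7 := by rw [hxy]
        _ = T * (1 / c ^ 7 * (y ^ 2 * y ^ 2)) := by
            field_simp
    rw [h8]
    have h9 : y ^ 2 * y ^ 2 ≤ y ^ 2 * 1 :=
      mul_le_mul_of_nonneg_left (pow_le_one₀ hy0 hy1) (sq_nonneg y)
    rw [mul_one] at h9
    exact mul_le_mul_of_nonneg_left (mul_le_mul_of_nonneg_left h9 (by positivity)) hT0.le
  have f3 : 16 * (K * m) * x ^ 4 / (c * T ^ 2) ≤ T * (16 * K * (1 / c) * (m * y)) := by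
    have h8 : 16 * (K * m) * x ^ 4 / (c * T ^ 2) = (16 * K * (1 / c) * (m * y)) * x ^ 2 := by
      calc 16 * (K * m) * x ^ 4 / (c * T ^ 2) = 16 * (K * m) * (x ^ 2 * x ^ 2) / (c * T ^ 2) := by
            ring
        _ = 16 * (K * m) * (x ^ 2 * (y * T ^ 2)) / (c * T ^ 2) := by rw [← hxy]
        _ = _ := by
            field_simp
    rw [h8, mul_comm T]
    refine mul_le_mul_of_nonneg_left ?_ (by positivity)
    calc x ^ 2 = x * x := sq x
      _ ≤ 1 * T := mul_le_mul hx1 hxT hx.le zero_le_one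
      _ = T := one_mul T
  have f4 : 16 * (K * m) * x ^ 2 / T = T * (16 * K * (m * y)) := by
    rw [hxy]
    field_simp
  have hq : m ^ 2 ≤ (16 * C0 * (1 + 1 / c ^ 7)) * y ^ 2 +
      (16 * C0 * (16 * K * (1 / c + 1))) * m * y := by
    have h8 : T / 16 * m ^ 2 ≤ C0 * (T * y ^ 2 + T * (1 / c ^ 7 * y ^ 2) +
        T * (16 * K * (1 / c) * (m * y)) + T * (16 * K * (m * y))) :=
      hmain.trans (mul_le_mul_of_nonneg_left (by linarith) (by linarith))
    have h9 : T * m ^ 2 ≤ T * ((16 * C0 * (1 + 1 / c ^ 7)) * y ^ 2 +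
      (16 * C0 * (16 * K * (1 / c + 1))) * m * y) := by
      calc T * m ^ 2 = 16 * (T / 16 * m ^ 2) := by ring
        _ ≤ 16 * (C0 * (T * y ^ 2 + T * (1 / c ^ 7 * y ^ 2) +
        T * (16 * K * (1 / c) * (m * y)) + T * (16 * K * (m * y)))) := by linarith
        _ = _ := by ring
    exact le_of_mul_le_mul_left h9 hT0
  refine quad hy0 ?_ (by positivity) hq
  have h10 : 0 ≤ 1 / c ^ 7 := by positivity
  nlinarith

/-- The core step at one scale. -/
theorem core {C0 K c N x T : ℝ} {R R1 M : ℝ → ℝ} (hC0 : 1 ≤ C0) (hK : 1 ≤ K)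
    (hc : c = 1 / (32 * C0 * K ^ 2)) (hx : 0 < x) (hx1 : x ≤ 1)
    (hxN : x ^ 4 * N = 1)
    (hR : ∀ t ∈ Icc (0:ℝ) 1, 0 ≤ R t ∧ R t ≤ 1 ∧ R t ^ 2 ≤ M t ∧ M t ≤ 1)
    (hM : MonotoneOn M (Icc 0 1)) (hRc : ContinuousOn R (Icc 0 1))
    (hd : ∀ t ∈ Ioo (0:ℝ) 1, HasDerivAt R (R1 t) t)
    (key : ∀ t1 t2 th, 0 < t1 → t1 < t2 → t2 < 1 → t2 ≤ 2 * t1 → 0 < th → th ≤ 1 →
      (t2 - t1) / t1 * M t1 ≤ C0 * ((N ^ 3)⁻¹ + (x + th) * M t2 + x ^ 8 / th ^ 7 +
        (R1 t1 + R1 t2) / (th * N) + (R1 t1 + R1 t2) / (x ^ 2 * N)))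
    (hT : x ≤ c * T) (hT2 : T ≤ 1 / 2)
    (hf : √(M (1 - T / 2)) ≤ K * √(M (1 - T))) :
    √(M (1 - T)) ≤ (16 * C0 * (1 + 1 / c ^ 7) + 16 * C0 * (16 * K * (1 / c + 1))) *
      (x ^ 2 / T ^ 2) := by
  have hc0 : 0 < c := by rw [hc]; positivity
  have hc1 : c ≤ 1 := by
    rw [hc, div_le_one (by positivity)]
    nlinarith [mul_nonneg (by linarith : (0:ℝ) ≤ C0 - 1) (by positivity : (0:ℝ) ≤ K ^ 2),
      mul_nonneg (by linarith : (0:ℝ) ≤ K - 1) (by linarith : (0:ℝ) ≤ K)]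
  have hcT : 0 < c * T := lt_of_lt_of_le hx hT
  have hT0 : 0 < T := by
    rcases pos_and_pos_or_neg_and_neg_of_mul_pos hcT with h | h
    · exact h.2
    · linarith [h.1]
  have hxT : x ≤ T := hT.trans (by nlinarith)
  set m := √(M (1 - T)) with hm
  have hm0 : 0 ≤ m := Real.sqrt_nonneg _
  have mem : ∀ s, 0 ≤ s → s ≤ T → 1 - s ∈ Icc (0:ℝ) 1 := fun s h1 h2 =>
    ⟨by linarith, by linarith⟩
  have hMn : ∀ t ∈ Icc (0:ℝ) 1, 0 ≤ M t := fun t ht => (sq_nonneg _).trans (hR t ht).2.2.1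
  have hm2 : m ^ 2 = M (1 - T) := Real.sq_sqrt (hMn _ (mem T hT0.le le_rfl))
  have hMh : M (1 - T / 2) ≤ K ^ 2 * m ^ 2 := by
    have h1 : M (1 - T / 2) = √(M (1 - T / 2)) ^ 2 :=
      (Real.sq_sqrt (hMn _ (mem (T / 2) (by linarith) (by linarith)))).symm
    rw [h1, ← mul_pow]
    exact pow_le_pow_left₀ (Real.sqrt_nonneg _) hf 2
  -- values of `R` are at most `K m`
  have hRm : ∀ s, T / 2 ≤ s → s ≤ T → R (1 - s) ≤ K * m := by
    intro s h1 h2
    have hs := mem s (by linarith) h2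
    have hh := mem (T / 2) (by linarith) (by linarith)
    have h3 : R (1 - s) ^ 2 ≤ (K * m) ^ 2 := by
      rw [mul_pow]
      exact ((hR _ hs).2.2.1.trans (hM hs hh (by linarith))).trans hMh
    exact le_of_sq_le_sq h3 (by positivity)
  -- the mean value theorem
  have mvt : ∀ a b, T / 2 ≤ b → b < a → a ≤ T → T / 8 ≤ a - b →
      ∃ t ∈ Ioo (1 - a) (1 - b), R1 t ≤ 8 * (K * m) / T := by
    intro a b hb hab ha hl
    obtain ⟨t, ht, h⟩ := exists_hasDerivAt_eq_slope R R1 (a := 1 - a) (b := 1 - b) (by linarith)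
      (hRc.mono (Icc_subset_Icc (by linarith) (by linarith)))
      (fun t ht => hd t ⟨by linarith [ht.1], by linarith [ht.2]⟩)
    refine ⟨t, ht, ?_⟩
    rw [h, div_le_div_iff₀ (by linarith) hT0]
    have h1 : R (1 - b) ≤ K * m := hRm b hb (by linarith)
    have h2 : 0 ≤ R (1 - a) := (hR _ (mem a (by linarith) ha)).1
    have h3 : 0 ≤ K * m := by positivity
    nlinarith [mul_nonneg h3 (by linarith : (0:ℝ) ≤ a - b - T / 8)]
  obtain ⟨t1, ht1, hd1⟩ := mvt T (7 * T / 8) (by linarith) (by linarith) le_rfl (by linarith)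
  obtain ⟨t2, ht2, hd2⟩ := mvt (3 * T / 4) (T / 2) (by linarith) (by linarith) (by linarith)
    (by linarith)
  have h1 := ht1.1
  have h2 := ht1.2
  have h3 := ht2.1
  have h4 := ht2.2
  have hk := key t1 t2 (c * T) (by linarith) (by linarith) (by linarith) (by linarith) hcT
    (by nlinarith)
  have ht1' : t1 ∈ Icc (0:ℝ) 1 := ⟨by linarith, by linarith⟩
  have ht2' : t2 ∈ Icc (0:ℝ) 1 := ⟨by linarith, by linarith⟩
  have hM1 : m ^ 2 ≤ M t1 := hm2 ▸ hM (mem T hT0.le le_rfl) ht1' (by linarith)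
  have hM2 : M t2 ≤ K ^ 2 * m ^ 2 :=
    (hM ht2' (mem (T / 2) (by linarith) (by linarith)) (by linarith)).trans hMh
  have hL : T / 8 * m ^ 2 ≤ (t2 - t1) / t1 * M t1 := by
    have h5 : T / 8 ≤ (t2 - t1) / t1 := by
      rw [le_div_iff₀ (by linarith)]
      nlinarith
    exact mul_le_mul h5 hM1 (by positivity) (le_trans (by positivity) h5)
  have hD : R1 t1 + R1 t2 ≤ 16 * (K * m) / T := by
    have : 16 * (K * m) / T = 8 * (K * m) / T + 8 * (K * m) / T := by ring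
    linarith
  exact alg2 hC0 hK hc0 hx hx1 hT0 (by linarith) hxT hm0
    (alg1 hC0 hK hc hc0 hx hxN hT0 hT hD (hMn _ ht2') hM2 (hL.trans hk))

/-- The hypotheses of `fin` on the three functions, for `N = n` and `x = n ^ (-1/4)`. -/
structure Hyp (C0 N x : ℝ) (R R1 M : ℝ → ℝ) : Prop where
  hR : ∀ t ∈ Icc (0:ℝ) 1, 0 ≤ R t ∧ R t ≤ 1 ∧ R t ^ 2 ≤ M t ∧ M t ≤ 1
  mR : MonotoneOn R (Icc 0 1)
  mM : MonotoneOn M (Icc 0 1)
  cR : ContinuousOn R (Icc 0 1)
  dR : ∀ t ∈ Ioo (0:ℝ) 1, HasDerivAt R (R1 t) t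
  key : ∀ t1 t2 th, 0 < t1 → t1 < t2 → t2 < 1 → t2 ≤ 2 * t1 → 0 < th → th ≤ 1 →
      (t2 - t1) / t1 * M t1 ≤ C0 * ((N ^ 3)⁻¹ + (x + th) * M t2 + x ^ 8 / th ^ 7 +
        (R1 t1 + R1 t2) / (th * N) + (R1 t1 + R1 t2) / (x ^ 2 * N))

/-- The pointwise bound. -/
theorem point (C0 d : ℝ) (hC0 : 1 ≤ C0) (hd : 0 < d) : ∃ c C : ℝ, 0 < c ∧ 0 ≤ C ∧
    ∀ (N x : ℝ) (R R1 M : ℝ → ℝ), 1 ≤ N → x = N ^ (-1/4:ℝ) → Hyp C0 N x R R1 M →
      ∀ T0, x * N ^ d / c ≤ T0 → T0 ≤ 1 / 2 → R (1 - T0) ≤ C * (x ^ 2 / T0 ^ 2) + x := by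
  obtain ⟨g0, hg0⟩ := exists_nat_ge (1 / (4 * d))
  obtain ⟨g, hg2, hg⟩ : ∃ g : ℕ, 2 ≤ g ∧ 1 / (4 * d) ≤ (g : ℝ) :=
    ⟨g0 + 2, by omega, by push_cast; linarith⟩
  obtain ⟨K, hKd⟩ : ∃ K : ℝ, K = 2 ^ g := ⟨_, rfl⟩
  have hK4 : 4 ≤ K := by
    rw [hKd]
    calc (4:ℝ) = 2 ^ 2 := by norm_num
      _ ≤ 2 ^ g := pow_le_pow_right₀ (by norm_num) hg2
  obtain ⟨c, hc⟩ : ∃ c : ℝ, c = 1 / (32 * C0 * K ^ 2) := ⟨_, rfl⟩
  have hc0 : 0 < c := by rw [hc]; positivity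
  obtain ⟨C, hC⟩ : ∃ C : ℝ, C = 16 * C0 * (1 + 1 / c ^ 7) + 16 * C0 * (16 * K * (1 / c + 1)) :=
    ⟨_, rfl⟩
  have hCn : 0 ≤ C := by rw [hC]; positivity
  refine ⟨c, C, hc0, hCn, ?_⟩
  intro N x R R1 M hN hx H T0 hT0 hT2
  have hN0 : 0 < N := by linarith
  have hx0 : 0 < x := by rw [hx]; positivity
  have hx1 : x ≤ 1 := by
    rw [hx]
    exact Real.rpow_le_one_of_one_le_of_nonpos hN (by norm_num)
  have hxN : x ^ 4 * N = 1 := by
    rw [hx, ← Real.rpow_natCast, ← Real.rpow_mul hN0.le]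
    norm_num
    rw [Real.rpow_neg_one]
    exact inv_mul_cancel₀ hN0.ne'
  have hNd : 1 ≤ N ^ d := Real.one_le_rpow hN hd.le
  have hT0p : 0 < T0 := lt_of_lt_of_le (by positivity) hT0
  obtain ⟨k, hk1, hk2⟩ := exists_nat_pow_near hNd (by norm_num : (1:ℝ) < 2)
  have mem : ∀ s, 0 ≤ s → s ≤ 1 / 2 → 1 - s ∈ Icc (0:ℝ) 1 := fun s h1 h2 =>
    ⟨by linarith, by linarith⟩
  have hMn : ∀ t ∈ Icc (0:ℝ) 1, 0 ≤ M t := fun t ht => (sq_nonneg _).trans (H.hR t ht).2.2.1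
  -- it is enough to bound `√ M`
  have hRM : R (1 - T0) ≤ √(M (1 - T0)) := by
    have h := H.hR _ (mem T0 hT0p.le hT2)
    exact Real.le_sqrt_of_sq_le h.2.2.1
  refine hRM.trans ?_
  have hxT : 0 ≤ x ^ 2 / T0 ^ 2 := by positivity
  -- the induction
  have ind : ∀ j : ℕ, j ≤ k + 1 →
      K ^ j * √(M (1 - T0)) ≤ √(M (1 - T0 / 2 ^ j)) ∨
        √(M (1 - T0)) ≤ C * (x ^ 2 / T0 ^ 2) := by
    intro j
    induction j with
    | zero => intro _; left; simp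
    | succ j ih =>
      intro hj
      rcases ih (by omega) with h | h
      · have h2j : (2:ℝ) ^ j ≤ N ^ d :=
          (pow_le_pow_right₀ (by norm_num) (by omega)).trans hk1
        have h2p : (0:ℝ) < 2 ^ j := by positivity
        have hxT' : x ≤ c * (T0 / 2 ^ j) := by
          rw [div_le_iff₀ hc0] at hT0
          rw [mul_div_assoc', le_div_iff₀ h2p]
          calc x * 2 ^ j ≤ x * N ^ d := mul_le_mul_of_nonneg_left h2j hx0.le
            _ ≤ c * T0 := by linarith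
        have hT2' : T0 / 2 ^ j ≤ 1 / 2 :=
          (div_le_self hT0p.le (one_le_pow₀ (by norm_num))).trans hT2
        by_cases hf : √(M (1 - T0 / 2 ^ j / 2)) ≤ K * √(M (1 - T0 / 2 ^ j))
        · right
          have h1 := core hC0 (by linarith) hc hx0 hx1 hxN H.hR H.mM H.cR H.dR H.key
            hxT' hT2' hf
          rw [← hC] at h1
          have h3 : x ^ 2 / (T0 / 2 ^ j) ^ 2 = 4 ^ j * (x ^ 2 / T0 ^ 2) := by
            rw [div_pow, ← pow_mul, mul_comm j 2, pow_mul]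
            norm_num
            field_simp
          rw [h3] at h1
          have h4 : K ^ j * √(M (1 - T0)) ≤ K ^ j * (C * (x ^ 2 / T0 ^ 2)) := by
            calc K ^ j * √(M (1 - T0)) ≤ C * (4 ^ j * (x ^ 2 / T0 ^ 2)) := h.trans h1
              _ = 4 ^ j * (C * (x ^ 2 / T0 ^ 2)) := by ring
              _ ≤ K ^ j * (C * (x ^ 2 / T0 ^ 2)) :=
                mul_le_mul_of_nonneg_right (pow_le_pow_left₀ (by norm_num) hK4 j) (by positivity)
          exact le_of_mul_le_mul_left h4 (by positivity)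
        · left
          push Not at hf
          have h5 : T0 / 2 ^ (j + 1) = T0 / 2 ^ j / 2 := by
            rw [pow_succ, div_div]
          rw [h5]
          calc K ^ (j + 1) * √(M (1 - T0)) = K * (K ^ j * √(M (1 - T0))) := by ring
            _ ≤ K * √(M (1 - T0 / 2 ^ j)) := mul_le_mul_of_nonneg_left h (by linarith)
            _ ≤ _ := hf.le
      · exact Or.inr h
  rcases ind (k + 1) le_rfl with h | h
  · have h1 : √(M (1 - T0 / 2 ^ (k + 1))) ≤ 1 := by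
      refine (Real.sqrt_le_sqrt (H.hR _ (mem _ (by positivity) ?_)).2.2.2).trans_eq Real.sqrt_one
      exact (div_le_self hT0p.le (one_le_pow₀ (by norm_num))).trans hT2
    have h2 : 1 / x ≤ K ^ (k + 1) := by
      have h3 : 1 / x = N ^ (1/4 : ℝ) := by
        rw [hx, one_div, ← Real.rpow_neg hN0.le]
        norm_num
      rw [h3]
      calc N ^ (1/4 : ℝ) ≤ N ^ (d * g) := by
            refine Real.rpow_le_rpow_of_exponent_le hN ?_
            rw [div_le_iff₀ (by positivity)] at hg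
            nlinarith
        _ = (N ^ d) ^ g := by rw [Real.rpow_mul hN0.le, Real.rpow_natCast]
        _ ≤ (2 ^ (k + 1)) ^ g := pow_le_pow_left₀ (by linarith) hk2.le g
        _ = K ^ (k + 1) := by rw [hKd, ← pow_mul, ← pow_mul, mul_comm]
    have h4 : √(M (1 - T0)) ≤ x := by
      have h5 : 1 / x * √(M (1 - T0)) ≤ 1 :=
        (mul_le_mul_of_nonneg_right h2 (Real.sqrt_nonneg _)).trans (h.trans h1)
      rw [one_div, inv_mul_le_iff₀ hx0, mul_one] at h5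
      exact h5
    have h6 : 0 ≤ C * (x ^ 2 / T0 ^ 2) := by positivity
    linarith
  · linarith

open intervalIntegral in
/-- The final statement, with `N` real. -/
theorem fin_real (C0 d : ℝ) (hC0 : 1 ≤ C0) (hd : 0 < d) : ∃ D : ℝ, 0 ≤ D ∧
    ∀ (N x : ℝ) (R R1 M : ℝ → ℝ), 1 ≤ N → x = N ^ (-1/4:ℝ) → Hyp C0 N x R R1 M →
      ∫ t in (0:ℝ)..1, R t ≤ D * N ^ (-1/4 + d) := by
  obtain ⟨c, C, hc, hC, hp⟩ := point C0 d hC0 hd
  refine ⟨2 / c + 5 * C + 2 + c * C, by positivity, ?_⟩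
  intro N x R R1 M hN hx H
  have hN0 : 0 < N := by linarith
  have hx0 : 0 < x := by rw [hx]; positivity
  have hx1 : x ≤ 1 := by
    rw [hx]
    exact Real.rpow_le_one_of_one_le_of_nonpos hN (by norm_num)
  have hNd : 1 ≤ N ^ d := Real.one_le_rpow hN hd.le
  have hp := hp N x R R1 M hN hx H
  rw [Real.rpow_add hN0, ← hx]
  obtain ⟨a, ha⟩ : ∃ a : ℝ, a = x * N ^ d / c := ⟨_, rfl⟩
  rw [← ha] at hp
  have ha0 : 0 < a := by rw [ha]; positivity
  have hac : x * N ^ d = c * a := by rw [ha]; field_simp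
  have hR1 : ∀ t ∈ Icc (0:ℝ) 1, R t ≤ 1 := fun t ht => (H.hR t ht).2.1
  have hint : ∀ u v, 0 ≤ u → u ≤ v → v ≤ 1 → IntervalIntegrable R MeasureTheory.volume u v :=
    fun u v hu huv hv => (H.cR.mono (Icc_subset_Icc hu hv)).intervalIntegrable_of_Icc huv
  have hle : ∀ u v b, 0 ≤ u → u ≤ v → v ≤ 1 → (∀ t ∈ Icc u v, R t ≤ b) →
      ∫ t in u..v, R t ≤ (v - u) * b := by
    intro u v b hu huv hv hb
    calc ∫ t in u..v, R t ≤ ∫ _ in u..v, b :=
          integral_mono_on huv (hint u v hu huv hv) intervalIntegrable_const hb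
      _ = (v - u) * b := by rw [integral_const, smul_eq_mul]
  by_cases hah : a ≤ 1 / 2
  · -- main case
    have hsplit : ∫ t in (0:ℝ)..1, R t = (∫ t in (0:ℝ)..(1/2), R t) +
        (∫ t in (1/2:ℝ)..(1 - a), R t) + ∫ t in (1 - a)..1, R t := by
      rw [integral_add_adjacent_intervals (hint _ _ le_rfl (by norm_num) (by norm_num))
        (hint _ _ (by norm_num) (by linarith) (by linarith)),
        integral_add_adjacent_intervals (hint _ _ le_rfl (by linarith) (by linarith))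
        (hint _ _ (by linarith) (by linarith) le_rfl)]
    have h1 : ∫ t in (0:ℝ)..(1/2), R t ≤ 4 * C * x + x := by
      have h2 : R (1 / 2) ≤ 4 * C * x + x := by
        have h3 := hp (1 / 2) hah le_rfl
        have h4 : (1:ℝ) - 1 / 2 = 1 / 2 := by norm_num
        rw [h4] at h3
        have h5 : C * (x ^ 2 / (1 / 2) ^ 2) ≤ 4 * C * x := by
          have h6 : C * (x ^ 2 / (1 / 2) ^ 2) = 4 * C * x ^ 2 := by ring
          rw [h6]
          exact mul_le_mul_of_nonneg_left (by nlinarith) (by positivity)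
        linarith
      have h3 := hle 0 (1 / 2) (4 * C * x + x) le_rfl (by norm_num) (by norm_num)
        (fun t ht => (H.mR ⟨ht.1, by linarith [ht.2]⟩ ⟨by norm_num, by norm_num⟩ ht.2).trans h2)
      have h4 : 0 ≤ 4 * C * x + x := by positivity
      linarith
    have h2 : ∫ t in (1 - a)..1, R t ≤ a := by
      have h3 := hle (1 - a) 1 1 (by linarith) (by linarith) le_rfl
        (fun t ht => hR1 t ⟨by linarith [ht.1], ht.2⟩)
      linarith
    have h3 : ∫ t in (1/2:ℝ)..(1 - a), R t ≤ C * x ^ 2 / a + x := by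
      have hder : ∀ t ∈ uIcc (1/2:ℝ) (1 - a), HasDerivAt (fun t => C * x ^ 2 / (1 - t) + x * t)
          (C * (x ^ 2 / (1 - t) ^ 2) + x) t := by
        intro t ht
        rw [uIcc_of_le (by linarith)] at ht
        have h4 : (1:ℝ) - t ≠ 0 := by
          have := ht.2
          linarith
        have h5 : HasDerivAt (fun t : ℝ => 1 - t) (-1) t := by
          simpa using (hasDerivAt_id t).const_sub 1
        have h6 : HasDerivAt (fun t : ℝ => C * x ^ 2 / (1 - t)) (C * (x ^ 2 / (1 - t) ^ 2)) t := by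
          have h7 := (h5.inv h4).const_mul (C * x ^ 2)
          refine (h7.congr_deriv ?_)
          field_simp
        have h8 : HasDerivAt (fun t : ℝ => x * t) x t := by
          simpa using (hasDerivAt_id t).const_mul x
        exact h6.add h8
      have hcont : ContinuousOn (fun t : ℝ => C * (x ^ 2 / (1 - t) ^ 2) + x)
          (uIcc (1/2:ℝ) (1 - a)) := by
        rw [uIcc_of_le (by linarith)]
        refine ContinuousOn.add (ContinuousOn.mul continuousOn_const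
          (ContinuousOn.div continuousOn_const (by fun_prop) ?_)) continuousOn_const
        intro t ht
        have h4 : (0:ℝ) < 1 - t := by
          have := ht.2
          linarith
        positivity
      have hmono : ∫ t in (1/2:ℝ)..(1 - a), R t ≤
          ∫ t in (1/2:ℝ)..(1 - a), (C * (x ^ 2 / (1 - t) ^ 2) + x) := by
        refine integral_mono_on (by linarith)
          (hint _ _ (by norm_num) (by linarith) (by linarith)) hcont.intervalIntegrable ?_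
        intro t ht
        have h4 := hp (1 - t) (by linarith [ht.2]) (by linarith [ht.1])
        rwa [sub_sub_cancel] at h4
      rw [integral_eq_sub_of_hasDerivAt hder hcont.intervalIntegrable] at hmono
      have h5 : C * x ^ 2 / (1 - (1 - a)) = C * x ^ 2 / a := by rw [sub_sub_cancel]
      rw [h5] at hmono
      have h6 : 0 ≤ C * x ^ 2 / (1 - 1 / 2) := by positivity
      nlinarith
    rw [hsplit]
    have h4 : x ≤ x * N ^ d := le_mul_of_one_le_right hx0.le hNd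
    have h5 : C * x ^ 2 / a ≤ c * C * (x * N ^ d) := by
      rw [div_le_iff₀ ha0]
      have h6 : x ^ 2 ≤ (x * N ^ d) * (x * N ^ d) := by nlinarith
      calc C * x ^ 2 ≤ C * ((x * N ^ d) * (x * N ^ d)) := mul_le_mul_of_nonneg_left h6 hC
        _ = C * ((x * N ^ d) * (c * a)) := by rw [← hac]
        _ = c * C * (x * N ^ d) * a := by ring
    have h6 : a = 1 / c * (x * N ^ d) := by rw [ha]; ring
    have h7 : 0 ≤ 1 / c * (x * N ^ d) := by positivity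
    have h8 : 0 ≤ C * (x * N ^ d) := by positivity
    have h9 : C * x ≤ C * (x * N ^ d) := mul_le_mul_of_nonneg_left h4 hC
    have h10 : (2 / c + 5 * C + 2 + c * C) * (x * N ^ d) = 2 * (1 / c * (x * N ^ d)) +
        5 * (C * (x * N ^ d)) + 2 * (x * N ^ d) + c * C * (x * N ^ d) := by ring
    rw [h10]
    linarith
  · push Not at hah
    have h1 := hle 0 1 1 le_rfl (by norm_num) le_rfl hR1
    have h2 : 1 ≤ 2 / c * (x * N ^ d) := by
      rw [hac]
      have : 2 / c * (c * a) = 2 * a := by field_simp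
      rw [this]
      linarith
    have h3 : 0 ≤ (5 * C + 2 + c * C) * (x * N ^ d) := by positivity
    have h4 : (2 / c + 5 * C + 2 + c * C) * (x * N ^ d) = 2 / c * (x * N ^ d) +
      (5 * C + 2 + c * C) * (x * N ^ d) := by ring
    rw [h4]
    linarith

/-- **FIN** (helper325, board P146 #6319), literal statement. -/
theorem fin (C0 d : ℝ) (hC0 : 1 ≤ C0) (hd : 0 < d) : ∃ D : ℝ, 0 ≤ D ∧
    ∀ n : ℕ, 1 ≤ n → ∀ (x : ℝ), x = (n:ℝ) ^ (-1/4:ℝ) → ∀ (R R1 M : ℝ → ℝ),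
      (∀ t ∈ Icc (0:ℝ) 1, 0 ≤ R t ∧ R t ≤ 1 ∧ R t ^ 2 ≤ M t ∧ M t ≤ 1) →
      MonotoneOn R (Icc 0 1) → MonotoneOn M (Icc 0 1) → ContinuousOn R (Icc 0 1) →
      (∀ t ∈ Ioo (0:ℝ) 1, HasDerivAt R (R1 t) t) →
      (∀ t1 t2 th, 0 < t1 → t1 < t2 → t2 < 1 → t2 ≤ 2 * t1 → 0 < th → th ≤ 1 →
        (t2 - t1) / t1 * M t1 ≤ C0 * (((n:ℝ) ^ 3)⁻¹ + (x + th) * M t2 + x ^ 8 / th ^ 7 +
          (R1 t1 + R1 t2) / (th * n) + (R1 t1 + R1 t2) / (x ^ 2 * n))) →
      ∫ t in (0:ℝ)..1, R t ≤ D * (n:ℝ) ^ (-1/4 + d) := by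
  obtain ⟨D, hD, h⟩ := fin_real C0 d hC0 hd
  refine ⟨D, hD, ?_⟩
  intro n hn x hx R R1 M hR mR mM cR dR key
  exact h n x R R1 M (by exact_mod_cast hn) hx ⟨hR, mR, mM, cR, dR, key⟩

end Vale.Agent.P146.H722
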