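import Vale.Agent.P146.H941.F01
import Vale.Agent.P146.H826.LawP

/-!
Plan R2, row F1Y: the mean of a density over all blocks but the first one, and the block
Cauchy-Schwarz inequality for matrices of such means.
-/

open MeasureTheory ProbabilityTheory Finset

namespace Vale.Agent.P146.H722.FY

open Vale.Agent.P157.Lv Vale.Agent.P146.H425 Vale.Agent.P146.H325 Vale.Agent.P146.H332
  Vale.Agent.P146.H712 Vale.Agent.P146.R1 Vale.Agent.P146.R1C Vale.Agent.P146.H706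
  Vale.Agent.P146.R1S Vale.Agent.P146.H191

set_option linter.unusedSectionVars false

section gen

variable {α β : Type} [Fintype α] [Fintype β] {φ f g : (α ⊕ β → ℝ) → ℝ}

/-- The mean over the second block (not normalized). -/
noncomputable def E0 (φ f : (α ⊕ β → ℝ) → ℝ) (y : α → ℝ) : ℝ :=
  ∫ v : β → ℝ, φ (Sum.elim y v) * f (Sum.elim y v) ∂(gI β)

lemma eg_el (hφ : EG φ) (hf : EG f) (y : α → ℝ) :
    EG fun v : β → ℝ => φ (Sum.elim y v) * f (Sum.elim y v) :=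
  R1.eg_elim (G := fun w => φ w * f w) (hφ.mul hf) y

lemma eg_E0 (hφ : EG φ) (hf : EG f) : EG (E0 φ f) :=
  R1C.eg_int (G := fun w => φ w * f w) (hφ.mul hf)

lemma int_E0 (hφ : EG φ) (hf : EG f) :
    ∫ w, φ w * f w ∂(gI (α ⊕ β)) = ∫ y, E0 φ f y ∂(gI α) :=
  R1.int_sum (G := fun w => φ w * f w) (hφ.mul hf)

lemma E0_congr (h : ∀ w, f w = g w) (y : α → ℝ) : E0 φ f y = E0 φ g y := by
  rw [show f = g from funext h]

lemma E0_add (hφ : EG φ) (hf : EG f) (hg : EG g) (y : α → ℝ) :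
    E0 φ (fun w => f w + g w) y = E0 φ f y + E0 φ g y := by
  unfold E0
  simp only [mul_add]
  exact integral_add (eg_el hφ hf y).integrable (eg_el hφ hg y).integrable

lemma E0_sub (hφ : EG φ) (hf : EG f) (hg : EG g) (y : α → ℝ) :
    E0 φ (fun w => f w - g w) y = E0 φ f y - E0 φ g y := by
  unfold E0
  simp only [mul_sub]
  exact integral_sub (eg_el hφ hf y).integrable (eg_el hφ hg y).integrable

lemma E0_const_mul (c : ℝ) (y : α → ℝ) : E0 φ (fun w => c * f w) y = c * E0 φ f y := by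
  unfold E0
  rw [← integral_const_mul]
  refine integral_congr_ae (Filter.Eventually.of_forall fun v => ?_)
  simp only
  ring

lemma E0_mul_const (c : ℝ) (y : α → ℝ) : E0 φ (fun w => f w * c) y = E0 φ f y * c := by
  rw [mul_comm, ← E0_const_mul]
  exact E0_congr (fun w => mul_comm _ _) y

lemma E0_sum (hφ : EG φ) {ι : Type} (s : Finset ι) {F : ι → (α ⊕ β → ℝ) → ℝ}
    (hF : ∀ i ∈ s, EG (F i)) (y : α → ℝ) :
    E0 φ (fun w => ∑ i ∈ s, F i w) y = ∑ i ∈ s, E0 φ (F i) y := by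
  unfold E0
  simp only [Finset.mul_sum]
  exact integral_finsetSum s fun i hi => (eg_el hφ (hF i hi) y).integrable

lemma E0_mono (h0 : ∀ w, 0 ≤ φ w) (hφ : EG φ) (hf : EG f) (hg : EG g) (h : ∀ w, f w ≤ g w)
    (y : α → ℝ) : E0 φ f y ≤ E0 φ g y :=
  integral_mono (eg_el hφ hf y).integrable (eg_el hφ hg y).integrable fun v =>
    mul_le_mul_of_nonneg_left (h _) (h0 _)

lemma E0_nonneg (h0 : ∀ w, 0 ≤ φ w) (h : ∀ w, 0 ≤ f w) (y : α → ℝ) : 0 ≤ E0 φ f y :=
  integral_nonneg fun v => mul_nonneg (h0 _) (h _)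

/-- a function of the first block -/
lemma E0_left (c : (α → ℝ) → ℝ) (y : α → ℝ) :
    E0 φ (fun w => c (fun e => w (Sum.inl e)) * f w) y = c y * E0 φ f y := by
  unfold E0
  rw [← integral_const_mul]
  refine integral_congr_ae (Filter.Eventually.of_forall fun v => ?_)
  simp only [Sum.elim_inl]
  ring

/-- Cauchy-Schwarz -/
lemma E0_cs (h0 : ∀ w, 0 ≤ φ w) (hφ : EG φ) (hf : EG f) (hg : EG g) (y : α → ℝ) :
    E0 φ (fun w => f w * g w) y ^ 2 ≤
      E0 φ (fun w => f w ^ 2) y * E0 φ (fun w => g w ^ 2) y := by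
  have h1 : ∀ t : ℝ, 0 ≤ E0 φ (fun w => g w ^ 2) y * (t * t) +
      (2 * E0 φ (fun w => f w * g w) y) * t + E0 φ (fun w => f w ^ 2) y := by
    intro t
    have h2 := E0_nonneg (φ := φ) (f := fun w => (f w + t * g w) ^ 2) h0
      (fun w => sq_nonneg _) y
    have e : E0 φ (fun w => (f w + t * g w) ^ 2) y = E0 φ (fun w => g w ^ 2) y * (t * t) +
        (2 * E0 φ (fun w => f w * g w) y) * t + E0 φ (fun w => f w ^ 2) y := by
      rw [E0_congr (g := fun w => ((t * t) * g w ^ 2 + (2 * t) * (f w * g w)) + f w ^ 2)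
        (fun w => by ring) y,
        E0_add hφ (((hg.pow 2).const_mul _).add ((hf.mul hg).const_mul _)) (hf.pow 2),
        E0_add hφ ((hg.pow 2).const_mul _) ((hf.mul hg).const_mul _), E0_const_mul,
        E0_const_mul]
      ring
    linarith
  have h3 := discrim_le_zero h1
  unfold discrim at h3
  nlinarith

lemma E0_cs' (h0 : ∀ w, 0 ≤ φ w) (hφ : EG φ) (hf : EG f) (hg : EG g) (y : α → ℝ) :
    |E0 φ (fun w => f w * g w) y| ≤
      √(E0 φ (fun w => f w ^ 2) y) * √(E0 φ (fun w => g w ^ 2) y) := by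
  rw [← Real.sqrt_mul (E0_nonneg h0 (fun w => sq_nonneg _) y), ← Real.sqrt_sq_eq_abs]
  exact Real.sqrt_le_sqrt (E0_cs h0 hφ hf hg y)

/-- Cauchy-Schwarz for square roots -/
lemma E0_sqrt (h0 : ∀ w, 0 ≤ φ w) (hφ : EG φ) (hf : EG f) (hg : EG g) (f0 : ∀ w, 0 ≤ f w)
    (g0 : ∀ w, 0 ≤ g w) (y : α → ℝ) :
    E0 φ (fun w => √(f w) * √(g w)) y ≤ √(E0 φ f y) * √(E0 φ g y) := by
  have h1 := (abs_le.1 (E0_cs' h0 hφ (eg_sqrt hf) (eg_sqrt hg) y)).2
  have e1 : E0 φ (fun w => √(f w) ^ 2) y = E0 φ f y :=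
    E0_congr (fun w => Real.sq_sqrt (f0 w)) y
  have e2 : E0 φ (fun w => √(g w) ^ 2) y = E0 φ g y :=
    E0_congr (fun w => Real.sq_sqrt (g0 w)) y
  rw [e1, e2] at h1
  exact h1

end gen

end Vale.Agent.P146.H722.FY
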