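import Vale.Agent.P146.H722.E0

/-!
Plan R2, row F1Y: block Cauchy-Schwarz for matrices of conditional means, and the error of the
replacement of the deep matrix by its row mean, at the level of conditional means.
-/

open MeasureTheory ProbabilityTheory Finset

namespace Vale.Agent.P146.H722.FY

open Vale.Agent.P157.Lv Vale.Agent.P146.H425 Vale.Agent.P146.H325 Vale.Agent.P146.H332
  Vale.Agent.P146.H712 Vale.Agent.P146.R1 Vale.Agent.P146.R1C Vale.Agent.P146.H706
  Vale.Agent.P146.R1S Vale.Agent.P146.H191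

set_option linter.unusedSectionVars false

section gen

variable {α β : Type} [Fintype α] [Fintype β] {φ : (α ⊕ β → ℝ) → ℝ}
variable {I J M : Type} [Fintype I] [Fintype J] [Fintype M]

/-- the double sum of squares -/
lemma sq_expand (u : I → M → ℝ) (p : I → M → ℝ) :
    ∑ m, ∑ m', (∑ i, u i m * p i m') ^ 2 =
      ∑ i, ∑ i', (∑ m, u i m * u i' m) * ∑ m', p i m' * p i' m' := by
  have h1 : ∀ m m', (∑ i, u i m * p i m') ^ 2 =
      ∑ i, ∑ i', (u i m * u i' m) * (p i m' * p i' m') := by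
    intro m m'
    rw [pow_two, Finset.sum_mul_sum]
    exact Finset.sum_congr rfl fun i _ => Finset.sum_congr rfl fun i' _ => by ring
  simp only [h1]
  calc ∑ m, ∑ m', ∑ i, ∑ i', (u i m * u i' m) * (p i m' * p i' m')
      = ∑ m, ∑ i, ∑ m', ∑ i', (u i m * u i' m) * (p i m' * p i' m') :=
        Finset.sum_congr rfl fun m _ => Finset.sum_comm
    _ = ∑ i, ∑ m, ∑ m', ∑ i', (u i m * u i' m) * (p i m' * p i' m') := Finset.sum_comm
    _ = ∑ i, ∑ m, ∑ i', ∑ m', (u i m * u i' m) * (p i m' * p i' m') :=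
        Finset.sum_congr rfl fun i _ => Finset.sum_congr rfl fun m _ => Finset.sum_comm
    _ = ∑ i, ∑ i', ∑ m, ∑ m', (u i m * u i' m) * (p i m' * p i' m') :=
        Finset.sum_congr rfl fun i _ => Finset.sum_comm
    _ = _ := by
        refine Finset.sum_congr rfl fun i _ => Finset.sum_congr rfl fun i' _ => ?_
        rw [Finset.sum_mul_sum]

/-- **Block Cauchy-Schwarz**: `|E (U Wᵀ)|² ≤ |E (U Uᵀ)| |E (W Wᵀ)|` (Frobenius norms). -/
theorem bp (h0 : ∀ w, 0 ≤ φ w) (hφ : EG φ) {U : I → M → (α ⊕ β → ℝ) → ℝ}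
    {W : J → M → (α ⊕ β → ℝ) → ℝ} (hU : ∀ i m, EG (U i m)) (hW : ∀ j m, EG (W j m)) (y : α → ℝ) :
    ∑ i, ∑ j, E0 φ (fun w => ∑ m, U i m w * W j m w) y ^ 2 ≤
      √(∑ i, ∑ i', E0 φ (fun w => ∑ m, U i m w * U i' m w) y ^ 2) *
        √(∑ j, ∑ j', E0 φ (fun w => ∑ m, W j m w * W j' m w) y ^ 2) := by
  set a : I → J → ℝ := fun i j => E0 φ (fun w => ∑ m, U i m w * W j m w) y with ha
  set P : I → I → ℝ := fun i i' => E0 φ (fun w => ∑ m, U i m w * U i' m w) y with hP
  set R : J → J → ℝ := fun j j' => E0 φ (fun w => ∑ m, W j m w * W j' m w) y with hR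
  have eUW : ∀ i j, EG fun w => ∑ m, U i m w * W j m w := fun i j =>
    EG.sum _ fun m _ => (hU i m).mul (hW j m)
  have eUU : ∀ i i', EG fun w => ∑ m, U i m w * U i' m w := fun i i' =>
    EG.sum _ fun m _ => (hU i m).mul (hU i' m)
  have eWW : ∀ i i', EG fun w => ∑ m, W i m w * W i' m w := fun i i' =>
    EG.sum _ fun m _ => (hW i m).mul (hW i' m)
  -- the pointwise functions
  set pu : (α ⊕ β → ℝ) → ℝ := fun w' => ∑ i, ∑ i', P i i' * ∑ m, U i m w' * U i' m w' with hpu
  set pw : (α ⊕ β → ℝ) → ℝ := fun w' => ∑ j, ∑ j', R j j' * ∑ m, W j m w' * W j' m w' with hpw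
  have epu : EG pu := EG.sum _ fun i _ => EG.sum _ fun i' _ => (eUU i i').const_mul _
  have epw : EG pw := EG.sum _ fun i _ => EG.sum _ fun i' _ => (eWW i i').const_mul _
  -- a mean of squares
  have qu : ∀ w', pu w' = E0 φ (fun w => ∑ m, ∑ m', (∑ i, U i m w * U i m' w') ^ 2) y := by
    intro w'
    have e : ∀ w, ∑ m, ∑ m', (∑ i, U i m w * U i m' w') ^ 2 =
        ∑ i, ∑ i', (∑ m, U i m w * U i' m w) * ∑ m', U i m' w' * U i' m' w' := fun w =>
      sq_expand (fun i m => U i m w) fun i m => U i m w'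
    rw [E0_congr e, E0_sum hφ _ fun i _ => EG.sum _ fun i' _ => (eUU i i').mul (EG.const _)]
    refine Finset.sum_congr rfl fun i _ => ?_
    rw [E0_sum hφ _ fun i' _ => (eUU i i').mul (EG.const _)]
    exact Finset.sum_congr rfl fun i' _ => by rw [E0_mul_const]
  have qw : ∀ w', pw w' = E0 φ (fun w => ∑ m, ∑ m', (∑ j, W j m w * W j m' w') ^ 2) y := by
    intro w'
    have e : ∀ w, ∑ m, ∑ m', (∑ i, W i m w * W i m' w') ^ 2 =
        ∑ i, ∑ i', (∑ m, W i m w * W i' m w) * ∑ m', W i m' w' * W i' m' w' := fun w =>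
      sq_expand (fun i m => W i m w) fun i m => W i m w'
    rw [E0_congr e, E0_sum hφ _ fun i _ => EG.sum _ fun i' _ => (eWW i i').mul (EG.const _)]
    refine Finset.sum_congr rfl fun i _ => ?_
    rw [E0_sum hφ _ fun i' _ => (eWW i i').mul (EG.const _)]
    exact Finset.sum_congr rfl fun i' _ => by rw [E0_mul_const]
  have pu0 : ∀ w, 0 ≤ pu w := fun w' => by
    rw [qu]
    exact E0_nonneg h0 (fun w => Finset.sum_nonneg fun _ _ => Finset.sum_nonneg fun _ _ =>
      sq_nonneg _) y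
  have pw0 : ∀ w, 0 ≤ pw w := fun w' => by
    rw [qw]
    exact E0_nonneg h0 (fun w => Finset.sum_nonneg fun _ _ => Finset.sum_nonneg fun _ _ =>
      sq_nonneg _) y
  -- pointwise in the second copy
  have key : ∀ w', (∑ i, ∑ j, a i j * ∑ m, U i m w' * W j m w') ≤ √(pu w') * √(pw w') := by
    intro w'
    have e1 : (∑ i, ∑ j, a i j * ∑ m, U i m w' * W j m w') =
        E0 φ (fun w => ∑ i, ∑ j, (∑ m, U i m w * W j m w) * ∑ m, U i m w' * W j m w') y := by
      rw [E0_sum hφ _ fun i _ => EG.sum _ fun j _ => (eUW i j).mul (EG.const _)]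
      refine Finset.sum_congr rfl fun i _ => ?_
      rw [E0_sum hφ _ fun j _ => (eUW i j).mul (EG.const _)]
      exact Finset.sum_congr rfl fun j _ => by rw [E0_mul_const]
    have e2 : ∀ w, (∑ i, ∑ j, (∑ m, U i m w * W j m w) * ∑ m, U i m w' * W j m w') =
        ∑ m, ∑ m', (∑ i, U i m w * U i m' w') * ∑ j, W j m w * W j m' w' := by
      intro w
      calc (∑ i, ∑ j, (∑ m, U i m w * W j m w) * ∑ m', U i m' w' * W j m' w')
          = ∑ i, ∑ j, ∑ m, ∑ m', (U i m w * U i m' w') * (W j m w * W j m' w') := by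
            refine Finset.sum_congr rfl fun i _ => Finset.sum_congr rfl fun j _ => ?_
            rw [Finset.sum_mul_sum]
            exact Finset.sum_congr rfl fun m _ => Finset.sum_congr rfl fun m' _ => by ring
        _ = ∑ i, ∑ m, ∑ j, ∑ m', (U i m w * U i m' w') * (W j m w * W j m' w') :=
            Finset.sum_congr rfl fun i _ => Finset.sum_comm
        _ = ∑ m, ∑ i, ∑ j, ∑ m', (U i m w * U i m' w') * (W j m w * W j m' w') :=
            Finset.sum_comm
        _ = ∑ m, ∑ i, ∑ m', ∑ j, (U i m w * U i m' w') * (W j m w * W j m' w') :=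
            Finset.sum_congr rfl fun m _ => Finset.sum_congr rfl fun i _ => Finset.sum_comm
        _ = ∑ m, ∑ m', ∑ i, ∑ j, (U i m w * U i m' w') * (W j m w * W j m' w') :=
            Finset.sum_congr rfl fun m _ => Finset.sum_comm
        _ = _ := by
            refine Finset.sum_congr rfl fun m _ => Finset.sum_congr rfl fun m' _ => ?_
            rw [Finset.sum_mul_sum]
    rw [e1, E0_congr e2]
    -- Cauchy-Schwarz pointwise, then in the mean
    have eu2 : EG fun w => ∑ m, ∑ m', (∑ i, U i m w * U i m' w') ^ 2 :=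
      EG.sum _ fun m _ => EG.sum _ fun m' _ =>
        (EG.sum _ fun i _ => (hU i m).mul (EG.const _)).pow 2
    have ew2 : EG fun w => ∑ m, ∑ m', (∑ j, W j m w * W j m' w') ^ 2 :=
      EG.sum _ fun m _ => EG.sum _ fun m' _ =>
        (EG.sum _ fun i _ => (hW i m).mul (EG.const _)).pow 2
    have euw : EG fun w => ∑ m, ∑ m', (∑ i, U i m w * U i m' w') * ∑ j, W j m w * W j m' w' :=
      EG.sum _ fun m _ => EG.sum _ fun m' _ =>
        (EG.sum _ fun i _ => (hU i m).mul (EG.const _)).mul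
          (EG.sum _ fun i _ => (hW i m).mul (EG.const _))
    have hc : ∀ w, (∑ m, ∑ m', (∑ i, U i m w * U i m' w') * ∑ j, W j m w * W j m' w') ≤
        √(∑ m, ∑ m', (∑ i, U i m w * U i m' w') ^ 2) *
          √(∑ m, ∑ m', (∑ j, W j m w * W j m' w') ^ 2) := by
      intro w
      have h := Finset.sum_mul_sq_le_sq_mul_sq (Finset.univ : Finset (M × M))
        (fun p => ∑ i, U i p.1 w * U i p.2 w') (fun p => ∑ j, W j p.1 w * W j p.2 w')
      rw [Fintype.sum_prod_type, Fintype.sum_prod_type, Fintype.sum_prod_type] at h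
      simp only at h
      rw [← Real.sqrt_mul (Finset.sum_nonneg fun _ _ => Finset.sum_nonneg fun _ _ =>
        sq_nonneg _)]
      exact (le_abs_self _).trans (by rw [← Real.sqrt_sq_eq_abs]; exact Real.sqrt_le_sqrt h)
    refine (E0_mono h0 hφ euw ((eg_sqrt eu2).mul (eg_sqrt ew2)) hc y).trans ?_
    rw [qu, qw]
    exact E0_sqrt h0 hφ eu2 ew2
      (fun w => Finset.sum_nonneg fun _ _ => Finset.sum_nonneg fun _ _ => sq_nonneg _)
      (fun w => Finset.sum_nonneg fun _ _ => Finset.sum_nonneg fun _ _ => sq_nonneg _) y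
  -- the mean over the second copy
  have e3 : ∑ i, ∑ j, a i j ^ 2 =
      E0 φ (fun w' => ∑ i, ∑ j, a i j * ∑ m, U i m w' * W j m w') y := by
    rw [E0_sum hφ _ fun i _ => EG.sum _ fun j _ => (eUW i j).const_mul _]
    refine Finset.sum_congr rfl fun i _ => ?_
    rw [E0_sum hφ _ fun j _ => (eUW i j).const_mul _]
    exact Finset.sum_congr rfl fun j _ => by rw [E0_const_mul, pow_two]
  have e4 : E0 φ pu y = ∑ i, ∑ i', P i i' ^ 2 := by
    rw [hpu, E0_sum hφ _ fun i _ => EG.sum _ fun j _ => (eUU i j).const_mul _]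
    refine Finset.sum_congr rfl fun i _ => ?_
    rw [E0_sum hφ _ fun j _ => (eUU i j).const_mul _]
    exact Finset.sum_congr rfl fun j _ => by rw [E0_const_mul, pow_two]
  have e5 : E0 φ pw y = ∑ i, ∑ i', R i i' ^ 2 := by
    rw [hpw, E0_sum hφ _ fun i _ => EG.sum _ fun j _ => (eWW i j).const_mul _]
    refine Finset.sum_congr rfl fun i _ => ?_
    rw [E0_sum hφ _ fun j _ => (eWW i j).const_mul _]
    exact Finset.sum_congr rfl fun j _ => by rw [E0_const_mul, pow_two]
  rw [e3, ← e4, ← e5]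
  exact (E0_mono h0 hφ (EG.sum _ fun i _ => EG.sum _ fun j _ => (eUW i j).const_mul _)
    ((eg_sqrt epu).mul (eg_sqrt epw)) key y).trans (E0_sqrt h0 hφ epu epw pu0 pw0 y)

end gen

end Vale.Agent.P146.H722.FY
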