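import Vale.Agent.P146.H785.Hes

/-!
Derivatives along a line from partial derivatives: a function with bounded first and second
partial derivatives is in the class `C11`, so it has a total derivative.
-/

open MeasureTheory ProbabilityTheory

namespace Vale.Agent.P146.H722

open Vale.Agent.P157.Lv Vale.Agent.P146.H425 Vale.Agent.P146.H785

set_option linter.unusedSectionVars false

variable {ι : Type} [Fintype ι] [DecidableEq ι]

/-- the coordinates of `w` in `A` -/
def cut (A : Finset ι) (w : ι → ℝ) (e : ι) : ℝ := if e ∈ A then w e else 0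

lemma cut_insert {A : Finset ι} {a : ι} (ha : a ∉ A) (y w : ι → ℝ) :
    y + cut (insert a A) w = Function.update (y + cut A w) a (y a + w a) := by
  funext e
  by_cases he : e = a
  · subst he
    simp [cut]
  · rw [Function.update_of_ne he]
    simp [cut, he]

lemma cut_self {A : Finset ι} {a : ι} (ha : a ∉ A) (y w : ι → ℝ) :
    y + cut A w = Function.update (y + cut A w) a (y a) := by
  funext e
  by_cases he : e = a
  · subst he
    simp [cut, ha]
  · rw [Function.update_of_ne he]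

lemma norm_upd_sub {A : Finset ι} {a : ι} (y w : ι → ℝ) {t : ℝ}
    (ht : t ∈ Set.uIcc (y a) (y a + w a)) :
    ‖Function.update (y + cut A w) a t - y‖ ≤ ‖w‖ := by
  rw [pi_norm_le_iff_of_nonneg (norm_nonneg _)]
  intro e
  rw [Pi.sub_apply]
  by_cases he : e = a
  · subst he
    rw [Function.update_self]
    have h1 := Set.abs_sub_left_of_mem_uIcc ht
    have h2 := norm_le_pi_norm w e
    rw [Real.norm_eq_abs] at h2 ⊢
    rw [add_sub_cancel_left] at h1
    exact h1.trans h2
  · rw [Function.update_of_ne he, Pi.add_apply, add_sub_cancel_left]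
    unfold cut
    split_ifs
    · exact norm_le_pi_norm w e
    · simp

/-- telescoping over the coordinates -/
lemma tele {f : (ι → ℝ) → ℝ} {f1 : ι → (ι → ℝ) → ℝ} (h1 : ∀ e, PD e f (f1 e)) (c : ι → ℝ)
    {C : ℝ} (y w : ι → ℝ)
    (hC : ∀ e u, ‖u - y‖ ≤ ‖w‖ → |f1 e u - c e| ≤ C) (A : Finset ι) :
    |f (y + cut A w) - f y - ∑ e ∈ A, c e * w e| ≤ A.card * (C * ‖w‖) := by
  induction A using Finset.induction_on with
  | empty =>
    have : y + cut ∅ w = y := by funext e; simp [cut]
    rw [this]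
    simp
  | insert a A ha ih =>
    rw [Finset.sum_insert ha, Finset.card_insert_of_notMem ha]
    have key := Convex.norm_image_sub_le_of_norm_hasDerivWithin_le
      (f := fun t => f (Function.update (y + cut A w) a t) - c a * t)
      (f' := fun t => f1 a (Function.update (y + cut A w) a t) - c a) (C := C)
      (s := Set.uIcc (y a) (y a + w a)) (x := y a) (y := y a + w a)
      (fun t _ => by
        have h2 := (h1 a (y + cut A w) t).sub ((hasDerivAt_id t).const_mul (c a))
        simp only [mul_one] at h2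
        exact h2.hasDerivWithinAt)
      (fun t ht => by
        rw [Real.norm_eq_abs]
        exact hC a _ (norm_upd_sub y w ht))
      (convex_uIcc _ _) Set.left_mem_uIcc Set.right_mem_uIcc
    rw [← cut_insert ha, ← cut_self ha, Real.norm_eq_abs, add_sub_cancel_left,
      Real.norm_eq_abs] at key
    have hC0 : 0 ≤ C := (abs_nonneg _).trans (hC a y (by simp))
    have h3 : |w a| ≤ ‖w‖ := norm_le_pi_norm w a
    have h4 : C * |w a| ≤ C * ‖w‖ := mul_le_mul_of_nonneg_left h3 hC0
    have e1 : f (y + cut (insert a A) w) - f y - (c a * w a + ∑ e ∈ A, c e * w e) =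
        (f (y + cut (insert a A) w) - c a * (y a + w a) - (f (y + cut A w) - c a * y a)) +
          (f (y + cut A w) - f y - ∑ e ∈ A, c e * w e) := by ring
    rw [e1]
    refine (abs_add_le _ _).trans ?_
    push_cast
    linarith

lemma cut_univ (w : ι → ℝ) : cut Finset.univ w = w := by
  funext e
  simp [cut]

/-- bounded partial derivatives -/
lemma lip_of_pd {f : (ι → ℝ) → ℝ} {f1 : ι → (ι → ℝ) → ℝ} (h1 : ∀ e, PD e f (f1 e))
    {C : ℝ} (hC : ∀ e u, |f1 e u| ≤ C) (y w : ι → ℝ) :
    |f (y + w) - f y| ≤ Fintype.card ι * C * ‖w‖ := by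
  have h := tele h1 (fun _ => 0) (C := C) y w (fun e u _ => by simpa using hC e u) Finset.univ
  rw [cut_univ] at h
  simpa [mul_assoc] using h

/-- **Bounded first and second partial derivatives.** -/
theorem c11_of_pd {f : (ι → ℝ) → ℝ} {f1 : ι → (ι → ℝ) → ℝ} {f2 : ι → ι → (ι → ℝ) → ℝ}
    (h1 : ∀ e, PD e f (f1 e)) (h2 : ∀ e e', PD e' (f1 e) (f2 e e')) {C1 C2 : ℝ}
    (c1 : 0 ≤ C1) (c2 : 0 ≤ C2) (b1 : ∀ e u, |f1 e u| ≤ C1) (b2 : ∀ e e' u, |f2 e e' u| ≤ C2)
    (m1 : ∀ e, Measurable (f1 e)) :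
    C11 f f1 ((Fintype.card ι + 1) * C1) (Fintype.card ι * (Fintype.card ι * C2)) := by
  refine ⟨by positivity, by positivity, fun y w => ?_, m1, fun e y => (b1 e y).trans ?_,
    fun y w => ?_⟩
  · refine (lip_of_pd h1 b1 y w).trans ?_
    gcongr
    linarith
  · have : (0 : ℝ) ≤ Fintype.card ι := Nat.cast_nonneg _
    nlinarith
  · have h := tele h1 (fun e => f1 e y) (C := Fintype.card ι * C2 * ‖w‖) y w (fun e u hu => by
      have h3 := lip_of_pd (h2 e) (b2 e) y (u - y)
      rw [add_sub_cancel] at h3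
      refine h3.trans ?_
      gcongr) Finset.univ
    rw [cut_univ] at h
    refine h.trans (le_of_eq ?_)
    rw [Finset.card_univ]
    ring

/-- `g` is the derivative of `f` in the direction `ν`. -/
def LnD (ν : ι → ℝ) (f g : (ι → ℝ) → ℝ) : Prop :=
  ∀ (z : ι → ℝ) (h : ℝ), HasDerivAt (fun h : ℝ => f (z + h • ν)) (g (z + h • ν)) h

section ld

variable {ν : ι → ℝ} {f g : (ι → ℝ) → ℝ}

lemma LnD.of_fd {f1 : ι → (ι → ℝ) → ℝ} (h : ∀ z, HasFDerivAt f (lf fun e => f1 e z) z) :
    LnD ν f (fun z => ∑ e, f1 e z * ν e) := by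
  intro z t
  have h1 : HasDerivAt (fun h : ℝ => z + h • ν) ν t := by
    have h2 := ((hasDerivAt_id t).smul_const ν).const_add z
    simpa using h2
  have h3 := (h (z + t • ν)).comp_hasDerivAt t h1
  rwa [lf_apply] at h3

lemma LnD.congr {g' : (ι → ℝ) → ℝ} (h : LnD ν f g) (hg : ∀ z, g z = g' z) : LnD ν f g' := by
  intro z t
  rw [← hg]
  exact h z t

lemma LnD.const_mul (c : ℝ) (h : LnD ν f g) : LnD ν (fun z => c * f z) (fun z => c * g z) :=
  fun z t => (h z t).const_mul c

lemma LnD.deriv_eq (h : LnD ν f g) (z : ι → ℝ) :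
    deriv (fun h : ℝ => f (z + h • ν)) = fun h => g (z + h • ν) :=
  funext fun t => (h z t).deriv

lemma LnD.it2 {g2 : (ι → ℝ) → ℝ} (h1 : LnD ν f g) (h2 : LnD ν g g2) (z : ι → ℝ) :
    iteratedDeriv 2 (fun h : ℝ => f (z + h • ν)) = fun h => g2 (z + h • ν) := by
  rw [iteratedDeriv_succ', iteratedDeriv_one, h1.deriv_eq, h2.deriv_eq]

lemma LnD.it4 {g2 g3 g4 : (ι → ℝ) → ℝ} (h1 : LnD ν f g) (h2 : LnD ν g g2) (h3 : LnD ν g2 g3)
    (h4 : LnD ν g3 g4) (z : ι → ℝ) :
    iteratedDeriv 4 (fun h : ℝ => f (z + h • ν)) = fun h => g4 (z + h • ν) := by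
  rw [iteratedDeriv_succ', iteratedDeriv_succ', h1.deriv_eq, h2.deriv_eq, h3.it2 h4]

end ld

end Vale.Agent.P146.H722
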