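import Vale.Agent.P146.H504.Cum3
import Vale.Agent.P146.H722.Jet0
import Vale.Agent.P146.H722.Kap1

/-!
Derivatives of the functional `F` of `Fn` along a line `z + h ν`: they are the evaluations of the
kernels on the test function `∑ ν_e φ_e`.
-/

open MeasureTheory ProbabilityTheory

namespace Vale.Agent.P146.H722

open Vale.Agent.P157.Lv Vale.Agent.P146.H425 Vale.Agent.P146.H325 Vale.Agent.P146.H785
  Vale.Agent.P146.Cum

set_option linter.unusedSectionVars false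

variable {ι X : Type} [Fintype ι] [DecidableEq ι] [Fintype X] [DecidableEq X]

section

variable {α : Type} [Fintype α] [DecidableEq α] {k c Γ : ℝ} {φ : ι → X → ℝ}
  {μ : (ι → ℝ) → X → ℝ} {F : (ι → ℝ) → ℝ}
  {T : (ι → ℝ) → (α → X) → ℝ} {T' : (ι → ℝ) → (Option α → X) → ℝ}
  {T'' : (ι → ℝ) → (Option (Option α) → X) → ℝ} {ν : ι → ℝ}

lemma dm_abs (h : Dm μ c T) (z : ι → ℝ) (x : α → X) : |T z x| ≤ c := by
  obtain ⟨P, M, p, m, hP, hM, h0, h1⟩ := h
  rw [h0, abs_le]
  have a1 := hP.le z x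
  have a2 := hM.le z x
  have a3 := hP.nn z x
  have a4 := hM.nn z x
  have a5 := hP.p0
  have a6 := hM.p0
  constructor <;> linarith

lemma dm_ev (h : Dm μ c T) (g : α → X → ℝ) :
    ∃ C : ℝ, 0 ≤ C ∧ ∀ z, |ev T g z| ≤ C := by
  have hc := h.c0
  refine ⟨∑ x : α → X, c * |∏ a, g a (x a)|, Finset.sum_nonneg fun x _ => by positivity,
    fun z => ?_⟩
  unfold ev
  refine (Finset.abs_sum_le_sum_abs _ _).trans (Finset.sum_le_sum fun x _ => ?_)
  rw [abs_mul]
  exact mul_le_mul_of_nonneg_right (dm_abs h z x) (abs_nonneg _)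

/-- the test function of the direction `ν` -/
def tf (φ : ι → X → ℝ) (ν : ι → ℝ) (σ : X) : ℝ := ∑ e, ν e * φ e σ

lemma ev_lin (T' : (ι → ℝ) → (Option α → X) → ℝ) (g : α → X → ℝ) (φ : ι → X → ℝ) (ν : ι → ℝ)
    (z : ι → ℝ) : ∑ e, ν e * ev T' (exg g (φ e)) z = ev T' (exg g (tf φ ν)) z := by
  simp only [ev_exg, Finset.mul_sum]
  rw [Finset.sum_comm]
  refine Finset.sum_congr rfl fun x _ => ?_
  rw [Finset.sum_mul]
  have e1 : ∀ e, ν e * ((∑ y, T' z (ext x y) * φ e y) * ∏ a, g a (x a)) =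
      ∑ y, T' z (ext x y) * (ν e * φ e y) * ∏ a, g a (x a) := by
    intro e
    rw [Finset.sum_mul, Finset.mul_sum]
    exact Finset.sum_congr rfl fun y _ => by ring
  simp only [e1]
  rw [Finset.sum_comm]
  refine Finset.sum_congr rfl fun y _ => ?_
  unfold tf
  rw [← Finset.sum_mul, ← Finset.mul_sum]

lemma exg_const (f : X → ℝ) : exg (fun _ : α => f) f = fun _ => f := by
  funext o
  rcases o with _ | a <;> rfl

/-- **The class `C11` of an evaluation.** -/
theorem c11_ev (h : DK k φ T T') (h' : DK k φ T' T'') {c c' : ℝ} (b : Dm μ c T')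
    (b' : Dm μ c' T'') (g : α → X → ℝ) :
    ∃ B L, C11 (ev T g) (fun e z => k * ev T' (exg g (φ e)) z) B L := by
  have p1 : ∀ e, PD e (ev T g) (fun z => k * ev T' (exg g (φ e)) z) := fun e => pd_ev h g e
  have p2 : ∀ e e', PD e' (fun z => k * ev T' (exg g (φ e)) z)
      (fun z => k * (k * ev T'' (exg (exg g (φ e)) (φ e')) z)) := fun e e' =>
    (pd_ev h' (exg g (φ e)) e').const_mul k
  choose B1 hB1 hb1 using fun e => dm_ev b (exg g (φ e))
  choose B2 hB2 hb2 using fun e e' => dm_ev b' (exg (exg g (φ e)) (φ e'))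
  refine ⟨_, _, c11_of_pd p1 p2 (C1 := ∑ e, |k| * B1 e)
    (C2 := ∑ e, ∑ e', |k| * (|k| * B2 e e'))
    (Finset.sum_nonneg fun e _ => mul_nonneg (abs_nonneg _) (hB1 e))
    (Finset.sum_nonneg fun e _ => Finset.sum_nonneg fun e' _ =>
      mul_nonneg (abs_nonneg _) (mul_nonneg (abs_nonneg _) (hB2 e e')))
    (fun e u => ?_) (fun e e' u => ?_) fun e => (Dm.eg_ev b _).meas.const_mul k⟩
  · rw [abs_mul]
    refine (mul_le_mul_of_nonneg_left (hb1 e u) (abs_nonneg k)).trans ?_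
    exact Finset.single_le_sum (f := fun e => |k| * B1 e)
      (fun e _ => mul_nonneg (abs_nonneg _) (hB1 e)) (Finset.mem_univ e)
  · rw [abs_mul, abs_mul]
    refine (mul_le_mul_of_nonneg_left (mul_le_mul_of_nonneg_left (hb2 e e' u) (abs_nonneg k))
      (abs_nonneg k)).trans ?_
    refine (Finset.single_le_sum (f := fun e' => |k| * (|k| * B2 e e'))
      (fun e' _ => mul_nonneg (abs_nonneg _) (mul_nonneg (abs_nonneg _) (hB2 e e')))
      (Finset.mem_univ e')).trans ?_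
    exact Finset.single_le_sum (f := fun e => ∑ e', |k| * (|k| * B2 e e'))
      (fun e _ => Finset.sum_nonneg fun e' _ =>
        mul_nonneg (abs_nonneg _) (mul_nonneg (abs_nonneg _) (hB2 e e'))) (Finset.mem_univ e)

/-- **The derivative of an evaluation in the direction `ν`.** -/
theorem ld_ev (h : DK k φ T T') (h' : DK k φ T' T'') {c c' : ℝ} (b : Dm μ c T')
    (b' : Dm μ c' T'') (g : α → X → ℝ) :
    LnD ν (ev T g) (fun z => k * ev T' (exg g (tf φ ν)) z) := by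
  obtain ⟨B, L, hC⟩ := c11_ev h h' b b' g
  refine (LnD.of_fd fun z => C11.hasFDerivAt hC z).congr fun z => ?_
  rw [← ev_lin, Finset.mul_sum]
  exact Finset.sum_congr rfl fun e _ => by ring

end

/-! ### the jet of the functional -/

section jet

variable {k Γ : ℝ} {φ : ι → X → ℝ} {μ : (ι → ℝ) → X → ℝ} {F : (ι → ℝ) → ℝ} {ν : ι → ℝ}

lemma ev_unit (μ : (ι → ℝ) → X → ℝ) (f : X → ℝ) (z : ι → ℝ) :
    ev (fun z (x : Unit → X) => μ z (x ())) (fun _ => f) z = ∑ v, μ z v * f v := by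
  unfold ev
  simp only [Finset.univ_unique, Finset.prod_singleton]
  exact sum_unit (fun σ => μ z σ * f σ)

/-- The jet of `F` in the direction `ν` : bounded functions `f1 .. f4` of the position with the
derivatives `F' = k f1`, `f1' = k f2`, `f2' = k f3`, `f3' = k f4` along the lines of direction
`ν`, and partial derivatives. -/
structure Jet (k : ℝ) (ν : ι → ℝ) (F : (ι → ℝ) → ℝ) (f1 f2 f3 f4 : (ι → ℝ) → ℝ)
    (D1 D2 D3 : ι → (ι → ℝ) → ℝ) : Prop where
  l0 : LnD ν F fun z => k * f1 z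
  l1 : LnD ν f1 fun z => k * f2 z
  l2 : LnD ν f2 fun z => k * f3 z
  l3 : LnD ν f3 fun z => k * f4 z
  p1 : ∀ e, PD e f1 (D1 e)
  p2 : ∀ e, PD e f2 (D2 e)
  p3 : ∀ e, PD e f3 (D3 e)
  e1 : ∀ e, EG (D1 e)
  e2 : ∀ e, EG (D2 e)
  e3 : ∀ e, EG (D3 e)
  s1 : ∀ z, ∑ e, ν e * D1 e z = k * f2 z
  s2 : ∀ z, ∑ e, ν e * D2 e z = k * f3 z
  s3 : ∀ z, ∑ e, ν e * D3 e z = k * f4 z
  g0 : EG F
  g1 : EG f1
  g2 : EG f2
  g3 : EG f3
  g4 : EG f4
  b1 : ∃ C, ∀ z, |f1 z| ≤ C
  b2 : ∃ C, ∀ z, |f2 z| ≤ C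
  b3 : ∃ C, ∀ z, |f3 z| ≤ C
  b4 : ∃ C, ∀ z, |f4 z| ≤ C

/-- **Every `Fn` has a jet**; `f1` is the mean of the test function. -/
theorem fn_jet (h : Fn k φ F μ Γ) (ν : ι → ℝ) : ∃ f1 f2 f3 f4 D1 D2 D3,
    Jet k ν F f1 f2 f3 f4 D1 D2 D3 ∧ ∀ z, f1 z = ∑ v, μ z v * tf φ ν v := by
  obtain ⟨g1', T2, d2, g2, T3, d3, g3, T4, d4, g4, T5, d5, g5⟩ := h.good 4
  have b1 : Dm μ 1 (fun z (x : Unit → X) => μ z (x ())) := g1'
  have b5 := Good.dm g5
  set f1 : (ι → ℝ) → ℝ := ev (fun z (x : Unit → X) => μ z (x ())) (fun _ => tf φ ν) with hf1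
  set f2 : (ι → ℝ) → ℝ := ev T2 (fun _ => tf φ ν) with hf2
  set f3 : (ι → ℝ) → ℝ := ev T3 (fun _ => tf φ ν) with hf3
  set f4 : (ι → ℝ) → ℝ := ev T4 (fun _ => tf φ ν) with hf4
  have l1 : LnD ν f1 fun z => k * f2 z := by
    have := ld_ev (ν := ν) d2 d3 g2 g3 (fun _ => tf φ ν)
    rw [exg_const] at this
    exact this
  have l2 : LnD ν f2 fun z => k * f3 z := by
    have := ld_ev (ν := ν) d3 d4 g3 g4 (fun _ => tf φ ν)
    rw [exg_const] at this
    exact this
  have l3 : LnD ν f3 fun z => k * f4 z := by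
    have := ld_ev (ν := ν) d4 d5 g4 b5 (fun _ => tf φ ν)
    rw [exg_const] at this
    exact this
  have s1 : ∀ z, ∑ e, ν e * (k * ev T2 (exg (fun _ => tf φ ν) (φ e)) z) = k * f2 z := by
    intro z
    have := ev_lin T2 (fun _ : Unit => tf φ ν) φ ν z
    rw [exg_const] at this
    rw [hf2, ← this, Finset.mul_sum]
    exact Finset.sum_congr rfl fun e _ => by ring
  have s2 : ∀ z, ∑ e, ν e * (k * ev T3 (exg (fun _ => tf φ ν) (φ e)) z) = k * f3 z := by
    intro z
    have := ev_lin T3 (fun _ : Option Unit => tf φ ν) φ ν z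
    rw [exg_const] at this
    rw [hf3, ← this, Finset.mul_sum]
    exact Finset.sum_congr rfl fun e _ => by ring
  have s3 : ∀ z, ∑ e, ν e * (k * ev T4 (exg (fun _ => tf φ ν) (φ e)) z) = k * f4 z := by
    intro z
    have := ev_lin T4 (fun _ : Option (Option Unit) => tf φ ν) φ ν z
    rw [exg_const] at this
    rw [hf4, ← this, Finset.mul_sum]
    exact Finset.sum_congr rfl fun e _ => by ring
  have l0 : LnD ν F fun z => k * f1 z := by
    have p2 : ∀ e e', PD e' (fun z => k * ∑ v, μ z v * φ e v)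
        (fun z => k * (k * ev T2 (exg (fun _ => φ e) (φ e')) z)) := by
      intro e e'
      have := (pd_ev d2 (fun _ => φ e) e').const_mul k
      simp only [ev_unit] at this
      exact this
    choose B1 hB1 hb1 using fun e => dm_ev b1 (fun _ => φ e)
    choose B2 hB2 hb2 using fun e e' => dm_ev g2 (exg (fun _ => φ e) (φ e'))
    have hC := c11_of_pd h.pd p2 (C1 := ∑ e, |k| * B1 e)
      (C2 := ∑ e, ∑ e', |k| * (|k| * B2 e e'))
      (Finset.sum_nonneg fun e _ => mul_nonneg (abs_nonneg _) (hB1 e))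
      (Finset.sum_nonneg fun e _ => Finset.sum_nonneg fun e' _ =>
        mul_nonneg (abs_nonneg _) (mul_nonneg (abs_nonneg _) (hB2 e e')))
      (fun e u => by
        rw [abs_mul]
        have h3 := hb1 e u
        rw [ev_unit] at h3
        refine (mul_le_mul_of_nonneg_left h3 (abs_nonneg k)).trans ?_
        exact Finset.single_le_sum (f := fun e => |k| * B1 e)
          (fun e _ => mul_nonneg (abs_nonneg _) (hB1 e)) (Finset.mem_univ e))
      (fun e e' u => by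
        rw [abs_mul, abs_mul]
        refine (mul_le_mul_of_nonneg_left (mul_le_mul_of_nonneg_left (hb2 e e' u)
          (abs_nonneg k)) (abs_nonneg k)).trans ?_
        refine (Finset.single_le_sum (f := fun e' => |k| * (|k| * B2 e e'))
          (fun e' _ => mul_nonneg (abs_nonneg _) (mul_nonneg (abs_nonneg _) (hB2 e e')))
          (Finset.mem_univ e')).trans ?_
        exact Finset.single_le_sum (f := fun e => ∑ e', |k| * (|k| * B2 e e'))
          (fun e _ => Finset.sum_nonneg fun e' _ =>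
            mul_nonneg (abs_nonneg _) (mul_nonneg (abs_nonneg _) (hB2 e e')))
          (Finset.mem_univ e))
      (fun e => by
        have := (Dm.eg_ev b1 (fun _ => φ e)).meas.const_mul k
        simp only [ev_unit] at this
        exact this)
    refine (LnD.of_fd fun z => C11.hasFDerivAt hC z).congr fun z => ?_
    rw [hf1, ev_unit]
    unfold tf
    simp only [Finset.mul_sum]
    rw [Finset.sum_comm]
    refine Finset.sum_congr rfl fun v _ => ?_
    rw [Finset.sum_mul]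
    exact Finset.sum_congr rfl fun e _ => by ring
  obtain ⟨B, hB, hL⟩ := h.lip
  refine ⟨f1, f2, f3, f4, _, _, _, ⟨l0, l1, l2, l3, fun e => pd_ev d2 _ e,
    fun e => pd_ev d3 _ e, fun e => pd_ev d4 _ e, fun e => (Dm.eg_ev g2 _).const_mul k,
    fun e => (Dm.eg_ev g3 _).const_mul k, fun e => (Dm.eg_ev g4 _).const_mul k, s1, s2, s3,
    (hL.lip hB).eg, Dm.eg_ev b1 _, Dm.eg_ev g2 _, Dm.eg_ev g3 _, Dm.eg_ev g4 _, ?_, ?_, ?_, ?_⟩,
    fun z => ?_⟩
  · obtain ⟨C, -, hC⟩ := dm_ev b1 (fun _ => tf φ ν)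
    exact ⟨C, hC⟩
  · obtain ⟨C, -, hC⟩ := dm_ev g2 (fun _ => tf φ ν)
    exact ⟨C, hC⟩
  · obtain ⟨C, -, hC⟩ := dm_ev g3 (fun _ => tf φ ν)
    exact ⟨C, hC⟩
  · obtain ⟨C, -, hC⟩ := dm_ev g4 (fun _ => tf φ ν)
    exact ⟨C, hC⟩
  · rw [hf1, ev_unit]

end jet

end Vale.Agent.P146.H722
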