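import Vale.Agent.P146.H722.Jet2

/-!
**(J2)**: the third Stein coefficient of the clean column from an upper bound of the fourth
derivative of the value function averaged over the own row, in any scaling of the direction.
-/

open MeasureTheory ProbabilityTheory

namespace Vale.Agent.P146.H722

open Vale.Agent.P157.Lv Vale.Agent.P146.H425 Vale.Agent.P146.H332 Vale.Agent.P146.H325
  Vale.Agent.P146.R1C Vale.Agent.P146.H712 Vale.Agent.P146.Cum
open Vale.Agent.P146.R1 (uu)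

set_option linter.unusedSectionVars false

variable {n : ℕ} {b b' : Fin n} {v : Fin n → ℝ} {s : ℝ}

/-- scaling of a direction -/
lemma LnD.scale {ι : Type} [Fintype ι] {ν : ι → ℝ} {f g : (ι → ℝ) → ℝ} (h : LnD ν f g) (a : ℝ) :
    LnD (a • ν) f fun z => a * g z := by
  intro z t
  have h1 := (h z (a * t)).comp t ((hasDerivAt_id t).const_mul a)
  simp only [mul_one] at h1
  have e : (fun h : ℝ => f (z + h • a • ν)) = (fun h : ℝ => f (z + h • ν)) ∘ fun t => a * t := by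
    funext h
    simp only [Function.comp_apply, smul_smul]
    rw [mul_comm]
  rw [e]
  have e2 : t • a • ν = (a * t) • ν := by rw [smul_smul, mul_comm]
  rw [e2]
  exact h1.congr_deriv (mul_comm _ _)

/-- derivatives of the average over a set of couplings along a line -/
theorem it_AvP {ν : Pair n → ℝ} {R : Finset (Pair n)} {f g1 g2 g3 g4 : (Pair n → ℝ) → ℝ}
    (l1 : LnD ν f g1) (l2 : LnD ν g1 g2) (l3 : LnD ν g2 g3) (l4 : LnD ν g3 g4)
    (e0 : EG f) (e1 : EG g1) (e2 : EG g2) (e3 : EG g3) (e4 : EG g4)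
    (b1 : ∃ C, ∀ z, |g1 z| ≤ C) (b2 : ∃ C, ∀ z, |g2 z| ≤ C) (b3 : ∃ C, ∀ z, |g3 z| ≤ C)
    (b4 : ∃ C, ∀ z, |g4 z| ≤ C) (z : Pair n → ℝ) :
    iteratedDeriv 2 (fun h : ℝ => AvP s R (fun z => f (z + h • ν)) z) 0 = AvP s R g2 z ∧
      iteratedDeriv 4 (fun h : ℝ => AvP s R (fun z => f (z + h • ν)) z) 0 = AvP s R g4 z := by
  have d1 : deriv (fun h : ℝ => AvP s R (fun z => f (z + h • ν)) z) =
      fun h => AvP s R (fun z => g1 (z + h • ν)) z := funext fun t =>
    (hd_AvP l1 e0 e1 b1 z t).deriv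
  have d2 : deriv (fun h : ℝ => AvP s R (fun z => g1 (z + h • ν)) z) =
      fun h => AvP s R (fun z => g2 (z + h • ν)) z := funext fun t =>
    (hd_AvP l2 e1 e2 b2 z t).deriv
  have d3 : deriv (fun h : ℝ => AvP s R (fun z => g2 (z + h • ν)) z) =
      fun h => AvP s R (fun z => g3 (z + h • ν)) z := funext fun t =>
    (hd_AvP l3 e2 e3 b3 z t).deriv
  have d4 : deriv (fun h : ℝ => AvP s R (fun z => g3 (z + h • ν)) z) =
      fun h => AvP s R (fun z => g4 (z + h • ν)) z := funext fun t =>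
    (hd_AvP l4 e3 e4 b4 z t).deriv
  constructor
  · rw [iteratedDeriv_succ', iteratedDeriv_one, d1, d2]
    simp
  · rw [iteratedDeriv_succ', iteratedDeriv_succ', iteratedDeriv_succ', iteratedDeriv_one,
      d1, d2, d3, d4]
    simp

variable {k x : ℝ} {S : R1S.CS n k x}

/-- **(J1)** in any scaling of the direction, the row of `b` averaged inside. -/
theorem J1s {Γ : ℝ} (hF : Fn k SkS (uu x s S.F) (S.mu s) Γ) (hv : ∑ i, v i ^ 2 = 1)
    (hb : v b = 0) (hb' : v b' = 0) (hbb : b ≠ b') (hs : 0 < s) (a : ℝ) (z : Pair n → ℝ) :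
    AvP s (row b') (fun z => iteratedDeriv 2 (fun h : ℝ =>
        ∫ y : Fin n → ℝ, uu x s S.F (put b (√s • y + h • a • v) z) ∂(gI (Fin n))) 0) z =
        a ^ 2 * k / √s * A1S S s b b' v z ∧
      AvP s (row b') (fun z => iteratedDeriv 4 (fun h : ℝ =>
        ∫ y : Fin n → ℝ, uu x s S.F (put b (√s • y + h • a • v) z) ∂(gI (Fin n))) 0) z =
        a ^ 4 * k / √s ^ 3 * A3S S s b b' v z := by
  obtain ⟨f1, f2, f3, f4, D1, D2, D3, hj, h1⟩ := fn_jet hF (nuv b v)
  have hk := S.k0.ne'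
  have hs' : √s ≠ 0 := (Real.sqrt_pos.2 hs).ne'
  obtain ⟨h2, h3⟩ := AS_jet hv hb hb' hbb hs hj h1 z
  have bd : ∀ (c : ℝ) {f : (Pair n → ℝ) → ℝ}, (∃ C, ∀ z, |f z| ≤ C) →
      ∃ C, ∀ z, |c * f z| ≤ C := by
    rintro c f ⟨C, hC⟩
    exact ⟨|c| * C, fun z => by
      rw [abs_mul]
      exact mul_le_mul_of_nonneg_left (hC z) (abs_nonneg _)⟩
  have l1 : LnD (a • nuv b v) (uu x s S.F) fun z => (a * k) * f1 z :=
    (hj.l0.scale a).congr fun z => by ring
  have l2 : LnD (a • nuv b v) (fun z => (a * k) * f1 z) fun z => (a * k) ^ 2 * f2 z :=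
    ((hj.l1.scale a).const_mul (a * k)).congr fun z => by ring
  have l3 : LnD (a • nuv b v) (fun z => (a * k) ^ 2 * f2 z) fun z => (a * k) ^ 3 * f3 z :=
    ((hj.l2.scale a).const_mul ((a * k) ^ 2)).congr fun z => by ring
  have l4 : LnD (a • nuv b v) (fun z => (a * k) ^ 3 * f3 z) fun z => (a * k) ^ 4 * f4 z :=
    ((hj.l3.scale a).const_mul ((a * k) ^ 3)).congr fun z => by ring
  have key : ∀ z, _ ∧ _ := fun z => it_AvP (s := s) (R := row b) l1 l2 l3 l4 hj.g0
    (hj.g1.const_mul _) (hj.g2.const_mul _) (hj.g3.const_mul _) (hj.g4.const_mul _)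
    (bd _ hj.b1) (bd _ hj.b2) (bd _ hj.b3) (bd _ hj.b4) z
  have e0 : ∀ z, (fun h : ℝ => ∫ y : Fin n → ℝ, uu x s S.F (put b (√s • y + h • a • v) z)
      ∂(gI (Fin n))) = fun h => AvP s (row b) (fun z => uu x s S.F (z + h • a • nuv b v)) z := by
    intro z
    funext h
    rw [AvP_row (EG.shift hj.g0 (h • a • nuv b v))]
    simp only [smul_smul, put_add]
  simp only [e0, fun z => (key z).1, fun z => (key z).2, AvP_const_mul]
  rw [h2, h3, AvP_AvP hj.g2, AvP_AvP hj.g4, Finset.union_comm]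
  constructor
  · field_simp
  · field_simp

/-- the fourth derivative of the average over the own row, any scaling, is of exponential growth -/
theorem eg_J4 {Γ : ℝ} (hF : Fn k SkS (uu x s S.F) (S.mu s) Γ) (b : Fin n) (v : Fin n → ℝ)
    (a : ℝ) : EG fun z => iteratedDeriv 4 (fun h : ℝ =>
        ∫ y : Fin n → ℝ, uu x s S.F (put b (√s • y + h • a • v) z) ∂(gI (Fin n))) 0 := by
  obtain ⟨f1, f2, f3, f4, D1, D2, D3, hj, h1⟩ := fn_jet hF (nuv b v)
  have bd : ∀ (c : ℝ) {f : (Pair n → ℝ) → ℝ}, (∃ C, ∀ z, |f z| ≤ C) →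
      ∃ C, ∀ z, |c * f z| ≤ C := by
    rintro c f ⟨C, hC⟩
    exact ⟨|c| * C, fun z => by
      rw [abs_mul]
      exact mul_le_mul_of_nonneg_left (hC z) (abs_nonneg _)⟩
  have l1 : LnD (a • nuv b v) (uu x s S.F) fun z => (a * k) * f1 z :=
    (hj.l0.scale a).congr fun z => by ring
  have l2 : LnD (a • nuv b v) (fun z => (a * k) * f1 z) fun z => (a * k) ^ 2 * f2 z :=
    ((hj.l1.scale a).const_mul (a * k)).congr fun z => by ring
  have l3 : LnD (a • nuv b v) (fun z => (a * k) ^ 2 * f2 z) fun z => (a * k) ^ 3 * f3 z :=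
    ((hj.l2.scale a).const_mul ((a * k) ^ 2)).congr fun z => by ring
  have l4 : LnD (a • nuv b v) (fun z => (a * k) ^ 3 * f3 z) fun z => (a * k) ^ 4 * f4 z :=
    ((hj.l3.scale a).const_mul ((a * k) ^ 3)).congr fun z => by ring
  have key : ∀ z, _ ∧ _ := fun z => it_AvP (s := s) (R := row b) l1 l2 l3 l4 hj.g0
    (hj.g1.const_mul _) (hj.g2.const_mul _) (hj.g3.const_mul _) (hj.g4.const_mul _)
    (bd _ hj.b1) (bd _ hj.b2) (bd _ hj.b3) (bd _ hj.b4) z
  have e0 : ∀ z, (fun h : ℝ => ∫ y : Fin n → ℝ, uu x s S.F (put b (√s • y + h • a • v) z)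
      ∂(gI (Fin n))) = fun h => AvP s (row b) (fun z => uu x s S.F (z + h • a • nuv b v)) z := by
    intro z
    funext h
    rw [AvP_row (EG.shift hj.g0 (h • a • nuv b v))]
    simp only [smul_smul, put_add]
  simp only [e0, fun z => (key z).2]
  exact eg_AvP (hj.g4.const_mul _) s _

/-- **(J2)**: with `w = v / √lam` and the step `h / k`. -/
theorem J2 {Γ lam c : ℝ} (hF : Fn k SkS (uu x s S.F) (S.mu s) Γ) (hv : ∑ i, v i ^ 2 = 1)
    (hb : v b = 0) (hb' : v b' = 0) (hbb : b ≠ b') (hs : 0 < s) (hl : 0 < lam)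
    {w : Fin n → ℝ} (hw : w = (√lam)⁻¹ • v) {er : (Pair n → ℝ) → ℝ} (he : EG er)
    (h4 : ∀ z, iteratedDeriv 4 (fun h : ℝ =>
      ∫ y : Fin n → ℝ, uu x s S.F (put b (√s • y + (h / k) • w) z) ∂(gI (Fin n))) 0 ≤
        -c + er z) (z : Pair n → ℝ) :
    (c - AvP s (row b') er z) * ((√s * k) ^ 3 * lam ^ 2) ≤ -A3S S s b b' v z := by
  have hk := S.k0
  have hs' : 0 < √s := Real.sqrt_pos.2 hs
  have hl' : 0 < √lam := Real.sqrt_pos.2 hl
  set a : ℝ := (k * √lam)⁻¹ with ha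
  have e1 : ∀ h : ℝ, (h / k) • w = h • a • v := by
    intro h
    rw [hw, smul_smul, smul_smul, ha]
    congr 1
    field_simp
  simp only [e1] at h4
  have h1 := (J1s hF hv hb hb' hbb hs a z).2
  have h2 := AvP_mono (s := s) (R := row b') (eg_J4 hF b v a) ((EG.const (-c)).add he) h4 z
  rw [AvP_add (EG.const (-c)) he, AvP_const, h1] at h2
  have h3 : a ^ 4 * k / √s ^ 3 = ((√s * k) ^ 3 * lam ^ 2)⁻¹ := by
    have e2 : √lam ^ 4 = lam ^ 2 := by
      have := Real.sq_sqrt hl.le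
      calc √lam ^ 4 = (√lam ^ 2) ^ 2 := by ring
        _ = lam ^ 2 := by rw [this]
    rw [ha, inv_pow, mul_pow k, e2]
    field_simp
  have hp : 0 < (√s * k) ^ 3 * lam ^ 2 := by positivity
  rw [h3, inv_mul_le_iff₀ hp] at h2
  linarith

/-- the value function of a deep functional is a deep functional with one more layer -/
lemma uu_W (x s : ℝ) (F : (Pair n → ℝ) → ℝ) : uu x s F = W x √(1 - s) F := rfl

end Vale.Agent.P146.H722
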