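import Vale.Agent.P146.H722.Kap1

/-!
Directional derivatives of conditional expectations: `CD` for the observables, `KD` for the
functions of the share and of the coordinates; thermal cumulants of `X = ∑ ν_e S_e`.
-/

open MeasureTheory ProbabilityTheory

namespace Vale.Agent.P146.H722

open Vale.Agent.P157.Lv Vale.Agent.P146.H425 Vale.Agent.P146.H332 Vale.Agent.P146.H325

set_option linter.unusedSectionVars false

variable {ι : Type} [Fintype ι] [DecidableEq ι] {X : Type} [Fintype X] [Nonempty X]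

/-- `g` is the derivative of `f` in the direction `ν`. -/
def KD (A0 : Finset ι) (ν : ι → ℝ) (f g : ℝ → (ι ⊕ ι → ℝ) → ℝ) : Prop :=
  ∃ D L, KF (act A0) f D L ∧ ∀ s w, g s w = ∑ e ∈ A0, ν e * D (Sum.inl e) s w

namespace KD

variable {A0 : Finset ι} {ν : ι → ℝ} {f g f' g' : ℝ → (ι ⊕ ι → ℝ) → ℝ}

lemma mul (h : KD A0 ν f g) (h' : KD A0 ν f' g') :
    KD A0 ν (fun s w => f s w * f' s w) (fun s w => f s w * g' s w + f' s w * g s w) := by
  obtain ⟨D, L, h1, h2⟩ := h
  obtain ⟨D', L', h1', h2'⟩ := h'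
  refine ⟨_, _, h1.mul h1', fun s w => ?_⟩
  beta_reduce
  rw [h2, h2', Finset.mul_sum, Finset.mul_sum, ← Finset.sum_add_distrib]
  exact Finset.sum_congr rfl fun e _ => by ring

lemma add (h : KD A0 ν f g) (h' : KD A0 ν f' g') :
    KD A0 ν (fun s w => f s w + f' s w) (fun s w => g s w + g' s w) := by
  obtain ⟨D, L, h1, h2⟩ := h
  obtain ⟨D', L', h1', h2'⟩ := h'
  refine ⟨_, _, h1.add h1', fun s w => ?_⟩
  beta_reduce
  rw [h2, h2', ← Finset.sum_add_distrib]
  exact Finset.sum_congr rfl fun e _ => by ring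

lemma const_mul (c : ℝ) (h : KD A0 ν f g) :
    KD A0 ν (fun s w => c * f s w) (fun s w => c * g s w) := by
  obtain ⟨D, L, h1, h2⟩ := h
  refine ⟨_, _, h1.const_mul c, fun s w => ?_⟩
  beta_reduce
  rw [h2, Finset.mul_sum]
  exact Finset.sum_congr rfl fun e _ => by ring

lemma sub (h : KD A0 ν f g) (h' : KD A0 ν f' g') :
    KD A0 ν (fun s w => f s w - f' s w) (fun s w => g s w - g' s w) := by
  obtain ⟨D, L, h1, h2⟩ := h
  obtain ⟨D', L', h1', h2'⟩ := h'
  refine ⟨_, _, h1.sub h1', fun s w => ?_⟩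
  beta_reduce
  rw [h2, h2', ← Finset.sum_sub_distrib]
  exact Finset.sum_congr rfl fun e _ => by ring

lemma congr (h : KD A0 ν f g) (h0 : ∀ s w, f' s w = f s w) (h1 : ∀ s w, g' s w = g s w) :
    KD A0 ν f' g' := by
  have e0 : f' = f := by funext s w; exact h0 s w
  have e1 : g' = g := by funext s w; exact h1 s w
  rw [e0, e1]
  exact h

lemma eg (h : KD A0 ν f g) {s : ℝ} (hs : s ∈ Set.Icc (0 : ℝ) 1) : EG (f s) := by
  obtain ⟨D, L, h1, h2⟩ := h
  exact h1.gf.eg hs

lemma eg' (h : KD A0 ν f g) {s : ℝ} (hs : s ∈ Set.Icc (0 : ℝ) 1) : EG (g s) := by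
  obtain ⟨D, L, h1, h2⟩ := h
  have e1 : g s = fun w => ∑ e ∈ A0, ν e * D (Sum.inl e) s w := funext fun w => h2 s w
  rw [e1]
  exact EG.sum _ fun e he => ((h1.gD (Sum.inl e) (Finset.mem_map_of_mem _ he)).eg hs).const_mul _

/-- **Integration by parts in the direction `ν` at a fixed bulk.** -/
theorem ibp (h : Dir A0 ν) (hk : KD A0 ν f g) {s : ℝ} (hs : s ∈ Set.Icc (0 : ℝ) 1)
    (w0 : ι ⊕ ι → ℝ) {p p' : ℝ → ℝ} (hp : ∀ t, HasDerivAt p (p' t) t)
    (ep : EG fun y : ι → ℝ => p (zn ν y)) (ep' : EG fun y : ι → ℝ => p' (zn ν y)) :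
    ∫ y, f s (mrg A0 w0 y) * (zn ν y * p (zn ν y) - p' (zn ν y)) ∂(gI ι) =
      √s * ∫ y, g s (mrg A0 w0 y) * p (zn ν y) ∂(gI ι) := by
  obtain ⟨D, L, h1, h2⟩ := hk
  obtain ⟨D2, -, hpd, -, -⟩ := h1.ex
  have h3 := ibp_dir h (f := fun y => f s (mrg A0 w0 y))
    (D := fun e y => √s * D (Sum.inl e) s (mrg A0 w0 y)) (eg_mrg (h1.gf.eg hs) w0)
    (fun e he => (eg_mrg ((h1.gD (Sum.inl e) (Finset.mem_map_of_mem _ he)).eg hs) w0).const_mul _)
    (fun e he => pd_mrg he (hpd s hs (Sum.inl e) (Finset.mem_map_of_mem _ he)) w0) hp ep ep'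
  rw [h3, ← integral_const_mul]
  congr 1
  funext y
  rw [h2, Finset.sum_mul, Finset.sum_mul, Finset.mul_sum]
  exact Finset.sum_congr rfl fun e _ => by ring

end KD

/-- An observable `F` with the derivative `G` in the direction `ν`. -/
def CD (A0 : Finset ι) (ν : ι → ℝ) (F G : (ι → ℝ) → ℝ) : Prop :=
  ∃ F1 F2, C2 F F1 F2 ∧ ∀ u, G u = ∑ e ∈ A0, ν e * F1 e u

namespace CD

variable {A0 : Finset ι} {ν : ι → ℝ} {F G F' G' : (ι → ℝ) → ℝ}

lemma mul (h : CD A0 ν F G) (h' : CD A0 ν F' G') :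
    CD A0 ν (fun u => F u * F' u) (fun u => G u * F' u + F u * G' u) := by
  obtain ⟨F1, F2, h1, h2⟩ := h
  obtain ⟨F1', F2', h1', h2'⟩ := h'
  refine ⟨_, _, h1.mul h1', fun u => ?_⟩
  beta_reduce
  rw [h2, h2', Finset.sum_mul, Finset.mul_sum, ← Finset.sum_add_distrib]
  exact Finset.sum_congr rfl fun e _ => by ring

lemma sub (h : CD A0 ν F G) (h' : CD A0 ν F' G') :
    CD A0 ν (fun u => F u - F' u) (fun u => G u - G' u) := by
  obtain ⟨F1, F2, h1, h2⟩ := h
  obtain ⟨F1', F2', h1', h2'⟩ := h'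
  refine ⟨_, _, h1.sub h1', fun u => ?_⟩
  beta_reduce
  rw [h2, h2', ← Finset.sum_sub_distrib]
  exact Finset.sum_congr rfl fun e _ => by ring

lemma const_mul (c : ℝ) (h : CD A0 ν F G) :
    CD A0 ν (fun u => c * F u) (fun u => c * G u) := by
  obtain ⟨F1, F2, h1, h2⟩ := h
  refine ⟨_, _, h1.const_mul c, fun u => ?_⟩
  beta_reduce
  rw [h2, Finset.mul_sum]
  exact Finset.sum_congr rfl fun e _ => by ring

lemma add (h : CD A0 ν F G) (h' : CD A0 ν F' G') :
    CD A0 ν (fun u => F u + F' u) (fun u => G u + G' u) := by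
  have h1 := h.sub (h'.const_mul (-1))
  have e0 : (fun u => F u + F' u) = fun u => F u - -1 * F' u := by funext u; ring
  have e1 : (fun u => G u + G' u) = fun u => G u - -1 * G' u := by funext u; ring
  rw [e0, e1]
  exact h1

lemma congr (h : CD A0 ν F G) (h0 : ∀ u, F' u = F u) (h1 : ∀ u, G' u = G u) :
    CD A0 ν F' G' := by
  have e0 : F' = F := funext h0
  have e1 : G' = G := funext h1
  rw [e0, e1]
  exact h

lemma eg (h : CD A0 ν F G) : EG F := by
  obtain ⟨F1, F2, h1, h2⟩ := h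
  exact h1.eg

lemma eg' (h : CD A0 ν F G) : EG G := by
  obtain ⟨F1, F2, h1, h2⟩ := h
  have e1 : G = fun u => ∑ e ∈ A0, ν e * F1 e u := funext h2
  rw [e1]
  exact EG.sum _ fun e _ => (h1.eg1 e).const_mul _

end CD

variable (k : ℝ) (S : ι → X → ℝ) (x : ℝ) (A0 : Finset ι) (ν : ι → ℝ) (l : Lvl ι)

/-- the observable `X = ∑ ν_e S_e` -/
def Xd (σ : X) : ℝ := ∑ e ∈ A0, ν e * S e σ

/-- the moments of `X` -/
noncomputable def am (j : ℕ) (u : ι → ℝ) : ℝ := av k S (fun σ => Xd S A0 ν σ ^ j) u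

lemma am_zero (u : ι → ℝ) : am k S A0 ν 0 u = 1 := by
  unfold am
  simp only [pow_zero]
  exact av_one k S u

lemma cd_am (j : ℕ) : CD A0 ν (am k S A0 ν j)
    (fun u => k * (am k S A0 ν (j + 1) u - am k S A0 ν j u * am k S A0 ν 1 u)) := by
  refine ⟨_, _, c2_av k S _, fun u => ?_⟩
  have e1 : am k S A0 ν (j + 1) u =
      ∑ e ∈ A0, ν e * av k S (fun σ => Xd S A0 ν σ ^ j * S e σ) u := by
    unfold am
    have e2 : (fun σ => Xd S A0 ν σ ^ (j + 1)) =
        fun σ => ∑ e ∈ A0, ν e * (Xd S A0 ν σ ^ j * S e σ) := by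
      funext σ
      rw [pow_succ]
      conv_lhs => rw [show Xd S A0 ν σ ^ j * Xd S A0 ν σ =
        Xd S A0 ν σ ^ j * ∑ e ∈ A0, ν e * S e σ from rfl]
      rw [Finset.mul_sum]
      exact Finset.sum_congr rfl fun e _ => by ring
    rw [e2, av_sum]
    exact Finset.sum_congr rfl fun e _ => av_mul _ _ _ _ _
  have e3 : am k S A0 ν 1 u = ∑ e ∈ A0, ν e * av k S (S e) u := by
    unfold am
    have e2 : (fun σ => Xd S A0 ν σ ^ 1) = fun σ => ∑ e ∈ A0, ν e * S e σ := by
      funext σ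
      rw [pow_one]
      rfl
    rw [e2, av_sum]
    exact Finset.sum_congr rfl fun e _ => av_mul _ _ _ _ _
  beta_reduce
  rw [e1, e3, Finset.mul_sum, ← Finset.sum_sub_distrib, Finset.mul_sum]
  refine Finset.sum_congr rfl fun e _ => ?_
  show _ = ν e * (k * (av k S (fun σ => Xd S A0 ν σ ^ j * S e σ) u -
    av k S (fun σ => Xd S A0 ν σ ^ j) u * av k S (S e) u))
  unfold am
  ring

variable {k S x A0 ν l}

/-- **The directional derivative of a conditional expectation.** -/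
theorem CD.kd {F G : (ι → ℝ) → ℝ} (h : CD A0 ν F G) (hx : 0 ≤ x) (l : Lvl ι) :
    KD A0 ν (rl k S x A0 l F) (fun s w => rl k S x A0 l G s w +
      k * x * (rl k S x A0 l (fun u => am k S A0 ν 1 u * F u) s w -
        rl k S x A0 l (am k S A0 ν 1) s w * rl k S x A0 l F s w)) := by
  obtain ⟨F1, F2, h1, h2⟩ := h
  have hob : Ob k S x F (fun e u => F1 e u + k * x * (av k S (S e) u * F u)) :=
    ⟨_, ((c2_Zx k S x).mul h1).congr (fun u => rfl) (fun e u => by ring) fun e u => rfl⟩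
  refine ⟨_, _, hob.kfr A0 hx l, fun s w => ?_⟩
  simp only [ext, Sum.elim_inl]
  unfold Dl
  have eF1 : ∀ e, EG (F1 e) := h1.eg1
  have ea : ∀ e, EG (av k S (S e)) := fun e => eg_av k S _
  have eF := h1.eg
  have a1 : rl k S x A0 l G s w = ∑ e ∈ A0, ν e * rl k S x A0 l (F1 e) s w := by
    have e1 : G = fun u => ∑ e ∈ A0, ν e * F1 e u := funext h2
    rw [e1, rl_sum A0 (F := fun e u => ν e * F1 e u) fun e _ => ebd ((eF1 e).const_mul _)]
    exact Finset.sum_congr rfl fun e _ => rl_const_mul _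
  have e3 : am k S A0 ν 1 = fun u => ∑ e ∈ A0, ν e * av k S (S e) u := by
    funext u
    unfold am
    have e2 : (fun σ => Xd S A0 ν σ ^ 1) = fun σ => ∑ e ∈ A0, ν e * S e σ := by
      funext σ
      rw [pow_one]
      rfl
    rw [e2, av_sum]
    exact Finset.sum_congr rfl fun e _ => av_mul _ _ _ _ _
  have a2 : rl k S x A0 l (fun u => am k S A0 ν 1 u * F u) s w =
      ∑ e ∈ A0, ν e * rl k S x A0 l (fun u => av k S (S e) u * F u) s w := by
    have e1 : (fun u => am k S A0 ν 1 u * F u) =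
        fun u => ∑ e ∈ A0, ν e * (av k S (S e) u * F u) := by
      funext u
      rw [e3, Finset.sum_mul]
      exact Finset.sum_congr rfl fun e _ => by ring
    rw [e1, rl_sum A0 (F := fun e u => ν e * (av k S (S e) u * F u))
      fun e _ => ebd (((ea e).mul eF).const_mul _)]
    exact Finset.sum_congr rfl fun e _ => rl_const_mul _
  have a3 : rl k S x A0 l (am k S A0 ν 1) s w =
      ∑ e ∈ A0, ν e * rl k S x A0 l (av k S (S e)) s w := by
    rw [e3, rl_sum A0 (F := fun e u => ν e * av k S (S e) u) fun e _ => ebd ((ea e).const_mul _)]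
    exact Finset.sum_congr rfl fun e _ => rl_const_mul _
  rw [a1, a2, a3, Finset.sum_mul, ← Finset.sum_sub_distrib, Finset.mul_sum,
    ← Finset.sum_add_distrib]
  refine Finset.sum_congr rfl fun e _ => ?_
  have b1 : rl k S x A0 l (fun u => F1 e u + k * x * (av k S (S e) u * F u)) s w =
      rl k S x A0 l (F1 e) s w + k * x * rl k S x A0 l (fun u => av k S (S e) u * F u) s w := by
    rw [rl_add (F := F1 e) (G := fun u => k * x * (av k S (S e) u * F u)) (ebd (eF1 e))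
      (ebd (((ea e).mul eF).const_mul _)), rl_const_mul]
  have b2 : th k S x A0 l e s w = k * x * rl k S x A0 l (av k S (S e)) s w := by
    unfold th
    have e1 : one' k S x e = fun u => k * x * av k S (S e) u := rfl
    rw [e1, rl_const_mul]
  rw [b1, b2]
  ring

end Vale.Agent.P146.H722
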