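import Vale.Agent.P146.H722.Kap2

/-!
The first three derivatives of `α = rl ⟨X⟩` in the direction `ν`, through the thermal cumulants.
-/

open MeasureTheory ProbabilityTheory

namespace Vale.Agent.P146.H722

open Vale.Agent.P157.Lv Vale.Agent.P146.H425 Vale.Agent.P146.H332 Vale.Agent.P146.H325

set_option linter.unusedSectionVars false

variable {ι : Type} [Fintype ι] [DecidableEq ι] {X : Type} [Fintype X] [Nonempty X]

variable (k : ℝ) (S : ι → X → ℝ) (x : ℝ) (A0 : Finset ι) (ν : ι → ℝ) (l : Lvl ι)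

/-- the thermal cumulants of `X` -/
noncomputable def c1 (u : ι → ℝ) : ℝ := am k S A0 ν 1 u

noncomputable def c2 (u : ι → ℝ) : ℝ := am k S A0 ν 2 u - am k S A0 ν 1 u ^ 2

noncomputable def c3 (u : ι → ℝ) : ℝ :=
  am k S A0 ν 3 u - 3 * (am k S A0 ν 2 u * am k S A0 ν 1 u) + 2 * am k S A0 ν 1 u ^ 3

noncomputable def c4 (u : ι → ℝ) : ℝ :=
  am k S A0 ν 4 u - 4 * (am k S A0 ν 3 u * am k S A0 ν 1 u) - 3 * am k S A0 ν 2 u ^ 2 +
    12 * (am k S A0 ν 2 u * am k S A0 ν 1 u ^ 2) - 6 * am k S A0 ν 1 u ^ 4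

lemma cd_c1 : CD A0 ν (c1 k S A0 ν) (fun u => k * c2 k S A0 ν u) := by
  refine (cd_am k S A0 ν 1).congr (fun u => rfl) fun u => ?_
  unfold c2
  ring

lemma cd_c2 : CD A0 ν (c2 k S A0 ν) (fun u => k * c3 k S A0 ν u) := by
  have h1 := cd_am k S A0 ν 1
  have h2 := cd_am k S A0 ν 2
  refine (h2.sub (h1.mul h1)).congr (fun u => ?_) fun u => ?_
  · unfold c2
    ring
  · unfold c3
    ring

lemma cd_c3 : CD A0 ν (c3 k S A0 ν) (fun u => k * c4 k S A0 ν u) := by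
  have h1 := cd_am k S A0 ν 1
  have h2 := cd_am k S A0 ν 2
  have h3 := cd_am k S A0 ν 3
  refine ((h3.sub ((h2.mul h1).const_mul 3)).add ((h1.mul (h1.mul h1)).const_mul 2)).congr
    (fun u => ?_) fun u => ?_
  · unfold c3
    ring
  · unfold c4
    ring

/-- the level `rl` of an observable, as a function -/
noncomputable abbrev rr (F : (ι → ℝ) → ℝ) : ℝ → (ι ⊕ ι → ℝ) → ℝ := rl k S x A0 l F

/-- the tower correction of the first derivative -/
noncomputable def e1' (s : ℝ) (w : ι ⊕ ι → ℝ) : ℝ :=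
  rl k S x A0 l (fun u => c1 k S A0 ν u ^ 2) s w - rl k S x A0 l (c1 k S A0 ν) s w ^ 2

noncomputable def e2' (s : ℝ) (w : ι ⊕ ι → ℝ) : ℝ :=
  3 * (rl k S x A0 l (fun u => c1 k S A0 ν u * c2 k S A0 ν u) s w -
    rl k S x A0 l (c1 k S A0 ν) s w * rl k S x A0 l (c2 k S A0 ν) s w) +
  x * (rl k S x A0 l (fun u => c1 k S A0 ν u ^ 3) s w -
    3 * (rl k S x A0 l (c1 k S A0 ν) s w * rl k S x A0 l (fun u => c1 k S A0 ν u ^ 2) s w) +
    2 * rl k S x A0 l (c1 k S A0 ν) s w ^ 3)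

noncomputable def e3' (s : ℝ) (w : ι ⊕ ι → ℝ) : ℝ :=
  let R1 := rl k S x A0 l (c1 k S A0 ν) s w
  let R2 := rl k S x A0 l (c2 k S A0 ν) s w
  let R3 := rl k S x A0 l (c3 k S A0 ν) s w
  let R11 := rl k S x A0 l (fun u => c1 k S A0 ν u ^ 2) s w
  let R12 := rl k S x A0 l (fun u => c1 k S A0 ν u * c2 k S A0 ν u) s w
  let R111 := rl k S x A0 l (fun u => c1 k S A0 ν u ^ 3) s w
  let R13 := rl k S x A0 l (fun u => c1 k S A0 ν u * c3 k S A0 ν u) s w
  let R22 := rl k S x A0 l (fun u => c2 k S A0 ν u ^ 2) s w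
  let R112 := rl k S x A0 l (fun u => c1 k S A0 ν u ^ 2 * c2 k S A0 ν u) s w
  let R1111 := rl k S x A0 l (fun u => c1 k S A0 ν u ^ 4) s w
  (R13 - R1 * R3) + 3 * (R22 + R13 + x * (R112 - R1 * R12) - R2 * (R2 + x * (R11 - R1 ^ 2)) -
    R1 * (R3 + x * (R12 - R1 * R2))) +
  x * ((3 * R112 + x * (R1111 - R1 * R111)) - 3 * (R11 * (R2 + x * (R11 - R1 ^ 2)) +
    R1 * (2 * R12 + x * (R111 - R1 * R11))) + 6 * (R1 ^ 2 * (R2 + x * (R11 - R1 ^ 2))))

variable {k S x A0 ν l}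

lemma eg_am (j : ℕ) : EG (am k S A0 ν j) := eg_av k S _

lemma eg_c1 : EG (c1 k S A0 ν) := (cd_c1 k S A0 ν).eg
lemma eg_c2 : EG (c2 k S A0 ν) := (cd_c2 k S A0 ν).eg
lemma eg_c3 : EG (c3 k S A0 ν) := (cd_c3 k S A0 ν).eg
lemma eg_c4 : EG (c4 k S A0 ν) := by
  unfold c4
  exact ((((eg_am 4).sub (((eg_am 3).mul (eg_am 1)).const_mul 4)).sub
    (((eg_am 2).pow 2).const_mul 3)).add (((eg_am 2).mul ((eg_am 1).pow 2)).const_mul 12)).sub
    (((eg_am 1).pow 4).const_mul 6)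

/-- the derivative of `rl F`, with `c1` in place of `am 1` -/
lemma CD.kd' {F G : (ι → ℝ) → ℝ} (h : CD A0 ν F (fun u => k * G u)) (hx : 0 ≤ x) (l : Lvl ι) :
    KD A0 ν (rl k S x A0 l F) (fun s w => k * (rl k S x A0 l G s w +
      x * (rl k S x A0 l (fun u => c1 k S A0 ν u * F u) s w -
        rl k S x A0 l (c1 k S A0 ν) s w * rl k S x A0 l F s w))) := by
  refine (h.kd hx l).congr (fun s w => rfl) fun s w => ?_
  rw [rl_const_mul]
  unfold c1
  ring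

/-- the first derivative of `α` -/
theorem kd_a1 (hx : 0 ≤ x) (l : Lvl ι) : KD A0 ν (rl k S x A0 l (c1 k S A0 ν))
    (fun s w => k * (rl k S x A0 l (c2 k S A0 ν) s w + x * e1' k S x A0 ν l s w)) := by
  refine ((cd_c1 k S A0 ν).kd' hx l).congr (fun s w => rfl) fun s w => ?_
  unfold e1'
  have : (fun u => c1 k S A0 ν u ^ 2) = fun u => c1 k S A0 ν u * c1 k S A0 ν u := by
    funext u; ring
  rw [this]
  ring

lemma kd_R11 (hx : 0 ≤ x) (l : Lvl ι) :
    KD A0 ν (rl k S x A0 l (fun u => c1 k S A0 ν u ^ 2))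
    (fun s w => k * (2 * rl k S x A0 l (fun u => c1 k S A0 ν u * c2 k S A0 ν u) s w +
      x * (rl k S x A0 l (fun u => c1 k S A0 ν u ^ 3) s w -
        rl k S x A0 l (c1 k S A0 ν) s w * rl k S x A0 l (fun u => c1 k S A0 ν u ^ 2) s w))) := by
  have h1 := cd_c1 k S A0 ν
  have h2 : CD A0 ν (fun u => c1 k S A0 ν u ^ 2)
      (fun u => k * (2 * (c1 k S A0 ν u * c2 k S A0 ν u))) :=
    (h1.mul h1).congr (fun u => by ring) fun u => by ring
  refine (h2.kd' hx l).congr (fun s w => rfl) fun s w => ?_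
  rw [rl_const_mul (2 : ℝ)]
  have : (fun u => c1 k S A0 ν u * c1 k S A0 ν u ^ 2) = fun u => c1 k S A0 ν u ^ 3 := by
    funext u; ring
  rw [this]

lemma kd_R12 (hx : 0 ≤ x) (l : Lvl ι) :
    KD A0 ν (rl k S x A0 l (fun u => c1 k S A0 ν u * c2 k S A0 ν u))
    (fun s w => k * (rl k S x A0 l (fun u => c2 k S A0 ν u ^ 2) s w +
      rl k S x A0 l (fun u => c1 k S A0 ν u * c3 k S A0 ν u) s w +
      x * (rl k S x A0 l (fun u => c1 k S A0 ν u ^ 2 * c2 k S A0 ν u) s w -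
        rl k S x A0 l (c1 k S A0 ν) s w *
          rl k S x A0 l (fun u => c1 k S A0 ν u * c2 k S A0 ν u) s w))) := by
  have h1 := cd_c1 k S A0 ν
  have h2 := cd_c2 k S A0 ν
  have h3 : CD A0 ν (fun u => c1 k S A0 ν u * c2 k S A0 ν u)
      (fun u => k * (c2 k S A0 ν u ^ 2 + c1 k S A0 ν u * c3 k S A0 ν u)) :=
    (h1.mul h2).congr (fun u => rfl) fun u => by ring
  refine (h3.kd' hx l).congr (fun s w => rfl) fun s w => ?_
  rw [rl_add (F := fun u => c2 k S A0 ν u ^ 2) (G := fun u => c1 k S A0 ν u * c3 k S A0 ν u)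
    (ebd (eg_c2.pow 2)) (ebd (eg_c1.mul eg_c3))]
  have : (fun u => c1 k S A0 ν u * (c1 k S A0 ν u * c2 k S A0 ν u)) =
      fun u => c1 k S A0 ν u ^ 2 * c2 k S A0 ν u := by
    funext u; ring
  rw [this]

lemma kd_R111 (hx : 0 ≤ x) (l : Lvl ι) :
    KD A0 ν (rl k S x A0 l (fun u => c1 k S A0 ν u ^ 3))
    (fun s w => k * (3 * rl k S x A0 l (fun u => c1 k S A0 ν u ^ 2 * c2 k S A0 ν u) s w +
      x * (rl k S x A0 l (fun u => c1 k S A0 ν u ^ 4) s w -
        rl k S x A0 l (c1 k S A0 ν) s w * rl k S x A0 l (fun u => c1 k S A0 ν u ^ 3) s w))) := by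
  have h1 := cd_c1 k S A0 ν
  have h3 : CD A0 ν (fun u => c1 k S A0 ν u ^ 3)
      (fun u => k * (3 * (c1 k S A0 ν u ^ 2 * c2 k S A0 ν u))) :=
    (h1.mul (h1.mul h1)).congr (fun u => by ring) fun u => by ring
  refine (h3.kd' hx l).congr (fun s w => rfl) fun s w => ?_
  rw [rl_const_mul (3 : ℝ)]
  have : (fun u => c1 k S A0 ν u * c1 k S A0 ν u ^ 3) = fun u => c1 k S A0 ν u ^ 4 := by
    funext u; ring
  rw [this]

lemma kd_R2 (hx : 0 ≤ x) (l : Lvl ι) : KD A0 ν (rl k S x A0 l (c2 k S A0 ν))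
    (fun s w => k * (rl k S x A0 l (c3 k S A0 ν) s w +
      x * (rl k S x A0 l (fun u => c1 k S A0 ν u * c2 k S A0 ν u) s w -
        rl k S x A0 l (c1 k S A0 ν) s w * rl k S x A0 l (c2 k S A0 ν) s w))) :=
  (cd_c2 k S A0 ν).kd' hx l

lemma kd_R3 (hx : 0 ≤ x) (l : Lvl ι) : KD A0 ν (rl k S x A0 l (c3 k S A0 ν))
    (fun s w => k * (rl k S x A0 l (c4 k S A0 ν) s w +
      x * (rl k S x A0 l (fun u => c1 k S A0 ν u * c3 k S A0 ν u) s w -
        rl k S x A0 l (c1 k S A0 ν) s w * rl k S x A0 l (c3 k S A0 ν) s w))) :=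
  (cd_c3 k S A0 ν).kd' hx l

/-- the second derivative of `α` -/
theorem kd_a2 (hx : 0 ≤ x) (l : Lvl ι) :
    KD A0 ν (fun s w => k * (rl k S x A0 l (c2 k S A0 ν) s w + x * e1' k S x A0 ν l s w))
    (fun s w => k ^ 2 * (rl k S x A0 l (c3 k S A0 ν) s w + x * e2' k S x A0 ν l s w)) := by
  have h1 := kd_a1 (k := k) (S := S) (x := x) (A0 := A0) (ν := ν) hx l
  have h11 := kd_R11 (k := k) (S := S) (x := x) (A0 := A0) (ν := ν) hx l
  have h2 := kd_R2 (k := k) (S := S) (x := x) (A0 := A0) (ν := ν) hx l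
  refine (((h2.add ((h11.sub (h1.mul h1)).const_mul x))).const_mul k).congr (fun s w => ?_)
    fun s w => ?_
  · unfold e1'
    ring
  · unfold e2' e1'
    ring

/-- **The third derivative of `α`.** -/
theorem kd_a3 (hx : 0 ≤ x) (l : Lvl ι) :
    KD A0 ν (fun s w => k ^ 2 * (rl k S x A0 l (c3 k S A0 ν) s w + x * e2' k S x A0 ν l s w))
    (fun s w => k ^ 3 * (rl k S x A0 l (c4 k S A0 ν) s w + x * e3' k S x A0 ν l s w)) := by
  have h1 := kd_a1 (k := k) (S := S) (x := x) (A0 := A0) (ν := ν) hx l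
  have h11 := kd_R11 (k := k) (S := S) (x := x) (A0 := A0) (ν := ν) hx l
  have h111 := kd_R111 (k := k) (S := S) (x := x) (A0 := A0) (ν := ν) hx l
  have h2 := kd_R2 (k := k) (S := S) (x := x) (A0 := A0) (ν := ν) hx l
  have h12 := kd_R12 (k := k) (S := S) (x := x) (A0 := A0) (ν := ν) hx l
  have h3 := kd_R3 (k := k) (S := S) (x := x) (A0 := A0) (ν := ν) hx l
  refine (((h3.add ((((h12.sub (h1.mul h2)).const_mul 3).add
    (((h111.sub ((h1.mul h11).const_mul 3)).add ((h1.mul (h1.mul h1)).const_mul 2)).const_mul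
      x)).const_mul x))).const_mul (k ^ 2)).congr (fun s w => ?_) fun s w => ?_
  · unfold e2'
    ring
  · unfold e3' e1'
    ring

end Vale.Agent.P146.H722
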