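import Vale.Agent.P146.H722.Kap3

/-!
Bounds of the moments and cumulants of `X`, pointwise and after `rl`.
-/

open MeasureTheory ProbabilityTheory

namespace Vale.Agent.P146.H722

open Vale.Agent.P157.Lv Vale.Agent.P146.H425 Vale.Agent.P146.H332 Vale.Agent.P146.H325

set_option linter.unusedSectionVars false

variable {ι : Type} [Fintype ι] [DecidableEq ι] {X : Type} [Fintype X] [Nonempty X]

variable {k : ℝ} {S : ι → X → ℝ} {x : ℝ} {A0 : Finset ι} {ν : ι → ℝ} {l : Lvl ι}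

/-- Cauchy-Schwarz for the Gibbs average -/
lemma av_cs (f g : X → ℝ) (u : ι → ℝ) : av k S (fun σ => f σ * g σ) u ^ 2 ≤
    av k S (fun σ => f σ ^ 2) u * av k S (fun σ => g σ ^ 2) u := by
  have hZ := Zp_pos k S u
  unfold av
  rw [div_pow, div_mul_div_comm, ← sq]
  refine div_le_div_of_nonneg_right ?_ (by positivity)
  have h := Finset.sum_mul_sq_le_sq_mul_sq Finset.univ
    (fun σ => √(ez k S u σ) * f σ) (fun σ => √(ez k S u σ) * g σ)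
  have e : ∀ σ, √(ez k S u σ) ^ 2 = ez k S u σ := fun σ => Real.sq_sqrt (ez_pos k S u σ).le
  have e1 : ∀ σ, √(ez k S u σ) * f σ * (√(ez k S u σ) * g σ) = ez k S u σ * (f σ * g σ) := by
    intro σ
    calc √(ez k S u σ) * f σ * (√(ez k S u σ) * g σ) = √(ez k S u σ) ^ 2 * (f σ * g σ) := by ring
      _ = _ := by rw [e]
  have e2 : ∀ (h : X → ℝ) σ, (√(ez k S u σ) * h σ) ^ 2 = ez k S u σ * h σ ^ 2 := by
    intro h σ
    rw [mul_pow, e]
  simp only [e1, e2] at h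
  exact h

section pointwise

lemma am2_nonneg (u : ι → ℝ) : 0 ≤ am k S A0 ν 2 u :=
  av_nonneg k S (fun _ => sq_nonneg _) u

lemma am4_nonneg (u : ι → ℝ) : 0 ≤ am k S A0 ν 4 u :=
  av_nonneg k S (fun σ => by positivity) u

lemma am1_sq_le (u : ι → ℝ) : am k S A0 ν 1 u ^ 2 ≤ am k S A0 ν 2 u := by
  have := av_sq_le k S (fun σ => Xd S A0 ν σ ^ 1) u
  simp only [← pow_mul] at this
  exact this

lemma am2_sq_le (u : ι → ℝ) : am k S A0 ν 2 u ^ 2 ≤ am k S A0 ν 4 u := by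
  have := av_sq_le k S (fun σ => Xd S A0 ν σ ^ 2) u
  simp only [← pow_mul] at this
  exact this

lemma am3_sq_le (u : ι → ℝ) :
    am k S A0 ν 3 u ^ 2 ≤ am k S A0 ν 2 u * am k S A0 ν 4 u := by
  have := av_cs (k := k) (S := S) (fun σ => Xd S A0 ν σ ^ 1) (fun σ => Xd S A0 ν σ ^ 2) u
  simp only [← pow_mul, ← pow_add] at this
  exact this

/-- the fluctuation of `X²` -/
noncomputable def Vo (k : ℝ) (S : ι → X → ℝ) (A0 : Finset ι) (ν : ι → ℝ) (lam : ℝ)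
    (u : ι → ℝ) : ℝ := av k S (fun σ => (Xd S A0 ν σ ^ 2 - lam) ^ 2) u

lemma Vo_eq (lam : ℝ) (u : ι → ℝ) : Vo k S A0 ν lam u =
    am k S A0 ν 4 u - 2 * lam * am k S A0 ν 2 u + lam ^ 2 := by
  unfold Vo am
  have e : (fun σ => (Xd S A0 ν σ ^ 2 - lam) ^ 2) = fun σ =>
      (Xd S A0 ν σ ^ 4 - 2 * lam * Xd S A0 ν σ ^ 2) + lam ^ 2 := by
    funext σ; ring
  rw [e, av_add k S (fun σ => Xd S A0 ν σ ^ 4 - 2 * lam * Xd S A0 ν σ ^ 2) (fun _ => lam ^ 2),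
    av_sub k S (fun σ => Xd S A0 ν σ ^ 4) (fun σ => 2 * lam * Xd S A0 ν σ ^ 2), av_mul, av_const]

lemma Vo_nonneg (lam : ℝ) (u : ι → ℝ) : 0 ≤ Vo k S A0 ν lam u :=
  av_nonneg k S (fun _ => sq_nonneg _) u

lemma eg_Vo (lam : ℝ) : EG (Vo k S A0 ν lam) := eg_av k S _

lemma am2_dist (lam : ℝ) (u : ι → ℝ) : (am k S A0 ν 2 u - lam) ^ 2 ≤ Vo k S A0 ν lam u := by
  have h := am2_sq_le (k := k) (S := S) (A0 := A0) (ν := ν) u
  rw [Vo_eq]
  nlinarith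

lemma am3_dist (lam : ℝ) (u : ι → ℝ) :
    (am k S A0 ν 3 u - lam * am k S A0 ν 1 u) ^ 2 ≤ am k S A0 ν 2 u * Vo k S A0 ν lam u := by
  have := av_cs (k := k) (S := S) (fun σ => Xd S A0 ν σ) (fun σ => Xd S A0 ν σ ^ 2 - lam) u
  have e : av k S (fun σ => Xd S A0 ν σ * (Xd S A0 ν σ ^ 2 - lam)) u =
      am k S A0 ν 3 u - lam * am k S A0 ν 1 u := by
    unfold am
    have e1 : (fun σ => Xd S A0 ν σ * (Xd S A0 ν σ ^ 2 - lam)) =
        fun σ => Xd S A0 ν σ ^ 3 - lam * Xd S A0 ν σ ^ 1 := by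
      funext σ; ring
    rw [e1, av_sub k S (fun σ => Xd S A0 ν σ ^ 3) (fun σ => lam * Xd S A0 ν σ ^ 1), av_mul]
  rw [e] at this
  exact this

lemma am4_le (lam : ℝ) (u : ι → ℝ) :
    am k S A0 ν 4 u ≤ 2 * Vo k S A0 ν lam u + 2 * lam ^ 2 := by
  have h := Vo_nonneg (k := k) (S := S) (A0 := A0) (ν := ν) (2 * lam) u
  rw [Vo_eq] at h ⊢
  nlinarith

/-- **The fourth cumulant of a variable with `X² ≈ lam`.** -/
theorem c4_le {lam : ℝ} (hl : 0 ≤ lam) {ep : ℝ} (hep : 0 < ep) (u : ι → ℝ) :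
    c4 k S A0 ν u ≤ -2 * (lam ^ 2 - 4 * lam * c1 k S A0 ν u ^ 2 + 3 * c1 k S A0 ν u ^ 4) +
      20 * Vo k S A0 ν lam u + 12 * (ep * lam ^ 2 + Vo k S A0 ν lam u / ep) := by
  set a1 := am k S A0 ν 1 u with ha1
  set a2 := am k S A0 ν 2 u with ha2
  set a3 := am k S A0 ν 3 u with ha3
  set a4 := am k S A0 ν 4 u with ha4
  set V := Vo k S A0 ν lam u with hV
  have hc1 : c1 k S A0 ν u = a1 := rfl
  have hc4 : c4 k S A0 ν u = a4 - 4 * (a3 * a1) - 3 * a2 ^ 2 + 12 * (a2 * a1 ^ 2) - 6 * a1 ^ 4 :=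
    rfl
  have h1 : a1 ^ 2 ≤ a2 := am1_sq_le u
  have h2 : 0 ≤ a2 := am2_nonneg u
  have h3 : (a2 - lam) ^ 2 ≤ V := am2_dist lam u
  have h4 : (a3 - lam * a1) ^ 2 ≤ a2 * V := am3_dist lam u
  have h5 : V = a4 - 2 * lam * a2 + lam ^ 2 := Vo_eq lam u
  have h6 : 0 ≤ V := Vo_nonneg lam u
  set d := √V with hd
  have d0 : 0 ≤ d := Real.sqrt_nonneg V
  have d2 : d ^ 2 = V := Real.sq_sqrt h6
  set q := √a2 with hq
  have q0 : 0 ≤ q := Real.sqrt_nonneg a2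
  have q2 : q ^ 2 = a2 := Real.sq_sqrt h2
  have b1 : |a1| ≤ q := by
    rw [← Real.sqrt_sq_eq_abs]
    exact Real.sqrt_le_sqrt h1
  have b2 : |a2 - lam| ≤ d := by
    rw [← Real.sqrt_sq_eq_abs]
    exact Real.sqrt_le_sqrt h3
  have b3 : |a3 - lam * a1| ≤ q * d := by
    rw [← Real.sqrt_sq_eq_abs, hq, hd, ← Real.sqrt_mul h2]
    exact Real.sqrt_le_sqrt h4
  have b4 : |a1 * (a3 - lam * a1)| ≤ q * (q * d) := by
    rw [abs_mul]
    exact mul_le_mul b1 b3 (abs_nonneg _) q0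
  have b5 : |a1 ^ 2 * (a2 - lam)| ≤ q ^ 2 * d := by
    rw [abs_mul, abs_pow]
    exact mul_le_mul (pow_le_pow_left₀ (abs_nonneg _) b1 2) b2 (abs_nonneg _) (by positivity)
  have b6 : a2 ≤ lam + d := by
    have := (abs_le.1 b2).2
    linarith
  have b7 : -(a2 ^ 2 - lam ^ 2) ≤ d * (2 * lam + d) := by
    have h7 := (abs_le.1 b2).1
    nlinarith
  have b8 : 24 * (lam * d) ≤ 12 * (ep * lam ^ 2 + V / ep) := by
    have h8 : 0 ≤ (ep * lam - d) ^ 2 / ep := by positivity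
    have h9 : (ep * lam - d) ^ 2 / ep = ep * lam ^ 2 - 2 * (lam * d) + V / ep := by
      rw [← d2]
      field_simp
      ring
    linarith
  have b9 : q * (q * d) ≤ (lam + d) * d := by
    have : q * (q * d) = a2 * d := by rw [← q2]; ring
    rw [this]
    exact mul_le_mul_of_nonneg_right b6 d0
  have b10 : q ^ 2 * d ≤ (lam + d) * d := by
    rw [q2]
    exact mul_le_mul_of_nonneg_right b6 d0
  have b11 : 2 * lam * (a2 - lam) ≤ 2 * lam * d :=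
    mul_le_mul_of_nonneg_left (abs_le.1 b2).2 (by positivity)
  have b4' := (abs_le.1 b4).1
  have b5' := (abs_le.1 b5).2
  rw [hc1, hc4]
  nlinarith [d2]

end pointwise

section level

variable {s : ℝ} {w : ι ⊕ ι → ℝ}

/-- closure lemmas for bounds by powers -/
lemma bm {a b c d om : ℝ} {i j : ℕ} (ho : 0 ≤ om) (hc : 0 ≤ c) (ha : |a| ≤ c * om ^ i)
    (hb : |b| ≤ d * om ^ j) : |a * b| ≤ c * d * om ^ (i + j) := by
  rw [abs_mul]
  calc |a| * |b| ≤ (c * om ^ i) * (d * om ^ j) :=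
        mul_le_mul ha hb (abs_nonneg _) (by positivity)
    _ = _ := by ring

lemma ba {a b c d t : ℝ} (ha : |a| ≤ c * t) (hb : |b| ≤ d * t) : |a + b| ≤ (c + d) * t := by
  have := abs_add_le a b
  linarith

lemma bs {a b c d t : ℝ} (ha : |a| ≤ c * t) (hb : |b| ≤ d * t) : |a - b| ≤ (c + d) * t := by
  have := abs_sub a b
  linarith

lemma bc {a c t : ℝ} (z : ℝ) (hz : 0 ≤ z) (ha : |a| ≤ c * t) : |z * a| ≤ (z * c) * t := by
  rw [abs_mul, abs_of_nonneg hz, mul_assoc]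
  exact mul_le_mul_of_nonneg_left ha hz

lemma bx {a c t x : ℝ} (hx : 0 ≤ x) (hx1 : x ≤ 1) (ha : |a| ≤ c * t) : |x * a| ≤ c * t := by
  rw [abs_mul, abs_of_nonneg hx]
  have : x * |a| ≤ 1 * |a| := mul_le_mul_of_nonneg_right hx1 (abs_nonneg _)
  linarith

/-- `|rl F| ≤ rl G` when `|F| ≤ G` -/
lemma rl_abs_le {F G : (ι → ℝ) → ℝ} (hF : EG F) (hG : EG G) (h : ∀ u, |F u| ≤ G u) :
    |rl k S x A0 l F s w| ≤ rl k S x A0 l G s w := by
  rw [abs_le]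
  constructor
  · have := rl_mono (k := k) (S := S) (x := x) (A0 := A0) (l := l) (s := s) (w := w)
      (F := fun u => -1 * G u) (G := F) (ebd (hG.const_mul _)) (ebd hF)
      fun u => by have := (abs_le.1 (h u)).1; linarith
    rw [rl_const_mul] at this
    linarith
  · exact rl_mono (ebd hF) (ebd hG) fun u => (abs_le.1 (h u)).2

/-- the scale `ω`, `ω⁴ = rl ⟨X⁴⟩` -/
noncomputable def om (k : ℝ) (S : ι → X → ℝ) (x : ℝ) (A0 : Finset ι) (ν : ι → ℝ) (l : Lvl ι)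
    (s : ℝ) (w : ι ⊕ ι → ℝ) : ℝ := √√(rl k S x A0 l (am k S A0 ν 4) s w)

lemma om_nonneg : 0 ≤ om k S x A0 ν l s w := Real.sqrt_nonneg _

lemma W_nonneg : 0 ≤ rl k S x A0 l (am k S A0 ν 4) s w :=
  rl_nonneg (ebd (eg_am 4)) am4_nonneg

lemma om_pow4 : om k S x A0 ν l s w ^ 4 = rl k S x A0 l (am k S A0 ν 4) s w := by
  have h1 : om k S x A0 ν l s w ^ 4 = (om k S x A0 ν l s w ^ 2) ^ 2 := by ring
  rw [h1]
  unfold om
  rw [Real.sq_sqrt (Real.sqrt_nonneg _), Real.sq_sqrt W_nonneg]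

lemma om_pow2 : om k S x A0 ν l s w ^ 2 = √(rl k S x A0 l (am k S A0 ν 4) s w) :=
  Real.sq_sqrt (Real.sqrt_nonneg _)

lemma rl_am2_le : rl k S x A0 l (am k S A0 ν 2) s w ≤ om k S x A0 ν l s w ^ 2 := by
  rw [om_pow2]
  refine Real.le_sqrt_of_sq_le ?_
  refine (rl_sq_le (eg_am 2)).trans ?_
  exact rl_mono (ebd ((eg_am 2).pow 2)) (ebd (eg_am 4)) am2_sq_le

lemma bd1 : |rl k S x A0 l (c1 k S A0 ν) s w| ≤ 1 * om k S x A0 ν l s w ^ 1 := by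
  have h1 : rl k S x A0 l (c1 k S A0 ν) s w ^ 2 ≤ om k S x A0 ν l s w ^ 2 := by
    refine (rl_sq_le eg_c1).trans (le_trans ?_ rl_am2_le)
    exact rl_mono (ebd (eg_c1.pow 2)) (ebd (eg_am 2)) am1_sq_le
  rw [one_mul, pow_one]
  exact abs_le_of_sq_le_sq h1 om_nonneg

/-- order two -/
lemma bd2 {F : (ι → ℝ) → ℝ} (hF : EG F) {c : ℝ} (hc : 0 ≤ c)
    (h : ∀ u, |F u| ≤ c * am k S A0 ν 2 u) :
    |rl k S x A0 l F s w| ≤ c * om k S x A0 ν l s w ^ 2 := by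
  refine (rl_abs_le hF ((eg_am 2).const_mul c) h).trans ?_
  rw [rl_const_mul]
  exact mul_le_mul_of_nonneg_left rl_am2_le hc

/-- order four -/
lemma bd4 {F : (ι → ℝ) → ℝ} (hF : EG F) {c : ℝ}
    (h : ∀ u, |F u| ≤ c * am k S A0 ν 4 u) :
    |rl k S x A0 l F s w| ≤ c * om k S x A0 ν l s w ^ 4 := by
  refine (rl_abs_le hF ((eg_am 4).const_mul c) h).trans ?_
  rw [rl_const_mul, om_pow4]

/-- order three -/
lemma bd3 {F : (ι → ℝ) → ℝ} (hF : EG F) {c : ℝ} (hc : 0 ≤ c)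
    (h : ∀ u, |F u| ≤ c * (√(am k S A0 ν 2 u) * √(am k S A0 ν 4 u))) :
    |rl k S x A0 l F s w| ≤ c * om k S x A0 ν l s w ^ 3 := by
  set o := om k S x A0 ν l s w with ho
  have ho0 : 0 ≤ o := om_nonneg
  have key : ∀ mu : ℝ, 0 < mu →
      |rl k S x A0 l F s w| ≤ c / 2 * (mu * o ^ 2 + o ^ 4 / mu) := by
    intro mu hmu
    have h1 : ∀ u, |F u| ≤ c / 2 * (mu * am k S A0 ν 2 u) +
        c / 2 * (mu⁻¹ * am k S A0 ν 4 u) := by
      intro u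
      refine (h u).trans ?_
      set q := √(am k S A0 ν 2 u) with hq
      set p := √(am k S A0 ν 4 u) with hp
      have q2 : q ^ 2 = am k S A0 ν 2 u := Real.sq_sqrt (am2_nonneg u)
      have p2 : p ^ 2 = am k S A0 ν 4 u := Real.sq_sqrt (am4_nonneg u)
      rw [← q2, ← p2]
      have h2 : 0 ≤ (mu * q - p) ^ 2 * mu⁻¹ := by positivity
      have h3 : (mu * q - p) ^ 2 * mu⁻¹ = mu * q ^ 2 - 2 * (q * p) + mu⁻¹ * p ^ 2 := by
        field_simp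
        ring
      rw [h3] at h2
      have h4 : 2 * (q * p) ≤ mu * q ^ 2 + mu⁻¹ * p ^ 2 := by linarith
      calc c * (q * p) = c / 2 * (2 * (q * p)) := by ring
        _ ≤ c / 2 * (mu * q ^ 2 + mu⁻¹ * p ^ 2) :=
            mul_le_mul_of_nonneg_left h4 (by positivity)
        _ = _ := by ring
    have e2 : EG fun u => c / 2 * (mu * am k S A0 ν 2 u) :=
      ((eg_am 2).const_mul mu).const_mul (c / 2)
    have e4 : EG fun u => c / 2 * (mu⁻¹ * am k S A0 ν 4 u) :=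
      ((eg_am 4).const_mul mu⁻¹).const_mul (c / 2)
    refine (rl_abs_le hF (e2.add e4) h1).trans ?_
    rw [rl_add (F := fun u => c / 2 * (mu * am k S A0 ν 2 u))
      (G := fun u => c / 2 * (mu⁻¹ * am k S A0 ν 4 u)) (ebd e2) (ebd e4)]
    rw [rl_const_mul, rl_const_mul, rl_const_mul, rl_const_mul, ← om_pow4, ← ho]
    have h5 : c / 2 * (mu * rl k S x A0 l (am k S A0 ν 2) s w) ≤ c / 2 * (mu * o ^ 2) := by
      have := rl_am2_le (k := k) (S := S) (x := x) (A0 := A0) (ν := ν) (l := l) (s := s) (w := w)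
      gcongr
    have h6 : c / 2 * (mu⁻¹ * o ^ 4) = c / 2 * (o ^ 4 / mu) := by
      rw [div_eq_inv_mul (o ^ 4) mu]
    rw [h6]
    linarith
  rcases ho0.eq_or_lt with h0 | h0
  · have := key 1 one_pos
    rw [← h0] at this ⊢
    simpa using this
  · have := key o h0
    have e : c / 2 * (o * o ^ 2 + o ^ 4 / o) = c * o ^ 3 := by
      field_simp
      ring
    rwa [e] at this

/-- pointwise bounds with `q = √a₂`, `p = √a₄` -/
lemma pw (u : ι → ℝ) : ∃ q p : ℝ, 0 ≤ q ∧ 0 ≤ p ∧ q ^ 2 = am k S A0 ν 2 u ∧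
    p ^ 2 = am k S A0 ν 4 u ∧ q ^ 2 ≤ p ∧ |am k S A0 ν 1 u| ≤ q ∧ |am k S A0 ν 3 u| ≤ q * p ∧
    q = √(am k S A0 ν 2 u) ∧ p = √(am k S A0 ν 4 u) := by
  have h2 := am2_nonneg (k := k) (S := S) (A0 := A0) (ν := ν) u
  have h4 := am4_nonneg (k := k) (S := S) (A0 := A0) (ν := ν) u
  refine ⟨√(am k S A0 ν 2 u), √(am k S A0 ν 4 u), Real.sqrt_nonneg _, Real.sqrt_nonneg _,
    Real.sq_sqrt h2, Real.sq_sqrt h4, ?_, ?_, ?_, rfl, rfl⟩
  · rw [Real.sq_sqrt h2]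
    exact Real.le_sqrt_of_sq_le (am2_sq_le u)
  · rw [← Real.sqrt_sq_eq_abs]
    exact Real.sqrt_le_sqrt (am1_sq_le u)
  · rw [← Real.sqrt_sq_eq_abs, ← Real.sqrt_mul h2]
    exact Real.sqrt_le_sqrt (am3_sq_le u)

lemma c2_bds (u : ι → ℝ) : 0 ≤ c2 k S A0 ν u ∧ c2 k S A0 ν u ≤ am k S A0 ν 2 u := by
  have h1 := am1_sq_le (k := k) (S := S) (A0 := A0) (ν := ν) u
  unfold c2
  constructor
  · linarith
  · nlinarith [sq_nonneg (am k S A0 ν 1 u)]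

/-- the pointwise sizes of the cumulants -/
lemma sizes (u : ι → ℝ) : ∃ q p : ℝ, 0 ≤ q ∧ 0 ≤ p ∧ q ^ 2 = am k S A0 ν 2 u ∧
    p ^ 2 = am k S A0 ν 4 u ∧ q ^ 2 ≤ p ∧ q = √(am k S A0 ν 2 u) ∧ p = √(am k S A0 ν 4 u) ∧
    |c1 k S A0 ν u| ≤ 1 * q ∧ |c2 k S A0 ν u| ≤ 1 * q ^ 2 ∧ |c3 k S A0 ν u| ≤ 6 * (q * p) := by
  obtain ⟨q, p, q0, p0, q2, p2, qp, b1, b3, eq, ep⟩ :=
    pw (k := k) (S := S) (A0 := A0) (ν := ν) u
  have hc2 := c2_bds (k := k) (S := S) (A0 := A0) (ν := ν) u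
  refine ⟨q, p, q0, p0, q2, p2, qp, eq, ep, by rw [one_mul]; exact b1, ?_, ?_⟩
  · rw [abs_of_nonneg hc2.1, one_mul, q2]
    exact hc2.2
  · unfold c3
    have h1 : |am k S A0 ν 2 u * am k S A0 ν 1 u| ≤ q * p := by
      rw [abs_mul, abs_of_nonneg (am2_nonneg u), ← q2]
      calc q ^ 2 * |am k S A0 ν 1 u| ≤ p * q := mul_le_mul qp b1 (abs_nonneg _) p0
        _ = q * p := by ring
    have h2 : |am k S A0 ν 1 u ^ 3| ≤ q * p := by
      rw [abs_pow]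
      calc |am k S A0 ν 1 u| ^ 3 ≤ q ^ 3 := pow_le_pow_left₀ (abs_nonneg _) b1 3
        _ = q * q ^ 2 := by ring
        _ ≤ q * p := mul_le_mul_of_nonneg_left qp q0
    have h3 := abs_add_le (am k S A0 ν 3 u - 3 * (am k S A0 ν 2 u * am k S A0 ν 1 u))
      (2 * am k S A0 ν 1 u ^ 3)
    have h4 := abs_sub (am k S A0 ν 3 u) (3 * (am k S A0 ν 2 u * am k S A0 ν 1 u))
    have h5 : |3 * (am k S A0 ν 2 u * am k S A0 ν 1 u)| =
        3 * |am k S A0 ν 2 u * am k S A0 ν 1 u| := by rw [abs_mul]; norm_num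
    have h6 : |2 * am k S A0 ν 1 u ^ 3| = 2 * |am k S A0 ν 1 u ^ 3| := by
      rw [abs_mul]; norm_num
    linarith

/-- the polynomial part -/
lemma e3_abs {o x R1 R2 R3 R11 R12 R111 R13 R22 R112 R1111 : ℝ} (o0 : 0 ≤ o) (hx : 0 ≤ x)
    (hx1 : x ≤ 1) (B1 : |R1| ≤ 1 * o ^ 1) (B2 : |R2| ≤ 1 * o ^ 2) (B11 : |R11| ≤ 1 * o ^ 2)
    (B3 : |R3| ≤ 6 * o ^ 3) (B12 : |R12| ≤ 1 * o ^ 3) (B111 : |R111| ≤ 1 * o ^ 3)
    (B13 : |R13| ≤ 6 * o ^ 4) (B22 : |R22| ≤ 1 * o ^ 4) (B112 : |R112| ≤ 1 * o ^ 4)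
    (B1111 : |R1111| ≤ 1 * o ^ 4) (Bv : |R11 - R1 ^ 2| ≤ 1 * o ^ 2) :
    |(R13 - R1 * R3) + 3 * (R22 + R13 + x * (R112 - R1 * R12) -
        R2 * (R2 + x * (R11 - R1 ^ 2)) - R1 * (R3 + x * (R12 - R1 * R2))) +
      x * ((3 * R112 + x * (R1111 - R1 * R111)) - 3 * (R11 * (R2 + x * (R11 - R1 ^ 2)) +
        R1 * (2 * R12 + x * (R111 - R1 * R11))) + 6 * (R1 ^ 2 * (R2 + x * (R11 - R1 ^ 2))))| ≤
      104 * o ^ 4 := by
  have z1 : (0 : ℝ) ≤ 1 := zero_le_one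
  have z2 : (0 : ℝ) ≤ 2 := by norm_num
  have z3 : (0 : ℝ) ≤ 3 := by norm_num
  have z6 : (0 : ℝ) ≤ 6 := by norm_num
  have q1 : |R1 ^ 2| ≤ 1 * o ^ 2 := by
    have := bm o0 z1 B1 B1
    rw [← sq] at this
    norm_num at this ⊢
    exact this
  have g2 : |R2 + x * (R11 - R1 ^ 2)| ≤ 2 * o ^ 2 := by
    have := ba B2 (bx hx hx1 Bv)
    norm_num at this ⊢
    exact this
  have p12 : |R1 * R2| ≤ 1 * o ^ 3 := by
    have := bm o0 z1 B1 B2
    norm_num at this ⊢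
    exact this
  have g3 : |R3 + x * (R12 - R1 * R2)| ≤ 8 * o ^ 3 := by
    have := ba B3 (bx hx hx1 (bs B12 p12))
    norm_num at this ⊢
    exact this
  have p112 : |R1 * R12| ≤ 1 * o ^ 4 := by
    have := bm o0 z1 B1 B12
    norm_num at this ⊢
    exact this
  have p13 : |R1 * R3| ≤ 6 * o ^ 4 := by
    have := bm o0 z1 B1 B3
    norm_num at this ⊢
    exact this
  have p2g : |R2 * (R2 + x * (R11 - R1 ^ 2))| ≤ 2 * o ^ 4 := by
    have := bm o0 z1 B2 g2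
    norm_num at this ⊢
    exact this
  have p11g : |R11 * (R2 + x * (R11 - R1 ^ 2))| ≤ 2 * o ^ 4 := by
    have := bm o0 z1 B11 g2
    norm_num at this ⊢
    exact this
  have pqg : |R1 ^ 2 * (R2 + x * (R11 - R1 ^ 2))| ≤ 2 * o ^ 4 := by
    have := bm o0 z1 q1 g2
    norm_num at this ⊢
    exact this
  have p1g : |R1 * (R3 + x * (R12 - R1 * R2))| ≤ 8 * o ^ 4 := by
    have := bm o0 z1 B1 g3
    norm_num at this ⊢
    exact this
  have p111 : |R1 * R111| ≤ 1 * o ^ 4 := by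
    have := bm o0 z1 B1 B111
    norm_num at this ⊢
    exact this
  have p11 : |R1 * R11| ≤ 1 * o ^ 3 := by
    have := bm o0 z1 B1 B11
    norm_num at this ⊢
    exact this
  have g4 : |2 * R12 + x * (R111 - R1 * R11)| ≤ 4 * o ^ 3 := by
    have := ba (bc 2 z2 B12) (bx hx hx1 (bs B111 p11))
    norm_num at this ⊢
    exact this
  have p4 : |R1 * (2 * R12 + x * (R111 - R1 * R11))| ≤ 4 * o ^ 4 := by
    have := bm o0 z1 B1 g4
    norm_num at this ⊢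
    exact this
  have f1 := bs B13 p13
  have f2 := bc 3 z3 (bs (bs (ba (ba B22 B13) (bx hx hx1 (bs B112 p112))) p2g) p1g)
  have f3 := bx hx hx1 (ba (bs (ba (bc 3 z3 B112) (bx hx hx1 (bs B1111 p111)))
    (bc 3 z3 (ba p11g p4))) (bc 6 z6 pqg))
  have f := ba (ba f1 f2) f3
  refine f.trans ?_
  have : 0 ≤ o ^ 4 := by positivity
  nlinarith

/-- **The tower correction of the third derivative is at most `104 rl⟨X⁴⟩`.** -/
theorem e3_le (hx : 0 ≤ x) (hx1 : x ≤ 1) :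
    |e3' k S x A0 ν l s w| ≤ 104 * rl k S x A0 l (am k S A0 ν 4) s w := by
  set o := om k S x A0 ν l s w with ho
  have o0 : 0 ≤ o := om_nonneg
  have B1 : |rl k S x A0 l (c1 k S A0 ν) s w| ≤ 1 * o ^ 1 := bd1
  have B2 : |rl k S x A0 l (c2 k S A0 ν) s w| ≤ 1 * o ^ 2 := by
    refine bd2 eg_c2 zero_le_one fun u => ?_
    obtain ⟨q, p, q0, p0, q2, p2, qp, eq, ep, s1, s2, s3⟩ :=
      sizes (k := k) (S := S) (A0 := A0) (ν := ν) u
    rwa [← q2]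
  have B11 : |rl k S x A0 l (fun u => c1 k S A0 ν u ^ 2) s w| ≤ 1 * o ^ 2 := by
    refine bd2 (eg_c1.pow 2) zero_le_one fun u => ?_
    rw [abs_of_nonneg (sq_nonneg _), one_mul]
    exact am1_sq_le u
  have B3 : |rl k S x A0 l (c3 k S A0 ν) s w| ≤ 6 * o ^ 3 := by
    refine bd3 eg_c3 (by norm_num) fun u => ?_
    obtain ⟨q, p, q0, p0, q2, p2, qp, eq, ep, s1, s2, s3⟩ :=
      sizes (k := k) (S := S) (A0 := A0) (ν := ν) u
    rwa [← eq, ← ep]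
  have B12 : |rl k S x A0 l (fun u => c1 k S A0 ν u * c2 k S A0 ν u) s w| ≤ 1 * o ^ 3 := by
    refine bd3 (eg_c1.mul eg_c2) zero_le_one fun u => ?_
    obtain ⟨q, p, q0, p0, q2, p2, qp, eq, ep, s1, s2, s3⟩ :=
      sizes (k := k) (S := S) (A0 := A0) (ν := ν) u
    rw [← eq, ← ep, one_mul, abs_mul]
    rw [one_mul] at s1 s2
    exact mul_le_mul s1 (s2.trans qp) (abs_nonneg _) q0
  have B111 : |rl k S x A0 l (fun u => c1 k S A0 ν u ^ 3) s w| ≤ 1 * o ^ 3 := by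
    refine bd3 (eg_c1.pow 3) zero_le_one fun u => ?_
    obtain ⟨q, p, q0, p0, q2, p2, qp, eq, ep, s1, s2, s3⟩ :=
      sizes (k := k) (S := S) (A0 := A0) (ν := ν) u
    rw [← eq, ← ep, one_mul, abs_pow]
    rw [one_mul] at s1
    calc |c1 k S A0 ν u| ^ 3 ≤ q ^ 3 := pow_le_pow_left₀ (abs_nonneg _) s1 3
      _ = q * q ^ 2 := by ring
      _ ≤ q * p := mul_le_mul_of_nonneg_left qp q0
  have B13 : |rl k S x A0 l (fun u => c1 k S A0 ν u * c3 k S A0 ν u) s w| ≤ 6 * o ^ 4 := by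
    refine bd4 (eg_c1.mul eg_c3) fun u => ?_
    obtain ⟨q, p, q0, p0, q2, p2, qp, eq, ep, s1, s2, s3⟩ :=
      sizes (k := k) (S := S) (A0 := A0) (ν := ν) u
    rw [← p2, abs_mul]
    rw [one_mul] at s1
    calc |c1 k S A0 ν u| * |c3 k S A0 ν u| ≤ q * (6 * (q * p)) :=
          mul_le_mul s1 s3 (abs_nonneg _) q0
      _ = 6 * (q ^ 2 * p) := by ring
      _ ≤ 6 * (p * p) := by gcongr
      _ = 6 * p ^ 2 := by ring
  have B22 : |rl k S x A0 l (fun u => c2 k S A0 ν u ^ 2) s w| ≤ 1 * o ^ 4 := by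
    refine bd4 (eg_c2.pow 2) fun u => ?_
    obtain ⟨q, p, q0, p0, q2, p2, qp, eq, ep, s1, s2, s3⟩ :=
      sizes (k := k) (S := S) (A0 := A0) (ν := ν) u
    rw [← p2, abs_pow, one_mul]
    rw [one_mul] at s2
    exact pow_le_pow_left₀ (abs_nonneg _) (s2.trans qp) 2
  have B112 : |rl k S x A0 l (fun u => c1 k S A0 ν u ^ 2 * c2 k S A0 ν u) s w| ≤ 1 * o ^ 4 := by
    refine bd4 ((eg_c1.pow 2).mul eg_c2) fun u => ?_
    obtain ⟨q, p, q0, p0, q2, p2, qp, eq, ep, s1, s2, s3⟩ :=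
      sizes (k := k) (S := S) (A0 := A0) (ν := ν) u
    rw [← p2, abs_mul, abs_pow, one_mul]
    rw [one_mul] at s1 s2
    calc |c1 k S A0 ν u| ^ 2 * |c2 k S A0 ν u| ≤ p * p :=
          mul_le_mul ((pow_le_pow_left₀ (abs_nonneg _) s1 2).trans qp) (s2.trans qp)
            (abs_nonneg _) p0
      _ = p ^ 2 := by ring
  have B1111 : |rl k S x A0 l (fun u => c1 k S A0 ν u ^ 4) s w| ≤ 1 * o ^ 4 := by
    refine bd4 (eg_c1.pow 4) fun u => ?_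
    obtain ⟨q, p, q0, p0, q2, p2, qp, eq, ep, s1, s2, s3⟩ :=
      sizes (k := k) (S := S) (A0 := A0) (ν := ν) u
    rw [← p2, abs_pow, one_mul]
    rw [one_mul] at s1
    calc |c1 k S A0 ν u| ^ 4 ≤ q ^ 4 := pow_le_pow_left₀ (abs_nonneg _) s1 4
      _ = (q ^ 2) ^ 2 := by ring
      _ ≤ p ^ 2 := pow_le_pow_left₀ (by positivity) qp 2
  -- the covariance `R11 - R1²`
  have Bv : |rl k S x A0 l (fun u => c1 k S A0 ν u ^ 2) s w -
      rl k S x A0 l (c1 k S A0 ν) s w ^ 2| ≤ 1 * o ^ 2 := by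
    have h1 := rl_sq_le (k := k) (S := S) (x := x) (A0 := A0) (l := l) (s := s) (w := w)
      (eg_c1 (k := k) (S := S) (A0 := A0) (ν := ν))
    rw [abs_of_nonneg (by linarith)]
    have h2 := (abs_le.1 B11).2
    nlinarith [sq_nonneg (rl k S x A0 l (c1 k S A0 ν) s w)]
  rw [← om_pow4, ← ho]
  exact e3_abs o0 hx hx1 B1 B2 B11 B3 B12 B111 B13 B22 B112 B1111 Bv

end level

end Vale.Agent.P146.H722
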