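import Vale.Agent.P146.H722.Kap4

/-!
**KAPPA at a fixed bulk.** `α(y) = rl⟨X⟩` as a function of the Gaussian row `y`, `z = ν·y`:
the first and the third Stein coefficient of `α`, and lower bounds for its nonlinear part.
-/

open MeasureTheory ProbabilityTheory

namespace Vale.Agent.P146.H722

open Vale.Agent.P157.Lv Vale.Agent.P146.H425 Vale.Agent.P146.H332 Vale.Agent.P146.H325

set_option linter.unusedSectionVars false

variable {ι : Type} [Fintype ι] [DecidableEq ι] {X : Type} [Fintype X] [Nonempty X]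

variable {k : ℝ} {S : ι → X → ℝ} {x : ℝ} {A0 : Finset ι} {ν : ι → ℝ} {l : Lvl ι}

section abstract_row

/-- the nonlinear part of a function of the row, third chaos -/
theorem nl_ge (h : Dir A0 ν) {f : (ι → ℝ) → ℝ} (hf : EG f) (m : ℝ) :
    (∫ y, f y * (zn ν y ^ 3 - 3 * zn ν y) ∂(gI ι)) ^ 2 / 6 ≤
      ∫ y, (f y - m * zn ν y) ^ 2 ∂(gI ι) := by
  have e1 := eg_zn ν
  have e3 : EG fun y => zn ν y ^ 3 - 3 * zn ν y := (e1.pow 3).sub (e1.const_mul 3)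
  have hg : EG fun y => f y - m * zn ν y := hf.sub (e1.const_mul m)
  have hb := bessel13 h hg
  have h1 : ∫ y, (f y - m * zn ν y) * (zn ν y ^ 3 - 3 * zn ν y) ∂(gI ι) =
      ∫ y, f y * (zn ν y ^ 3 - 3 * zn ν y) ∂(gI ι) := by
    have e : ∀ y, (f y - m * zn ν y) * (zn ν y ^ 3 - 3 * zn ν y) =
        f y * (zn ν y ^ 3 - 3 * zn ν y) - ((m * zn ν y ^ 4) - (3 * m) * zn ν y ^ 2) := by
      intro y
      ring
    simp only [e]
    rw [is' (hf.mul e3) (((e1.pow 4).const_mul m).sub ((e1.pow 2).const_mul (3 * m))),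
      is' ((e1.pow 4).const_mul m) ((e1.pow 2).const_mul (3 * m)), ic, ic, m4 h, m2 h]
    ring
  rw [h1] at hb
  have : 0 ≤ (∫ y, (f y - m * zn ν y) * zn ν y ∂(gI ι)) ^ 2 := sq_nonneg _
  linarith

/-- the moments of the standard Gaussian -/
lemma mm_pos (h : Dir A0 ν) (j : ℕ) : 0 < ∫ y, zn ν y ^ (2 * j) ∂(gI ι) := by
  induction j with
  | zero => simp
  | succ j ih =>
    have := m_rec h (2 * j)
    rw [show 2 * (j + 1) = 2 * j + 2 by ring, this]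
    positivity

/-- the constant of `bounded_nl` -/
noncomputable def cj (ν : ι → ℝ) (j : ℕ) : ℝ :=
  (∫ y, zn ν y ^ (2 * j + 2) ∂(gI ι)) ^ 2 / (4 * ∫ y, zn ν y ^ (4 * j + 2) ∂(gI ι))

/-- **A bounded function of the row has a nonlinear part.** -/
theorem bounded_nl (h : Dir A0 ν) {f : (ι → ℝ) → ℝ} (hf : EG f) {B m : ℝ} (hm : 0 ≤ m)
    (hB : ∀ y, |f y| ≤ B) {j : ℕ} (hj : 4 * B ^ 2 ≤ (2 * j + 1) * m ^ 2) :
    cj ν j * m ^ 2 ≤ ∫ y, (f y - m * zn ν y) ^ 2 ∂(gI ι) := by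
  have e1 := eg_zn ν
  have hB0 : 0 ≤ B := (abs_nonneg _).trans (hB 0)
  set M0 := ∫ y, zn ν y ^ (2 * j) ∂(gI ι) with hM0
  set M2 := ∫ y, zn ν y ^ (2 * j + 2) ∂(gI ι) with hM2
  set M4 := ∫ y, zn ν y ^ (4 * j + 2) ∂(gI ι) with hM4
  have p0 : 0 < M0 := mm_pos h j
  have hrec : M2 = (2 * j + 1) * M0 := by
    have := m_rec h (2 * j)
    rw [hM2, this]
    push_cast
    ring
  have p2 : 0 < M2 := by rw [hrec]; positivity
  have p4 : 0 < M4 := by
    have := mm_pos h (2 * j + 1)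
    rw [show 2 * (2 * j + 1) = 4 * j + 2 by ring] at this
    exact this
  -- the test function `g = z^(2j+1)`
  set g : (ι → ℝ) → ℝ := fun y => zn ν y ^ (2 * j + 1) with hg
  have eg : EG g := e1.pow _
  -- `∫ f g ≤ B √(M0 M2)` through `2 |t|^(2j+1) ≤ r t^(2j) + t^(2j+2)/r`
  have hfg : ∫ y, f y * g y ∂(gI ι) ≤ M2 * m / 2 := by
    rcases hB0.eq_or_lt with hz | hpos
    · have : ∀ y, f y * g y = 0 := fun y => by
        have := hB y
        rw [← hz] at this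
        rw [abs_nonpos_iff.1 this, zero_mul]
      simp only [this, integral_zero]
      positivity
    · have hmpos : 0 < m := by
        rcases hm.eq_or_lt with h0 | h0
        · exfalso
          rw [← h0] at hj
          nlinarith
        · exact h0
      -- weight r = √(M2/M0); use `r = (2 B)/ m ·...` : choose r > 0 with r² = 2j+1
      set r := √(2 * (j : ℝ) + 1) with hr
      have r0 : 0 < r := Real.sqrt_pos.2 (by positivity)
      have r2 : r ^ 2 = 2 * j + 1 := Real.sq_sqrt (by positivity)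
      have b1 : ∀ y, f y * g y ≤ B / 2 * (r * zn ν y ^ (2 * j) + r⁻¹ * zn ν y ^ (2 * j + 2)) := by
        intro y
        have c1 : f y * g y ≤ B * |g y| := by
          calc f y * g y ≤ |f y * g y| := le_abs_self _
            _ = |f y| * |g y| := abs_mul _ _
            _ ≤ B * |g y| := mul_le_mul_of_nonneg_right (hB y) (abs_nonneg _)
        refine c1.trans ?_
        have c2 : 2 * |g y| ≤ r * zn ν y ^ (2 * j) + r⁻¹ * zn ν y ^ (2 * j + 2) := by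
          have c3 : |g y| = |zn ν y| * zn ν y ^ (2 * j) := by
            rw [hg]
            simp only
            rw [pow_succ, abs_mul, mul_comm, abs_of_nonneg (by
              rw [pow_mul]; positivity : 0 ≤ zn ν y ^ (2 * j))]
          have c4 : zn ν y ^ (2 * j + 2) = |zn ν y| ^ 2 * zn ν y ^ (2 * j) := by
            rw [sq_abs, pow_add, mul_comm]
          rw [c3, c4]
          have c5 : 0 ≤ zn ν y ^ (2 * j) := by rw [pow_mul]; positivity
          have c6 : 0 ≤ (r - |zn ν y|) ^ 2 * r⁻¹ := by positivity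
          have c7 : (r - |zn ν y|) ^ 2 * r⁻¹ = r - 2 * |zn ν y| + r⁻¹ * |zn ν y| ^ 2 := by
            field_simp
            ring
          nlinarith
        calc B * |g y| = B / 2 * (2 * |g y|) := by ring
          _ ≤ _ := mul_le_mul_of_nonneg_left c2 (by positivity)
      have e0 : EG fun y : ι → ℝ => r * zn ν y ^ (2 * j) := (e1.pow _).const_mul _
      have e2 : EG fun y : ι → ℝ => r⁻¹ * zn ν y ^ (2 * j + 2) := (e1.pow _).const_mul _
      have b2 : ∫ y, f y * g y ∂(gI ι) ≤ B / 2 * (r * M0 + r⁻¹ * M2) := by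
        refine (integral_mono (hf.mul eg).integrable ((e0.add e2).const_mul (B / 2)).integrable
          b1).trans ?_
        rw [ic (B / 2) fun y => r * zn ν y ^ (2 * j) + r⁻¹ * zn ν y ^ (2 * j + 2), ia e0 e2,
          ic, ic]
      refine b2.trans ?_
      have b3 : r * M0 = r⁻¹ * M2 := by
        rw [hrec, ← r2]
        field_simp
      have b4 : 2 * B ≤ r * m := by
        refine abs_le_of_sq_le_sq' ?_ (by positivity) |>.2
        rw [mul_pow, mul_pow, r2]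
        linarith
      rw [b3]
      have b5 : B / 2 * (r⁻¹ * M2 + r⁻¹ * M2) = (B * r⁻¹) * M2 := by ring
      rw [b5]
      have b6 : B * r⁻¹ ≤ m / 2 := by
        rw [← div_eq_mul_inv, div_le_div_iff₀ r0 two_pos]
        linarith
      calc (B * r⁻¹) * M2 ≤ m / 2 * M2 := mul_le_mul_of_nonneg_right b6 p2.le
        _ = M2 * m / 2 := by ring
  -- Cauchy-Schwarz against `g`
  have hq : EG fun y => f y - m * zn ν y := hf.sub (e1.const_mul m)
  set a := M2 * m / 2 / M4 with ha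
  have h0 : 0 ≤ ∫ y, ((f y - m * zn ν y) + a * g y) ^ 2 ∂(gI ι) :=
    integral_nonneg fun y => sq_nonneg _
  have h1 : ∀ y, ((f y - m * zn ν y) + a * g y) ^ 2 = (f y - m * zn ν y) ^ 2 +
      ((2 * a) * (f y * g y) + ((-(2 * a * m)) * zn ν y ^ (2 * j + 2) +
        a ^ 2 * zn ν y ^ (4 * j + 2))) := by
    intro y
    have g1 : g y * g y = zn ν y ^ (4 * j + 2) := by
      rw [hg]
      simp only
      rw [← pow_add]
      congr 1
      ring
    have g2 : zn ν y * g y = zn ν y ^ (2 * j + 2) := by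
      rw [hg]
      simp only
      rw [← pow_succ']
    calc ((f y - m * zn ν y) + a * g y) ^ 2 = (f y - m * zn ν y) ^ 2 +
      ((2 * a) * (f y * g y) + ((-(2 * a * m)) * (zn ν y * g y) + a ^ 2 * (g y * g y))) := by ring
      _ = _ := by rw [g1, g2]
  simp only [h1] at h0
  have i1 := hq.pow 2
  have i2 := (hf.mul eg).const_mul (2 * a)
  have i3 : EG fun y : ι → ℝ => (-(2 * a * m)) * zn ν y ^ (2 * j + 2) := (e1.pow _).const_mul _
  have i4 : EG fun y : ι → ℝ => a ^ 2 * zn ν y ^ (4 * j + 2) := (e1.pow _).const_mul _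
  rw [ia i1 (i2.add (i3.add i4)), ia i2 (i3.add i4), ia i3 i4, ic, ic, ic, ← hM2, ← hM4] at h0
  have a0 : 0 ≤ a := by positivity
  have h2 : 2 * a * ∫ y, f y * g y ∂(gI ι) ≤ 2 * a * (M2 * m / 2) :=
    mul_le_mul_of_nonneg_left hfg (by positivity)
  have h3 : a * M4 = M2 * m / 2 := by
    rw [ha]
    field_simp
  have h4 : cj ν j * m ^ 2 = a * (M2 * m / 2) := by
    unfold cj
    rw [← hM2, ← hM4, ha]
    field_simp
    ring
  rw [h4]
  have h5 : a ^ 2 * M4 = a * (M2 * m / 2) := by rw [← h3]; ring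
  rw [h5] at h0
  nlinarith

end abstract_row

section row

variable {s : ℝ} {w0 : ι ⊕ ι → ℝ}

/-- the row average of a conditional expectation -/
noncomputable def Rb (k : ℝ) (S : ι → X → ℝ) (x : ℝ) (A0 : Finset ι) (l : Lvl ι) (s : ℝ)
    (w0 : ι ⊕ ι → ℝ) (F : (ι → ℝ) → ℝ) : ℝ := ∫ y, rl k S x A0 l F s (mrg A0 w0 y) ∂(gI ι)

lemma cd_av (h : X → ℝ) : ∃ G, CD A0 ν (av k S h) G := ⟨_, _, _, c2_av k S h, fun _ => rfl⟩

lemma cd_c4 : ∃ G, CD A0 ν (c4 k S A0 ν) G := by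
  have h1 := cd_am k S A0 ν 1
  have h2 := cd_am k S A0 ν 2
  have h3 := cd_am k S A0 ν 3
  have h4 := cd_am k S A0 ν 4
  exact ⟨_, (((((h4.sub ((h3.mul h1).const_mul 4)).sub ((h2.mul h2).const_mul 3)).add
    ((h2.mul (h1.mul h1)).const_mul 12)).sub (((h1.mul h1).mul (h1.mul h1)).const_mul 6))).congr
    (fun u => by unfold c4; ring) fun u => rfl⟩

lemma egr {F : (ι → ℝ) → ℝ} (h : ∃ G, CD A0 ν F G) (hx : 0 ≤ x) (l : Lvl ι)
    (hs : s ∈ Set.Icc (0 : ℝ) 1) (w0 : ι ⊕ ι → ℝ) :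
    EG fun y => rl k S x A0 l F s (mrg A0 w0 y) := by
  obtain ⟨G, h⟩ := h
  exact eg_mrg ((h.kd hx l).eg hs) w0

lemma cd_c1p (j : ℕ) : ∃ G, CD A0 ν (fun u => c1 k S A0 ν u ^ j) G := by
  induction j with
  | zero =>
    refine ⟨_, (cd_am k S A0 ν 0).congr (fun u => ?_) fun u => rfl⟩
    rw [pow_zero, am_zero]
  | succ j ih =>
    obtain ⟨G, h⟩ := ih
    exact ⟨_, (h.mul (cd_c1 k S A0 ν)).congr (fun u => pow_succ _ _) fun u => rfl⟩

lemma eg_e1 (hx : 0 ≤ x) (l : Lvl ι) (hs : s ∈ Set.Icc (0 : ℝ) 1) (w0 : ι ⊕ ι → ℝ) :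
    EG fun y => e1' k S x A0 ν l s (mrg A0 w0 y) := by
  unfold e1'
  exact (egr (cd_c1p 2) hx l hs w0).sub ((egr ⟨_, cd_c1 k S A0 ν⟩ hx l hs w0).pow 2)

lemma eg_e3 (hx : 0 ≤ x) (l : Lvl ι) (hs : s ∈ Set.Icc (0 : ℝ) 1) (w0 : ι ⊕ ι → ℝ) :
    EG fun y => e3' k S x A0 ν l s (mrg A0 w0 y) := by
  have R1 : EG fun y => rl k S x A0 l (c1 k S A0 ν) s (mrg A0 w0 y) :=
    egr ⟨_, cd_c1 k S A0 ν⟩ hx l hs w0
  have R2 : EG fun y => rl k S x A0 l (c2 k S A0 ν) s (mrg A0 w0 y) :=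
    egr ⟨_, cd_c2 k S A0 ν⟩ hx l hs w0
  have R3 : EG fun y => rl k S x A0 l (c3 k S A0 ν) s (mrg A0 w0 y) :=
    egr ⟨_, cd_c3 k S A0 ν⟩ hx l hs w0
  have R11 : EG fun y => rl k S x A0 l (fun u => c1 k S A0 ν u ^ 2) s (mrg A0 w0 y) :=
    egr (ν := ν) (cd_c1p 2) hx l hs w0
  have R111 : EG fun y => rl k S x A0 l (fun u => c1 k S A0 ν u ^ 3) s (mrg A0 w0 y) :=
    egr (ν := ν) (cd_c1p 3) hx l hs w0
  have R1111 : EG fun y => rl k S x A0 l (fun u => c1 k S A0 ν u ^ 4) s (mrg A0 w0 y) :=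
    egr (ν := ν) (cd_c1p 4) hx l hs w0
  have R12 : EG fun y => rl k S x A0 l (fun u => c1 k S A0 ν u * c2 k S A0 ν u) s
      (mrg A0 w0 y) := egr ⟨_, (cd_c1 k S A0 ν).mul (cd_c2 k S A0 ν)⟩ hx l hs w0
  have R13 : EG fun y => rl k S x A0 l (fun u => c1 k S A0 ν u * c3 k S A0 ν u) s
      (mrg A0 w0 y) := egr ⟨_, (cd_c1 k S A0 ν).mul (cd_c3 k S A0 ν)⟩ hx l hs w0
  have R22 : EG fun y => rl k S x A0 l (fun u => c2 k S A0 ν u ^ 2) s (mrg A0 w0 y) :=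
    egr ⟨_, ((cd_c2 k S A0 ν).mul (cd_c2 k S A0 ν)).congr (fun u => sq _) fun u => rfl⟩ hx l hs w0
  have R112 : EG fun y => rl k S x A0 l (fun u => c1 k S A0 ν u ^ 2 * c2 k S A0 ν u) s
      (mrg A0 w0 y) := by
    obtain ⟨G, hG⟩ := cd_c1p (k := k) (S := S) (A0 := A0) (ν := ν) 2
    exact egr ⟨_, hG.mul (cd_c2 k S A0 ν)⟩ hx l hs w0
  have hv := R11.sub (R1.pow 2)
  have g2 := R2.add (hv.const_mul x)
  have g3 := R3.add ((R12.sub (R1.mul R2)).const_mul x)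
  have g4 := (R12.const_mul 2).add ((R111.sub (R1.mul R11)).const_mul x)
  unfold e3'
  exact ((R13.sub (R1.mul R3)).add (((((R22.add R13).add
    ((R112.sub (R1.mul R12)).const_mul x)).sub (R2.mul g2)).sub (R1.mul g3)).const_mul 3)).add
    (((((R112.const_mul 3).add ((R1111.sub (R1.mul R111)).const_mul x)).sub
      (((R11.mul g2).add (R1.mul g4)).const_mul 3)).add
      (((R1.pow 2).mul g2).const_mul 6)).const_mul x)

/-- **The first Stein coefficient.** -/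
theorem T1_eq (h : Dir A0 ν) (hx : 0 ≤ x) (l : Lvl ι) (hs : s ∈ Set.Icc (0 : ℝ) 1)
    (w0 : ι ⊕ ι → ℝ) :
    ∫ y, rl k S x A0 l (c1 k S A0 ν) s (mrg A0 w0 y) * zn ν y ∂(gI ι) =
      √s * (k * (Rb k S x A0 l s w0 (c2 k S A0 ν) +
        x * ∫ y, e1' k S x A0 ν l s (mrg A0 w0 y) ∂(gI ι))) := by
  have h1 := (kd_a1 (k := k) (S := S) (x := x) (A0 := A0) (ν := ν) hx l).ibp h hs w0
    (p := fun _ => 1) (p' := fun _ => 0) (fun t => hasDerivAt_const t 1) (EG.const 1) (EG.const 0)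
  simp only [mul_one, sub_zero] at h1
  rw [h1]
  congr 1
  rw [ic, ia (egr ⟨_, cd_c2 k S A0 ν⟩ hx l hs w0) ((eg_e1 hx l hs w0).const_mul x), ic]
  rfl

/-- **The third Stein coefficient.** -/
theorem T3_eq (h : Dir A0 ν) (hx : 0 ≤ x) (l : Lvl ι) (hs : s ∈ Set.Icc (0 : ℝ) 1)
    (w0 : ι ⊕ ι → ℝ) :
    ∫ y, rl k S x A0 l (c1 k S A0 ν) s (mrg A0 w0 y) * (zn ν y ^ 3 - 3 * zn ν y) ∂(gI ι) =
      (√s * k) ^ 3 * (Rb k S x A0 l s w0 (c4 k S A0 ν) +
        x * ∫ y, e3' k S x A0 ν l s (mrg A0 w0 y) ∂(gI ι)) := by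
  have e1 := eg_zn ν
  have h1 := (kd_a1 (k := k) (S := S) (x := x) (A0 := A0) (ν := ν) hx l).ibp h hs w0
    (p := fun t => t ^ 2 - 1) (p' := fun t => 2 * t)
    (fun t => by simpa using (hasDerivAt_pow 2 t).sub_const 1)
    ((e1.pow 2).sub (EG.const 1)) (e1.const_mul 2)
  have h2 := (kd_a2 (k := k) (S := S) (x := x) (A0 := A0) (ν := ν) hx l).ibp h hs w0
    (p := fun t => t) (p' := fun _ => 1) (fun t => hasDerivAt_id t) e1 (EG.const 1)
  have h3 := (kd_a3 (k := k) (S := S) (x := x) (A0 := A0) (ν := ν) hx l).ibp h hs w0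
    (p := fun _ => 1) (p' := fun _ => 0) (fun t => hasDerivAt_const t 1) (EG.const 1) (EG.const 0)
  simp only [mul_one, sub_zero] at h3
  have f1 : ∀ y : ι → ℝ, zn ν y ^ 3 - 3 * zn ν y = zn ν y * (zn ν y ^ 2 - 1) - 2 * zn ν y :=
    fun y => by ring
  have f2 : ∀ y : ι → ℝ, zn ν y ^ 2 - 1 = zn ν y * zn ν y - 1 := fun y => by ring
  simp only [f1]
  rw [h1]
  simp only [f2]
  rw [h2, h3, ic, ia (egr (k := k) (S := S) (ν := ν) cd_c4 hx l hs w0) ((eg_e3 hx l hs w0).const_mul x), ic]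
  unfold Rb
  ring

lemma Rb_mono {F G : (ι → ℝ) → ℝ} (hF : ∃ F', CD A0 ν F F') (hG : ∃ G', CD A0 ν G G')
    (hx : 0 ≤ x) (l : Lvl ι) (hs : s ∈ Set.Icc (0 : ℝ) 1) (w0 : ι ⊕ ι → ℝ)
    (h : ∀ u, F u ≤ G u) : Rb k S x A0 l s w0 F ≤ Rb k S x A0 l s w0 G := by
  unfold Rb
  refine integral_mono (egr hF hx l hs w0).integrable (egr hG hx l hs w0).integrable fun y => ?_
  obtain ⟨F', hF⟩ := hF
  obtain ⟨G', hG⟩ := hG
  exact rl_mono (ebd hF.eg) (ebd hG.eg) h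

lemma Rb_add {F G : (ι → ℝ) → ℝ} (hF : ∃ F', CD A0 ν F F') (hG : ∃ G', CD A0 ν G G')
    (hx : 0 ≤ x) (l : Lvl ι) (hs : s ∈ Set.Icc (0 : ℝ) 1) (w0 : ι ⊕ ι → ℝ) :
    Rb k S x A0 l s w0 (fun u => F u + G u) = Rb k S x A0 l s w0 F + Rb k S x A0 l s w0 G := by
  unfold Rb
  rw [← ia (egr hF hx l hs w0) (egr hG hx l hs w0)]
  congr 1
  funext y
  obtain ⟨F', hF⟩ := hF
  obtain ⟨G', hG⟩ := hG
  exact rl_add (ebd hF.eg) (ebd hG.eg)

lemma Rb_const_mul (c : ℝ) (F : (ι → ℝ) → ℝ) :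
    Rb k S x A0 l s w0 (fun u => c * F u) = c * Rb k S x A0 l s w0 F := by
  unfold Rb
  rw [← ic]
  congr 1
  funext y
  exact rl_const_mul c

lemma Rb_const (c : ℝ) : Rb k S x A0 l s w0 (fun _ => c) = c := by
  unfold Rb
  simp only [rl_const]
  simp

lemma cdo_const (c : ℝ) : ∃ G, CD A0 ν (fun _ : ι → ℝ => c) G :=
  ⟨_, ((cd_am (k := 0) (S := fun (_ : ι) (_ : Unit) => 0) A0 ν 0).const_mul c).congr
    (fun u => by rw [am_zero, mul_one]) fun u => rfl⟩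

lemma cdo_add {F G : (ι → ℝ) → ℝ} (hF : ∃ F', CD A0 ν F F') (hG : ∃ G', CD A0 ν G G') :
    ∃ H, CD A0 ν (fun u => F u + G u) H := by
  obtain ⟨F', hF⟩ := hF
  obtain ⟨G', hG⟩ := hG
  exact ⟨_, hF.add hG⟩

lemma cdo_cm {F : (ι → ℝ) → ℝ} (c : ℝ) (hF : ∃ F', CD A0 ν F F') :
    ∃ H, CD A0 ν (fun u => c * F u) H := by
  obtain ⟨F', hF⟩ := hF
  exact ⟨_, hF.const_mul c⟩

/-- Jensen's inequality for the row average -/
lemma Rb_sq_le {F : (ι → ℝ) → ℝ} (hF : ∃ F', CD A0 ν F F') (hx : 0 ≤ x) (l : Lvl ι)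
    (hs : s ∈ Set.Icc (0 : ℝ) 1) (w0 : ι ⊕ ι → ℝ) :
    Rb k S x A0 l s w0 F ^ 2 ≤ Rb k S x A0 l s w0 (fun u => F u ^ 2) := by
  obtain ⟨F', hF⟩ := hF
  set m := Rb k S x A0 l s w0 F with hm
  have hc : ∃ H, CD A0 ν (fun u => F u ^ 2) H := ⟨_, (hF.mul hF).congr (fun u => sq _) fun u => rfl⟩
  have h0 : 0 ≤ Rb k S x A0 l s w0 (fun u => (F u ^ 2 + (-2 * m) * F u) + m ^ 2) := by
    unfold Rb
    refine integral_nonneg fun y => ?_
    refine rl_nonneg (ebd (((hF.eg.pow 2).add (hF.eg.const_mul _)).add (EG.const _))) fun u => ?_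
    nlinarith [sq_nonneg (F u - m)]
  rw [Rb_add (ν := ν) (F := fun u => F u ^ 2 + (-2 * m) * F u) (G := fun _ => m ^ 2)
    (cdo_add hc (cdo_cm _ ⟨_, hF⟩)) (cdo_const _) hx l hs w0,
    Rb_add (ν := ν) (F := fun u => F u ^ 2) (G := fun u => (-2 * m) * F u) hc
      (cdo_cm _ ⟨_, hF⟩) hx l hs w0, Rb_const_mul, Rb_const, ← hm] at h0
  nlinarith

end row

end Vale.Agent.P146.H722
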