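import Vale.Agent.P146.H722.Kap5

/-!
**KAPPA at a fixed bulk**, the inequalities. `Pb = ∫ rl⟨X⟩²`, `Vb = ∫ rl⟨(X² - lam)²⟩`.
-/

open MeasureTheory ProbabilityTheory

namespace Vale.Agent.P146.H722

open Vale.Agent.P157.Lv Vale.Agent.P146.H425 Vale.Agent.P146.H332 Vale.Agent.P146.H325

set_option linter.unusedSectionVars false

variable {ι : Type} [Fintype ι] [DecidableEq ι] {X : Type} [Fintype X] [Nonempty X]

variable {k : ℝ} {S : ι → X → ℝ} {x : ℝ} {A0 : Finset ι} {ν : ι → ℝ} {l : Lvl ι}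
  {s : ℝ} {w0 : ι ⊕ ι → ℝ}

/-- `Pb = ∫ rl ⟨X⟩²` -/
noncomputable def Pb (k : ℝ) (S : ι → X → ℝ) (x : ℝ) (A0 : Finset ι) (ν : ι → ℝ) (l : Lvl ι)
    (s : ℝ) (w0 : ι ⊕ ι → ℝ) : ℝ := Rb k S x A0 l s w0 (fun u => c1 k S A0 ν u ^ 2)

/-- `Vb = ∫ rl ⟨(X² - lam)²⟩` -/
noncomputable def Vb (k : ℝ) (S : ι → X → ℝ) (x : ℝ) (A0 : Finset ι) (ν : ι → ℝ) (l : Lvl ι)
    (s : ℝ) (w0 : ι ⊕ ι → ℝ) (lam : ℝ) : ℝ := Rb k S x A0 l s w0 (Vo k S A0 ν lam)

/-- the first Stein coefficient of `α` -/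
noncomputable def T1 (k : ℝ) (S : ι → X → ℝ) (x : ℝ) (A0 : Finset ι) (ν : ι → ℝ) (l : Lvl ι)
    (s : ℝ) (w0 : ι ⊕ ι → ℝ) : ℝ :=
  ∫ y, rl k S x A0 l (c1 k S A0 ν) s (mrg A0 w0 y) * zn ν y ∂(gI ι)

/-- the third Stein coefficient of `α` -/
noncomputable def T3 (k : ℝ) (S : ι → X → ℝ) (x : ℝ) (A0 : Finset ι) (ν : ι → ℝ) (l : Lvl ι)
    (s : ℝ) (w0 : ι ⊕ ι → ℝ) : ℝ :=
  ∫ y, rl k S x A0 l (c1 k S A0 ν) s (mrg A0 w0 y) * (zn ν y ^ 3 - 3 * zn ν y) ∂(gI ι)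

lemma Vb_nonneg (lam : ℝ) : 0 ≤ Vb k S x A0 ν l s w0 lam := by
  unfold Vb Rb
  exact integral_nonneg fun y => rl_nonneg (ebd (eg_Vo lam)) fun u => Vo_nonneg lam u

lemma Pb_nonneg : 0 ≤ Pb k S x A0 ν l s w0 := by
  unfold Pb Rb
  exact integral_nonneg fun y => rl_nonneg (ebd (eg_c1.pow 2)) fun u => sq_nonneg _

lemma cdo_am (j : ℕ) : ∃ G, CD A0 ν (am k S A0 ν j) G := ⟨_, cd_am k S A0 ν j⟩

lemma cdo_Vo (lam : ℝ) : ∃ G, CD A0 ν (Vo k S A0 ν lam) G := cd_av _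

lemma Rb_am2 (hx : 0 ≤ x) (hs : s ∈ Set.Icc (0 : ℝ) 1) (lam : ℝ) :
    |Rb k S x A0 l s w0 (am k S A0 ν 2) - lam| ≤ √(Vb k S x A0 ν l s w0 lam) := by
  have h1 : Rb k S x A0 l s w0 (fun u => am k S A0 ν 2 u + -lam) =
      Rb k S x A0 l s w0 (am k S A0 ν 2) - lam := by
    rw [Rb_add (ν := ν) (G := fun _ => -lam) (cdo_am 2) (cdo_const _) hx l hs w0, Rb_const]
    ring
  have h2 := Rb_sq_le (k := k) (S := S) (x := x) (ν := ν) (F := fun u => am k S A0 ν 2 u + -lam)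
    (cdo_add (cdo_am 2) (cdo_const _)) hx l hs w0
  rw [h1] at h2
  have hcd : ∃ G, CD A0 ν (fun u => (am k S A0 ν 2 u + -lam) ^ 2) G := by
    obtain ⟨G, hG⟩ := cdo_add (cdo_am (k := k) (S := S) (A0 := A0) (ν := ν) 2)
      (cdo_const (A0 := A0) (ν := ν) (-lam))
    exact ⟨_, (hG.mul hG).congr (fun u => sq _) fun u => rfl⟩
  have h3 : Rb k S x A0 l s w0 (fun u => (am k S A0 ν 2 u + -lam) ^ 2) ≤
      Vb k S x A0 ν l s w0 lam :=
    Rb_mono hcd (cdo_Vo lam) hx l hs w0 fun u => by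
      have := am2_dist (k := k) (S := S) (A0 := A0) (ν := ν) lam u
      rwa [sub_eq_add_neg] at this
  rw [← Real.sqrt_sq_eq_abs]
  exact Real.sqrt_le_sqrt (h2.trans h3)

/-- the average overlap is at most `lam + √Vb` -/
theorem Pb_le (hx : 0 ≤ x) (hs : s ∈ Set.Icc (0 : ℝ) 1) (lam : ℝ) :
    Pb k S x A0 ν l s w0 ≤ lam + √(Vb k S x A0 ν l s w0 lam) := by
  have h1 : Pb k S x A0 ν l s w0 ≤ Rb k S x A0 l s w0 (am k S A0 ν 2) :=
    Rb_mono (cd_c1p 2) (cdo_am 2) hx l hs w0 am1_sq_le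
  have h2 := (abs_le.1 (Rb_am2 (k := k) (S := S) (A0 := A0) (ν := ν) (l := l) (w0 := w0)
    hx hs lam)).2
  linarith

lemma e1_bds (hx : 0 ≤ x) (hs : s ∈ Set.Icc (0 : ℝ) 1) :
    0 ≤ ∫ y, e1' k S x A0 ν l s (mrg A0 w0 y) ∂(gI ι) ∧
      ∫ y, e1' k S x A0 ν l s (mrg A0 w0 y) ∂(gI ι) ≤ Pb k S x A0 ν l s w0 := by
  constructor
  · refine integral_nonneg fun y => ?_
    have := rl_sq_le (k := k) (S := S) (x := x) (A0 := A0) (l := l) (s := s)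
      (w := mrg A0 w0 y) (eg_c1 (k := k) (S := S) (A0 := A0) (ν := ν))
    simp only [Pi.zero_apply]
    unfold e1'
    linarith
  · unfold Pb Rb
    refine integral_mono (eg_e1 hx l hs w0).integrable
      (egr (ν := ν) (cd_c1p 2) hx l hs w0).integrable fun y => ?_
    simp only
    unfold e1'
    nlinarith [sq_nonneg (rl k S x A0 l (c1 k S A0 ν) s (mrg A0 w0 y))]

/-- **The first Stein coefficient**: `T1 = √s k (lam - Pb)` up to `√Vb` and `x Pb`. -/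
theorem T1_bds (h : Dir A0 ν) (hk : 0 ≤ k) (hx : 0 ≤ x) (hs : s ∈ Set.Icc (0 : ℝ) 1)
    (lam : ℝ) :
    √s * k * (lam - Pb k S x A0 ν l s w0 - √(Vb k S x A0 ν l s w0 lam)) ≤
      T1 k S x A0 ν l s w0 ∧
    T1 k S x A0 ν l s w0 ≤ √s * k * (lam - Pb k S x A0 ν l s w0 +
      √(Vb k S x A0 ν l s w0 lam) + x * Pb k S x A0 ν l s w0) := by
  have h1 := T1_eq (k := k) (S := S) (A0 := A0) (ν := ν) h hx l hs w0
  have h2 : Rb k S x A0 l s w0 (c2 k S A0 ν) =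
      Rb k S x A0 l s w0 (am k S A0 ν 2) - Pb k S x A0 ν l s w0 := by
    have e : c2 k S A0 ν = fun u => am k S A0 ν 2 u + -1 * (fun u => c1 k S A0 ν u ^ 2) u := by
      funext u
      unfold c2 c1
      ring
    rw [e, Rb_add (ν := ν) (cdo_am 2) (cdo_cm (-1) (cd_c1p 2)) hx l hs w0, Rb_const_mul]
    unfold Pb
    ring
  have h3 := abs_le.1 (Rb_am2 (k := k) (S := S) (A0 := A0) (ν := ν) (l := l) (w0 := w0)
    hx hs lam)
  have h4 := e1_bds (k := k) (S := S) (A0 := A0) (ν := ν) (l := l) (w0 := w0) hx hs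
  have hsk : 0 ≤ √s * k := by positivity
  unfold T1
  rw [h1, h2, ← mul_assoc]
  constructor
  · refine mul_le_mul_of_nonneg_left ?_ hsk
    have := mul_nonneg hx h4.1
    linarith [h3.1]
  · refine mul_le_mul_of_nonneg_left ?_ hsk
    have := mul_le_mul_of_nonneg_left h4.2 hx
    linarith [h3.2]

/-- **The third Stein coefficient is negative**, up to `Vb` and `x lam²`. -/
theorem T3_le (h : Dir A0 ν) (hk : 0 ≤ k) (hx : 0 ≤ x) (hx1 : x ≤ 1)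
    (hs : s ∈ Set.Icc (0 : ℝ) 1) {lam : ℝ} (hl : 0 ≤ lam) {ep : ℝ} (hep : 0 < ep) :
    T3 k S x A0 ν l s w0 ≤ (√s * k) ^ 3 *
      (-2 * ((lam - Pb k S x A0 ν l s w0) * (lam - 3 * Pb k S x A0 ν l s w0)) +
        20 * Vb k S x A0 ν l s w0 lam + 12 * (ep * lam ^ 2 + Vb k S x A0 ν l s w0 lam / ep) +
        208 * x * (Vb k S x A0 ν l s w0 lam + lam ^ 2)) := by
  have h1 := T3_eq (k := k) (S := S) (A0 := A0) (ν := ν) h hx l hs w0
  set P := Pb k S x A0 ν l s w0 with hP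
  set V := Vb k S x A0 ν l s w0 lam with hV
  have hsk : 0 ≤ (√s * k) ^ 3 := by positivity
  unfold T3
  rw [h1]
  refine mul_le_mul_of_nonneg_left ?_ hsk
  -- the main part
  set Q := Rb k S x A0 l s w0 (fun u => c1 k S A0 ν u ^ 4) with hQ
  have hPQ : P ^ 2 ≤ Q := by
    have h2 := Rb_sq_le (k := k) (S := S) (x := x) (A0 := A0) (ν := ν)
      (F := fun u => c1 k S A0 ν u ^ 2) (cd_c1p 2) hx l hs w0
    have e : (fun u => (c1 k S A0 ν u ^ 2) ^ 2) = fun u => c1 k S A0 ν u ^ 4 := by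
      funext u; ring
    rw [e] at h2
    exact h2
  have hmain : Rb k S x A0 l s w0 (c4 k S A0 ν) ≤ -2 * (lam ^ 2 - 4 * lam * P + 3 * Q) +
      20 * V + 12 * (ep * lam ^ 2 + V / ep) := by
    have c2' : ∃ G, CD A0 ν (fun u => (8 * lam) * (fun u => c1 k S A0 ν u ^ 2) u) G :=
      cdo_cm _ (cd_c1p 2)
    have c4' : ∃ G, CD A0 ν (fun u => (-6) * (fun u => c1 k S A0 ν u ^ 4) u) G :=
      cdo_cm _ (cd_c1p 4)
    have cV : ∃ G, CD A0 ν (fun u => (20 + 12 / ep) * Vo k S A0 ν lam u) G :=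
      cdo_cm _ (cdo_Vo lam)
    have cc : ∃ G, CD A0 ν (fun _ : ι → ℝ => -2 * lam ^ 2 + 12 * ep * lam ^ 2) G := cdo_const _
    have h3 := Rb_mono (k := k) (S := S) (x := x) (A0 := A0) (ν := ν) (s := s)
      (F := c4 k S A0 ν)
      (G := fun u => ((-2 * lam ^ 2 + 12 * ep * lam ^ 2) +
        (8 * lam) * (fun u => c1 k S A0 ν u ^ 2) u) +
        ((-6) * (fun u => c1 k S A0 ν u ^ 4) u + (20 + 12 / ep) * Vo k S A0 ν lam u))
      cd_c4 (cdo_add (cdo_add cc c2') (cdo_add c4' cV)) hx l hs w0 fun u => by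
        have := c4_le (k := k) (S := S) (A0 := A0) (ν := ν) hl hep u
        refine this.trans (le_of_eq ?_)
        field_simp
        ring
    refine h3.trans (le_of_eq ?_)
    rw [Rb_add (ν := ν) (cdo_add cc c2') (cdo_add c4' cV) hx l hs w0,
      Rb_add (ν := ν) cc c2' hx l hs w0, Rb_add (ν := ν) c4' cV hx l hs w0, Rb_const,
      Rb_const_mul, Rb_const_mul, Rb_const_mul]
    have eP : Rb k S x A0 l s w0 (fun u => c1 k S A0 ν u ^ 2) = P := rfl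
    have eV : Rb k S x A0 l s w0 (Vo k S A0 ν lam) = V := rfl
    rw [eP, eV, ← hQ]
    field_simp
    ring
  -- the correction
  have hcor : ∫ y, e3' k S x A0 ν l s (mrg A0 w0 y) ∂(gI ι) ≤ 208 * (V + lam ^ 2) := by
    have h4 : ∫ y, e3' k S x A0 ν l s (mrg A0 w0 y) ∂(gI ι) ≤
        104 * Rb k S x A0 l s w0 (am k S A0 ν 4) := by
      unfold Rb
      rw [← ic]
      refine integral_mono (eg_e3 hx l hs w0).integrable
        ((egr (cdo_am 4) hx l hs w0).const_mul 104).integrable fun y => ?_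
      exact (le_abs_self _).trans (e3_le hx hx1)
    have h5 : Rb k S x A0 l s w0 (am k S A0 ν 4) ≤ 2 * V + 2 * lam ^ 2 := by
      have cV : ∃ G, CD A0 ν (fun u => 2 * Vo k S A0 ν lam u) G := cdo_cm _ (cdo_Vo lam)
      have h6 := Rb_mono (k := k) (S := S) (x := x) (A0 := A0) (ν := ν) (s := s)
        (F := am k S A0 ν 4) (G := fun u => 2 * Vo k S A0 ν lam u + 2 * lam ^ 2)
        (cdo_am 4) (cdo_add cV (cdo_const _)) hx l hs w0 fun u => am4_le lam u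
      rw [Rb_add (ν := ν) (G := fun _ => 2 * lam ^ 2) cV (cdo_const _) hx l hs w0,
        Rb_const_mul, Rb_const] at h6
      exact h6
    linarith
  have hcor2 := mul_le_mul_of_nonneg_left hcor hx
  nlinarith

/-- the nonlinear part of `α`, third chaos -/
theorem kappa3 (h : Dir A0 ν) (hx : 0 ≤ x) (hs : s ∈ Set.Icc (0 : ℝ) 1) (m : ℝ) :
    T3 k S x A0 ν l s w0 ^ 2 / 6 ≤
      ∫ y, (rl k S x A0 l (c1 k S A0 ν) s (mrg A0 w0 y) - m * zn ν y) ^ 2 ∂(gI ι) :=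
  nl_ge h (egr ⟨_, cd_c1 k S A0 ν⟩ hx l hs w0) m

/-- **KAPPA at a fixed bulk.** If `Pb ≤ (1/3 - c) lam` and `Vb ≤ (c/100)² lam²`,
`x ≤ c/1000`, then `|T3| ≥ c (√s k)³ lam²`. -/
theorem kappa_fixed (h : Dir A0 ν) (hk : 0 ≤ k) (hx : 0 ≤ x) (hs : s ∈ Set.Icc (0 : ℝ) 1)
    {lam : ℝ} (hl : 0 ≤ lam) {c : ℝ} (hc : 0 < c) (hc1 : c ≤ 1 / 3)
    (hP : Pb k S x A0 ν l s w0 ≤ (1 / 3 - c) * lam)
    (hV : Vb k S x A0 ν l s w0 lam ≤ (c / 100) ^ 2 * lam ^ 2) (hxc : x ≤ c / 1000) :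
    c * ((√s * k) ^ 3 * lam ^ 2) ≤ -T3 k S x A0 ν l s w0 := by
  have hx1 : x ≤ 1 := by linarith
  have h1 := T3_le (S := S) (A0 := A0) (ν := ν) (l := l) (w0 := w0) h hk hx hx1 hs hl
    (ep := c / 100) (by positivity)
  set P := Pb k S x A0 ν l s w0 with hP'
  set V := Vb k S x A0 ν l s w0 lam with hV'
  have hP0 : 0 ≤ P := Pb_nonneg
  have hV0 : 0 ≤ V := Vb_nonneg lam
  have hsk : 0 ≤ (√s * k) ^ 3 := by positivity
  have h2 : V / (c / 100) ≤ c / 100 * lam ^ 2 := by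
    rw [div_le_iff₀ (by positivity)]
    calc V ≤ (c / 100) ^ 2 * lam ^ 2 := hV
      _ = _ := by ring
  have h3 : 2 * c * lam ^ 2 ≤ (lam - P) * (lam - 3 * P) := by
    have a1 : 2 / 3 * lam ≤ lam - P := by nlinarith
    have a2 : 3 * c * lam ≤ lam - 3 * P := by nlinarith
    have := mul_le_mul a1 a2 (by positivity) (by linarith [mul_nonneg hc.le hl])
    calc 2 * c * lam ^ 2 = 2 / 3 * lam * (3 * c * lam) := by ring
      _ ≤ _ := this
  have h4 : V ≤ c / 900 * lam ^ 2 := by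
    refine hV.trans (mul_le_mul_of_nonneg_right ?_ (sq_nonneg _))
    nlinarith
  have h5 : x * (V + lam ^ 2) ≤ c / 1000 * (2 * lam ^ 2) := by
    have : V + lam ^ 2 ≤ 2 * lam ^ 2 := by nlinarith [sq_nonneg lam]
    exact mul_le_mul hxc this (by positivity) (by positivity)
  have h6 : -2 * ((lam - P) * (lam - 3 * P)) + 20 * V +
      12 * (c / 100 * lam ^ 2 + V / (c / 100)) + 208 * x * (V + lam ^ 2) ≤ -(c * lam ^ 2) := by
    have e : 208 * x * (V + lam ^ 2) = 208 * (x * (V + lam ^ 2)) := by ring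
    rw [e]
    nlinarith [mul_nonneg hc.le (sq_nonneg lam)]
  have h7 := h1.trans (mul_le_mul_of_nonneg_left h6 hsk)
  linarith

end Vale.Agent.P146.H722
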