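import Vale.Agent.P146.H722.Kap7

/-!
**KAPPA in the objects of block C**: bounds of the first and the third Stein coefficient of the
clean row function, the rows `b` and `b'` are averaged.
-/

open MeasureTheory ProbabilityTheory

namespace Vale.Agent.P146.H722

open Vale.Agent.P157.Lv Vale.Agent.P146.H425 Vale.Agent.P146.H332 Vale.Agent.P146.H325
  Vale.Agent.P146.R1C Vale.Agent.P146.H712

set_option linter.unusedSectionVars false

variable {n : ℕ} {k x s : ℝ} {b b' : Fin n} {v : Fin n → ℝ}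

/-! ### `RR` as a level -/

lemma RR_rl (F : (Pair n → ℝ) → ℝ) (z : Pair n → ℝ) :
    rl k SkS x ∅ (Lid (Pair n) s) F s (Sum.elim z 0) = RR k SkS x (cf s) F z := by
  rw [rl_eq, u_Lid]
  congr 1

lemma RR_sq_le {F : (Pair n → ℝ) → ℝ} (hF : EG F) (z : Pair n → ℝ) :
    RR k SkS x (cf s) F z ^ 2 ≤ RR k SkS x (cf s) (fun u => F u ^ 2) z := by
  rw [← RR_rl, ← RR_rl]
  exact rl_sq_le hF

lemma RR_mono' {F G : (Pair n → ℝ) → ℝ} (hF : EG F) (hG : EG G) (h : ∀ u, F u ≤ G u)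
    (z : Pair n → ℝ) : RR k SkS x (cf s) F z ≤ RR k SkS x (cf s) G z := by
  rw [← RR_rl, ← RR_rl]
  exact rl_mono (ebd hF) (ebd hG) h

lemma RR_nonneg' {F : (Pair n → ℝ) → ℝ} (hF : EG F) (h : ∀ u, 0 ≤ F u)
    (z : Pair n → ℝ) : 0 ≤ RR k SkS x (cf s) F z := by
  rw [← RR_rl]
  exact rl_nonneg (ebd hF) h

lemma RR_add' {F G : (Pair n → ℝ) → ℝ} (hF : EG F) (hG : EG G) (z : Pair n → ℝ) :
    RR k SkS x (cf s) (fun u => F u + G u) z =
      RR k SkS x (cf s) F z + RR k SkS x (cf s) G z := by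
  rw [← RR_rl, ← RR_rl, ← RR_rl]
  exact rl_add (ebd hF) (ebd hG)

lemma RR_cm (c : ℝ) (F : (Pair n → ℝ) → ℝ) (z : Pair n → ℝ) :
    RR k SkS x (cf s) (fun u => c * F u) z = c * RR k SkS x (cf s) F z := by
  rw [← RR_rl, ← RR_rl]
  exact rl_const_mul c

lemma RR_const' (c : ℝ) (z : Pair n → ℝ) : RR k SkS x (cf s) (fun _ => c) z = c := by
  rw [← RR_rl]
  exact rl_const c

lemma RR_sum' {κ : Type*} (t : Finset κ) {F : κ → (Pair n → ℝ) → ℝ} (hF : ∀ i ∈ t, EG (F i))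
    (z : Pair n → ℝ) : RR k SkS x (cf s) (fun u => ∑ i ∈ t, F i u) z =
      ∑ i ∈ t, RR k SkS x (cf s) (F i) z := by
  simp only [← RR_rl]
  exact rl_sum t fun i hi => ebd (hF i hi)

/-! ### the averages -/

/-- `∫ ⟨T⟩²`, both rows averaged -/
noncomputable def Pm (k x s : ℝ) (b b' : Fin n) (v : Fin n → ℝ) (z : Pair n → ℝ) : ℝ :=
  AvP s (row b ∪ row b') (RR k SkS x (cf s) fun u => c1 k SkS (row b) (nuv b v) u ^ 2) z

/-- `∫ ⟨(T² - lam)²⟩`, both rows averaged -/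
noncomputable def Vm (k x s : ℝ) (b b' : Fin n) (v : Fin n → ℝ) (lam : ℝ)
    (z : Pair n → ℝ) : ℝ :=
  AvP s (row b ∪ row b') (RR k SkS x (cf s) (Vo k SkS (row b) (nuv b v) lam)) z

/-- the first Stein coefficient of the clean row function -/
noncomputable def A1 (k x s : ℝ) (b b' : Fin n) (v : Fin n → ℝ) (z : Pair n → ℝ) : ℝ :=
  ∫ y : Fin n → ℝ, (∑ i, v i * cl0 k x s b b' (put b (√s • y) z) i) * (∑ i, v i * y i)
    ∂(gI (Fin n))

/-- the third Stein coefficient of the clean row function -/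
noncomputable def A3 (k x s : ℝ) (b b' : Fin n) (v : Fin n → ℝ) (z : Pair n → ℝ) : ℝ :=
  ∫ y : Fin n → ℝ, (∑ i, v i * cl0 k x s b b' (put b (√s • y) z) i) *
    ((∑ i, v i * y i) ^ 3 - 3 * ∑ i, v i * y i) ∂(gI (Fin n))

section egs

lemma cdp (j : ℕ) : ∃ G, CD (row b) (nuv b v)
    (fun u => c1 k SkS (row b) (nuv b v) u ^ j) G := cd_c1p j

lemma egRp (hx : 0 ≤ x) (j : ℕ) :
    EG (RR k SkS x (cf s) fun u => c1 k SkS (row b) (nuv b v) u ^ j) :=
  eg_RRc (ν := nuv b v) hx (cdp j)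

lemma egRV (hx : 0 ≤ x) (lam : ℝ) :
    EG (RR k SkS x (cf s) (Vo k SkS (row b) (nuv b v) lam)) :=
  eg_RRc (ν := nuv b v) hx (cdo_Vo lam)

lemma egRm (hx : 0 ≤ x) (j : ℕ) :
    EG (RR k SkS x (cf s) (am k SkS (row b) (nuv b v) j)) :=
  eg_RRc (ν := nuv b v) hx (cdo_am j)

lemma eg_Tφ (hx : 0 ≤ x) (hs : 0 < s) {φ : ℝ → ℝ} (hφ : EG fun z => φ (za b v s z)) :
    EG (Tφ k x s b v φ) := by
  have e : Tφ k x s b v φ = AvP s (row b) (fun z =>
      RR k SkS x (cf s) (c1 k SkS (row b) (nuv b v)) z * φ (za b v s z)) :=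
    funext fun z => Tφ_eq hs φ z
  rw [e]
  exact eg_AvP ((eg_c1R hx).mul hφ) s _

end egs

lemma Pm_eq (hx : 0 ≤ x) (z : Pair n → ℝ) : AvP s (row b') (AvP s (row b)
    (RR k SkS x (cf s) fun u => c1 k SkS (row b) (nuv b v) u ^ 2)) z = Pm k x s b b' v z := by
  rw [AvP_AvP (egRp hx 2), Finset.union_comm]
  rfl

lemma Vm_eq (hx : 0 ≤ x) (lam : ℝ) (z : Pair n → ℝ) : AvP s (row b') (AvP s (row b)
    (RR k SkS x (cf s) (Vo k SkS (row b) (nuv b v) lam))) z = Vm k x s b b' v lam z := by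
  rw [AvP_AvP (egRV hx lam), Finset.union_comm]
  rfl

lemma Pm_nonneg (z : Pair n → ℝ) : 0 ≤ Pm k x s b b' v z :=
  AvP_nonneg (fun z => RR_nonneg' (eg_c1.pow 2) (fun _ => sq_nonneg _) z) z

lemma Vm_nonneg (lam : ℝ) (z : Pair n → ℝ) : 0 ≤ Vm k x s b b' v lam z :=
  AvP_nonneg (fun z => RR_nonneg' (eg_Vo lam) (fun u => Vo_nonneg lam u) z) z

/-- **The third Stein coefficient of the clean row function.** -/
theorem A3_le (hk : 0 ≤ k) (hx : 0 ≤ x) (hx1 : x ≤ 1) (hs : 0 < s) (hs1 : s ≤ 1)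
    (hbb : b ≠ b') (hv : ∑ i, v i ^ 2 = 1) (hb : v b = 0) (hb' : v b' = 0) {lam : ℝ}
    (hl : 0 ≤ lam) {ep : ℝ} (hep : 0 < ep) (z : Pair n → ℝ) :
    A3 k x s b b' v z ≤ (√s * k) ^ 3 *
      (-2 * ((lam - Pm k x s b b' v z) * (lam - 3 * Pm k x s b b' v z)) +
        20 * Vm k x s b b' v lam z + 12 * (ep * lam ^ 2 + Vm k x s b b' v lam z / ep) +
        208 * x * (Vm k x s b b' v lam z + lam ^ 2)) := by
  have hd := dir_nuv hv hb
  have hza := eg_za b v s
  have hφ : EG fun z => (fun t : ℝ => t ^ 3 - 3 * t) (za b v s z) :=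
    (hza.pow 3).sub (hza.const_mul 3)
  have h1 := Aφ_eq (k := k) (x := x) hx hs hbb hb hb' (φ := fun t : ℝ => t ^ 3 - 3 * t) hφ z
  have h1' : A3 k x s b b' v z =
      AvP s (row b') (Tφ k x s b v fun t : ℝ => t ^ 3 - 3 * t) z := h1
  set p : (Pair n → ℝ) → ℝ := AvP s (row b)
    (RR k SkS x (cf s) fun u => c1 k SkS (row b) (nuv b v) u ^ 2) with hp
  set q : (Pair n → ℝ) → ℝ := AvP s (row b)
    (RR k SkS x (cf s) (Vo k SkS (row b) (nuv b v) lam)) with hq
  have egp : EG p := eg_AvP (egRp hx 2) s _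
  have egq : EG q := eg_AvP (egRV hx lam) s _
  set K := (√s * k) ^ 3 with hK
  have hK0 : 0 ≤ K := by positivity
  have hpt : ∀ z', Tφ k x s b v (fun t : ℝ => t ^ 3 - 3 * t) z' ≤
      (K * (-2 * lam ^ 2 + 12 * ep * lam ^ 2 + 208 * x * lam ^ 2) + (K * (8 * lam)) * p z') +
        ((K * (-6)) * p z' ^ 2 + (K * (20 + 12 / ep + 208 * x)) * q z') := by
    intro z'
    have h2 := T3_le (k := k) (S := SkS (n := n)) (A0 := row b) (ν := nuv b v)
      (l := Lid (Pair n) s) (s := s) (w0 := Sum.elim z' 0) hd hk hx hx1 ⟨hs.le, hs1⟩ hl hep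
    have e1 : Pb k SkS x (row b) (nuv b v) (Lid (Pair n) s) s (Sum.elim z' 0) = p z' :=
      Rb_pos z' _
    have e2 : Vb k SkS x (row b) (nuv b v) (Lid (Pair n) s) s (Sum.elim z' 0) lam = q z' :=
      Rb_pos z' _
    rw [e1, e2] at h2
    refine (le_of_eq ?_).trans (h2.trans (le_of_eq ?_))
    · rfl
    · field_simp
      ring
  have g1 : EG fun z' => (K * (-2 * lam ^ 2 + 12 * ep * lam ^ 2 + 208 * x * lam ^ 2) +
      (K * (8 * lam)) * p z') := (EG.const _).add (egp.const_mul _)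
  have g2 : EG fun z' => ((K * (-6)) * p z' ^ 2 + (K * (20 + 12 / ep + 208 * x)) * q z') :=
    ((egp.pow 2).const_mul _).add (egq.const_mul _)
  have h3 := AvP_mono (s := s) (R := row b') (eg_Tφ (k := k) hx hs hφ) (g1.add g2) hpt z
  rw [h1']
  refine h3.trans ?_
  rw [AvP_add g1 g2, AvP_add (EG.const _) (egp.const_mul _),
    AvP_add ((egp.pow 2).const_mul _) (egq.const_mul _), AvP_const, AvP_const_mul,
    AvP_const_mul, AvP_const_mul, hp, hq, Pm_eq hx, Vm_eq hx, ← hp]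
  have h4 : Pm k x s b b' v z ^ 2 ≤ AvP s (row b') (fun z' => p z' ^ 2) z := by
    have := AvP_sq_le (s := s) (R := row b') egp z
    rwa [hp, Pm_eq hx, ← hp] at this
  have h5 : K * (-6) * AvP s (row b') (fun z' => p z' ^ 2) z ≤
      K * (-6) * Pm k x s b b' v z ^ 2 :=
    mul_le_mul_of_nonpos_left h4 (by nlinarith)
  refine (add_le_add_right (add_le_add_left h5 _) _).trans (le_of_eq ?_)
  field_simp
  ring

/-- the covariance of `T²` -/
noncomputable def Qm (k x s : ℝ) (b b' : Fin n) (v : Fin n → ℝ) (z : Pair n → ℝ) : ℝ :=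
  AvP s (row b ∪ row b') (RR k SkS x (cf s) (am k SkS (row b) (nuv b v) 2)) z

/-- the average of `(rl⟨T⟩)²` -/
noncomputable def Em' (k x s : ℝ) (b b' : Fin n) (v : Fin n → ℝ) (z : Pair n → ℝ) : ℝ :=
  AvP s (row b ∪ row b')
    (fun z => RR k SkS x (cf s) (c1 k SkS (row b) (nuv b v)) z ^ 2) z

lemma Qm_dist (hx : 0 ≤ x) (lam : ℝ) (z : Pair n → ℝ) :
    |Qm k x s b b' v z - lam| ≤ √(Vm k x s b b' v lam z) := by
  have e0 : EG (am k SkS (row b) (nuv b v) 2) := eg_am 2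
  have h1 : ∀ z', RR k SkS x (cf s) (am k SkS (row b) (nuv b v) 2) z' - lam =
      RR k SkS x (cf s) (fun u => am k SkS (row b) (nuv b v) 2 u + -lam) z' := by
    intro z'
    rw [RR_add' e0 (EG.const _), RR_const', sub_eq_add_neg]
  have eR := egRm (k := k) (s := s) (b := b) (v := v) hx 2
  have eR2 : EG fun z' => RR k SkS x (cf s) (am k SkS (row b) (nuv b v) 2) z' - lam :=
    eR.sub (EG.const _)
  have h2 := AvP_sq_le (s := s) (R := row b ∪ row b') eR2 z
  have h3 : AvP s (row b ∪ row b')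
      (fun z' => RR k SkS x (cf s) (am k SkS (row b) (nuv b v) 2) z' - lam) z =
      Qm k x s b b' v z - lam := by
    rw [AvP_sub eR (EG.const _), AvP_const]
    rfl
  rw [h3] at h2
  have h4 : AvP s (row b ∪ row b')
      (fun z' => (RR k SkS x (cf s) (am k SkS (row b) (nuv b v) 2) z' - lam) ^ 2) z ≤
      Vm k x s b b' v lam z := by
    refine AvP_mono (eR2.pow 2) (egRV hx lam) (fun z' => ?_) z
    rw [h1]
    refine (RR_sq_le (e0.add (EG.const _)) z').trans ?_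
    refine RR_mono' ((e0.add (EG.const _)).pow 2) (eg_Vo lam) (fun u => ?_) z'
    have := am2_dist (k := k) (S := SkS (n := n)) (A0 := row b) (ν := nuv b v) lam u
    rwa [sub_eq_add_neg] at this
  rw [← Real.sqrt_sq_eq_abs]
  exact Real.sqrt_le_sqrt (h2.trans h4)

lemma Pm_le_Qm (hx : 0 ≤ x) (z : Pair n → ℝ) : Pm k x s b b' v z ≤ Qm k x s b b' v z :=
  AvP_mono (egRp hx 2) (egRm hx 2)
    (fun z' => RR_mono' (eg_c1.pow 2) (eg_am 2) (fun u => am1_sq_le u) z') z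

lemma Em_bds (hx : 0 ≤ x) (z : Pair n → ℝ) :
    0 ≤ Em' k x s b b' v z ∧ Em' k x s b b' v z ≤ Pm k x s b b' v z :=
  ⟨AvP_nonneg (fun _ => sq_nonneg _) z,
    AvP_mono ((eg_c1R hx).pow 2) (egRp hx 2) (fun z' => RR_sq_le eg_c1 z') z⟩

/-- **The first Stein coefficient of the clean row function**, exact. -/
theorem A1_eq (hx : 0 ≤ x) (hs : 0 < s) (hs1 : s ≤ 1)
    (hbb : b ≠ b') (hv : ∑ i, v i ^ 2 = 1) (hb : v b = 0) (hb' : v b' = 0) (z : Pair n → ℝ) :
    A1 k x s b b' v z = √s * (k * (Qm k x s b b' v z - Pm k x s b b' v z +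
      x * (Pm k x s b b' v z - Em' k x s b b' v z))) := by
  have hd := dir_nuv hv hb
  have hza := eg_za b v s
  have hφ : EG fun z => (fun t : ℝ => t) (za b v s z) := hza
  have h1 := Aφ_eq (k := k) (x := x) hx hs hbb hb hb' (φ := fun t : ℝ => t) hφ z
  have h1' : A1 k x s b b' v z = AvP s (row b') (Tφ k x s b v fun t : ℝ => t) z := h1
  have eR1 := egRp (k := k) (s := s) (b := b) (v := v) hx 2
  have eR2 := egRm (k := k) (s := s) (b := b) (v := v) hx 2
  have eR3 : EG fun z => RR k SkS x (cf s) (c1 k SkS (row b) (nuv b v)) z ^ 2 :=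
    (eg_c1R hx).pow 2
  set G : (Pair n → ℝ) → ℝ := fun z =>
    (√s * k) * RR k SkS x (cf s) (am k SkS (row b) (nuv b v) 2) z +
      ((-(√s * k) + √s * k * x) * RR k SkS x (cf s)
        (fun u => c1 k SkS (row b) (nuv b v) u ^ 2) z +
        (-(√s * k * x)) * RR k SkS x (cf s) (c1 k SkS (row b) (nuv b v)) z ^ 2) with hG
  have egG : EG G := (eR2.const_mul _).add ((eR1.const_mul _).add (eR3.const_mul _))
  have hpt : Tφ k x s b v (fun t : ℝ => t) = AvP s (row b) G := by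
    funext z'
    have h2 := T1_eq (k := k) (S := SkS (n := n)) (A0 := row b) (ν := nuv b v) hd hx
      (Lid (Pair n) s) ⟨hs.le, hs1⟩ (Sum.elim z' 0)
    have e0 : Tφ k x s b v (fun t : ℝ => t) z' =
      ∫ y, rl k SkS x (row b) (Lid (Pair n) s) (c1 k SkS (row b) (nuv b v)) s
        (mrg (row b) (Sum.elim z' 0) y) * zn (nuv b v) y ∂(gI (Pair n)) := rfl
    have e2 : Rb k SkS x (row b) (Lid (Pair n) s) s (Sum.elim z' 0)
        (c2 k SkS (row b) (nuv b v)) = AvP s (row b)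
        (RR k SkS x (cf s) (c2 k SkS (row b) (nuv b v))) z' := Rb_pos z' _
    have e3 : ∫ y, e1' k SkS x (row b) (nuv b v) (Lid (Pair n) s) s
        (mrg (row b) (Sum.elim z' 0) y) ∂(gI (Pair n)) = AvP s (row b) (fun z =>
        RR k SkS x (cf s) (fun u => c1 k SkS (row b) (nuv b v) u ^ 2) z -
          RR k SkS x (cf s) (c1 k SkS (row b) (nuv b v)) z ^ 2) z' := by
      unfold e1' AvP
      simp only [rl_mrg]
    have e4 : RR k SkS x (cf s) (c2 k SkS (row b) (nuv b v)) = fun z =>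
        RR k SkS x (cf s) (am k SkS (row b) (nuv b v) 2) z + (-1) *
          RR k SkS x (cf s) (fun u => c1 k SkS (row b) (nuv b v) u ^ 2) z := by
      funext z
      have e5 : c2 k SkS (row b) (nuv b v) = fun u => am k SkS (row b) (nuv b v) 2 u +
          (-1) * (fun u => c1 k SkS (row b) (nuv b v) u ^ 2) u := by
        funext u
        unfold c2 c1
        ring
      rw [e5, RR_add' (eg_am 2) ((eg_c1.pow 2).const_mul _), RR_cm]
    rw [e0, h2, e2, e3, e4, AvP_add eR2 (eR1.const_mul _), AvP_const_mul, AvP_sub eR1 eR3, hG,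
      AvP_add (eR2.const_mul _) ((eR1.const_mul _).add (eR3.const_mul _)),
      AvP_add (eR1.const_mul _) (eR3.const_mul _), AvP_const_mul, AvP_const_mul, AvP_const_mul]
    ring
  rw [h1', hpt, AvP_AvP egG, Finset.union_comm, hG,
    AvP_add (eR2.const_mul _) ((eR1.const_mul _).add (eR3.const_mul _)),
    AvP_add (eR1.const_mul _) (eR3.const_mul _), AvP_const_mul, AvP_const_mul, AvP_const_mul]
  unfold Qm Pm Em'
  ring

/-- **The first Stein coefficient**: `A1 = √s k (lam - Pm)` up to `√Vm` and `x Pm`. -/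
theorem A1_bds (hk : 0 ≤ k) (hx : 0 ≤ x) (hs : 0 < s) (hs1 : s ≤ 1)
    (hbb : b ≠ b') (hv : ∑ i, v i ^ 2 = 1) (hb : v b = 0) (hb' : v b' = 0) (lam : ℝ)
    (z : Pair n → ℝ) :
    √s * k * (lam - Pm k x s b b' v z - √(Vm k x s b b' v lam z)) ≤ A1 k x s b b' v z ∧
    A1 k x s b b' v z ≤ √s * k * (lam - Pm k x s b b' v z +
      √(Vm k x s b b' v lam z) + x * Pm k x s b b' v z) := by
  rw [A1_eq hx hs hs1 hbb hv hb hb', ← mul_assoc]
  have h1 := abs_le.1 (Qm_dist (k := k) (s := s) (b := b) (b' := b') (v := v) hx lam z)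
  have h2 := Em_bds (k := k) (s := s) (b := b) (b' := b') (v := v) hx z
  have hsk : 0 ≤ √s * k := by positivity
  have h3 := mul_nonneg hx (sub_nonneg.2 h2.2)
  have h4 := mul_nonneg hx h2.1
  constructor
  · refine mul_le_mul_of_nonneg_left ?_ hsk
    linarith [h1.1]
  · refine mul_le_mul_of_nonneg_left ?_ hsk
    linarith [h1.2]

lemma Pm_le (hx : 0 ≤ x) (lam : ℝ) (z : Pair n → ℝ) :
    Pm k x s b b' v z ≤ lam + √(Vm k x s b b' v lam z) := by
  have h1 := (abs_le.1 (Qm_dist (k := k) (s := s) (b := b) (b' := b') (v := v) hx lam z)).2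
  have h2 := Pm_le_Qm (k := k) (s := s) (b := b) (b' := b') (v := v) hx z
  linarith

/-- **KAPPA for the clean row function.** -/
theorem kappaS (hk : 0 ≤ k) (hx : 0 ≤ x) (hs : 0 < s) (hs1 : s ≤ 1)
    (hbb : b ≠ b') (hv : ∑ i, v i ^ 2 = 1) (hb : v b = 0) (hb' : v b' = 0) {lam : ℝ}
    (hl : 0 ≤ lam) {c : ℝ} (hc : 0 < c) (hc1 : c ≤ 1 / 3) (z : Pair n → ℝ)
    (hV : Vm k x s b b' v lam z ≤ (c / 100) ^ 2 * lam ^ 2) (hxc : x ≤ c / 1000)
    (hA : √s * k * ((2 / 3 + 2 * c) * lam) ≤ A1 k x s b b' v z) :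
    c * ((√s * k) ^ 3 * lam ^ 2) ≤ -A3 k x s b b' v z := by
  rcases hk.eq_or_lt with hk0 | hkp
  · have h1 := A3_le (k := k) hk hx (by linarith) hs hs1 hbb hv hb hb' hl one_pos z
    rw [← hk0] at h1 ⊢
    simp only [mul_zero, ne_eq, OfNat.ofNat_ne_zero, not_false_eq_true, zero_pow, zero_mul] at h1 ⊢
    linarith
  have hx1 : x ≤ 1 := by linarith
  have h1 := A3_le (k := k) hk hx hx1 hs hs1 hbb hv hb hb' hl (ep := c / 100) (by positivity) z
  have h0 := (A1_bds (k := k) hk hx hs hs1 hbb hv hb hb' lam z).2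
  have hPl := Pm_le (k := k) (s := s) (b := b) (b' := b') (v := v) hx lam z
  set P := Pm k x s b b' v z with hP'
  set V := Vm k x s b b' v lam z with hV'
  have hP0 : 0 ≤ P := Pm_nonneg z
  have hV0 : 0 ≤ V := Vm_nonneg lam z
  have hsqV : √V ≤ c / 100 * lam := by
    rw [show c / 100 * lam = √((c / 100 * lam) ^ 2) from
      (Real.sqrt_sq (by positivity)).symm]
    refine Real.sqrt_le_sqrt (hV.trans (le_of_eq (by ring)))
  have hskp : 0 < √s * k := by
    have := Real.sqrt_pos.2 hs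
    positivity
  have hP : P ≤ (1 / 3 - c) * lam := by
    have h2 : (2 / 3 + 2 * c) * lam ≤ lam - P + √V + x * P :=
      le_of_mul_le_mul_left (hA.trans h0) hskp
    have h3 : x * P ≤ c / 1000 * ((1 + c / 100) * lam) := by
      have : P ≤ (1 + c / 100) * lam := by linarith
      exact mul_le_mul hxc this hP0 (by positivity)
    nlinarith [mul_nonneg hc.le hl]
  have hsk : 0 ≤ (√s * k) ^ 3 := by positivity
  have h2 : V / (c / 100) ≤ c / 100 * lam ^ 2 := by
    rw [div_le_iff₀ (by positivity)]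
    calc V ≤ (c / 100) ^ 2 * lam ^ 2 := hV
      _ = _ := by ring
  have h3 : 2 * c * lam ^ 2 ≤ (lam - P) * (lam - 3 * P) := by
    have a1 : 2 / 3 * lam ≤ lam - P := by nlinarith
    have a2 : 3 * c * lam ≤ lam - 3 * P := by nlinarith
    have := mul_le_mul a1 a2 (by positivity) (by linarith [mul_nonneg hc.le hl])
    calc 2 * c * lam ^ 2 = 2 / 3 * lam * (3 * c * lam) := by ring
      _ ≤ _ := this
  have h4 : V ≤ c / 900 * lam ^ 2 := by
    refine hV.trans (mul_le_mul_of_nonneg_right ?_ (sq_nonneg _))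
    nlinarith
  have h5 : x * (V + lam ^ 2) ≤ c / 1000 * (2 * lam ^ 2) := by
    have : V + lam ^ 2 ≤ 2 * lam ^ 2 := by nlinarith [sq_nonneg lam]
    exact mul_le_mul hxc this (by positivity) (by positivity)
  have h6 : -2 * ((lam - P) * (lam - 3 * P)) + 20 * V +
      12 * (c / 100 * lam ^ 2 + V / (c / 100)) + 208 * x * (V + lam ^ 2) ≤ -(c * lam ^ 2) := by
    have e : 208 * x * (V + lam ^ 2) = 208 * (x * (V + lam ^ 2)) := by ring
    rw [e]
    nlinarith [mul_nonneg hc.le (sq_nonneg lam)]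
  have h7 := h1.trans (mul_le_mul_of_nonneg_left h6 hsk)
  linarith

end Vale.Agent.P146.H722
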